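import Crest.Agent.N207.O.Alg1

-- ▼ part N207/O/Alg2
section

/-!
# Row 207, block O (helper88): algebra of the class `Fr.Cl`, part 2
-/

set_option autoImplicit false
set_option linter.unusedSectionVars false

open Set Filter Topology Metric

noncomputable section

namespace Crest.Agent.N207.O

variable {X κ E E' E'' : Type*} [NormedAddCommGroup X] [NormedSpace ℂ X]
  [NormedAddCommGroup E] [NormedSpace ℂ E] [NormedAddCommGroup E'] [NormedSpace ℂ E']
  [NormedAddCommGroup E''] [NormedSpace ℂ E'']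
  {F : Fr X κ} {l : List κ} {a : κ} {b b' : ℝ} {g g' : X → E}

open Fr

theorem bil_diff (B : E →L[ℂ] E' →L[ℂ] E'') {f : X → E'} {S : Set X} (h : DifferentiableOn ℂ g S)
    (h' : DifferentiableOn ℂ f S) : DifferentiableOn ℂ (fun x => B (g x) (f x)) S :=
  (B.differentiable.comp_differentiableOn h).clm_apply h'

theorem bil_aux (B : E →L[ℂ] E' →L[ℂ] E'') : ∀ {l : List κ} {b b' : ℝ} {g : X → E} {f : X → E'},
    F.Ok l → 0 ≤ b → 0 ≤ b' → F.Cl l b g → F.Cl l b' f → F.Cl l (b + b') fun x => B (g x) (f x)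
  | [], _, _, _, _, _, _, _, h, h' => by
    obtain ⟨C, hC0, hC⟩ := h.2.pos
    obtain ⟨C', _, hC'⟩ := h'.2.pos
    refine ⟨bil_diff B h.1 h'.1, ‖B‖ * C * C', fun x hx => (B.le_opNorm₂ _ _).trans ?_⟩
    have := hC x hx; have := hC' x hx
    gcongr
  | a :: l, b, b', g, f, hF, hb, hb', h, h' => by
    classical
    obtain ⟨c, hc⟩ := h.ex hF
    obtain ⟨c', hc'⟩ := h'.ex hF
    refine Cl.of_family hF (bil_diff B hc.diff hc'.diff) (fun i : ℝ × ℝ => i.1 + i.2)
      (fun i x => B (c i.1 x) (c' i.2 x))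
      (fun i => by simpa using bil_aux B hF.1 le_rfl le_rfl (hc.cl i.1) (hc'.cl i.2))
      (fun i hi => ?_) fun K hK => ?_
    · funext x
      by_cases h1 : i.1 < b
      · simp [hc.lo _ h1]
      · simp [hc'.lo i.2 (by linarith)]
    obtain ⟨S, hS⟩ := hc.fin K
    obtain ⟨S', hS'⟩ := hc'.fin K
    obtain ⟨C, hC⟩ := hc.est K S hS
    obtain ⟨C', hC'⟩ := hc'.est K S' hS'
    obtain ⟨M', hM0', hM'⟩ := (A1_bd hF hb' h').pos
    obtain ⟨M, hM⟩ := tail_le hF (τ := id) (fun t => A1_bd hF.1 le_rfl (hc.cl t)) (K := 0) S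
      fun t _ ht => hc.lo t (lt_of_lt_of_le ht hb)
    refine ⟨S ×ˢ S', ‖B‖ * C * M' + ‖B‖ * M * C', fun i hi hs => ?_, fun x hx => ?_⟩
    · funext x
      by_cases h1 : i.1 < b
      · simp [hc.lo _ h1]
      by_cases h2 : i.2 < b'
      · simp [hc'.lo _ h2]
      by_cases h3 : i.1 ∈ S
      · have h4 : i.2 ∉ S' := fun h4 => hs (Finset.mem_product.2 ⟨h3, h4⟩)
        simp [hS' i.2 (by linarith) h4]
      · simp [hS i.1 (by linarith) h3]
    have e : B (g x) (f x) - ∑ i ∈ S ×ˢ S', F.ex a (i.1 + i.2) x • B (c i.1 x) (c' i.2 x) =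
        B (g x - ∑ t ∈ S, F.ex a t x • c t x) (f x) +
          B (∑ t ∈ S, F.ex a t x • c t x) (f x - ∑ t ∈ S', F.ex a t x • c' t x) := by
      simp only [Finset.sum_product, map_sub, map_sum, map_smul, sub_apply,
        sum_apply, smul_apply, ex_add, mul_smul,
        Finset.smul_sum]
      rw [Finset.sum_comm (s := S') (t := S)]
      simp only [smul_comm (F.ex a _ x) (F.ex a _ x)]
      abel
    rw [e]
    have h1 := hC x hx
    have h2 := hC' x hx
    have h3 := hM' x hx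
    have h4 := hM x hx
    simp only [id, zero_mul, neg_zero, Real.exp_zero, mul_one] at h4
    have h5 : 0 ≤ C * Real.exp (-(K * (F.s a x).re)) := (norm_nonneg _).trans h1
    have h6 : 0 ≤ M := (norm_nonneg _).trans h4
    refine (norm_add_le _ _).trans ((add_le_add (B.le_opNorm₂ _ _) (B.le_opNorm₂ _ _)).trans ?_)
    calc _ ≤ ‖B‖ * (C * Real.exp (-(K * (F.s a x).re))) * M' +
          ‖B‖ * M * (C' * Real.exp (-(K * (F.s a x).re))) := by gcongr
      _ = _ := by ring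

theorem A3_bil (hF : F.Ok l) (B : E →L[ℂ] E' →L[ℂ] E'') {f : X → E'} (hb : 0 ≤ b) (hb' : 0 ≤ b')
    (h : F.Cl l b g) (h' : F.Cl l b' f) : F.Cl l (b + b') fun x => B (g x) (f x) :=
  bil_aux B hF hb hb' h h'

theorem Fr.A.up (hF : F.Ok (a :: l)) (h : F.A l g) : F.A (a :: l) g :=
  Cl.of_family hF ((A1_diff h).mono hF.sub) (fun _ : Unit => 0) (fun _ => g) (fun _ => h)
    (fun _ h => absurd h (lt_irrefl _)) fun _ _ =>
      ⟨Finset.univ, 0, fun _ _ h => absurd (Finset.mem_univ _) h, fun x _ => by simp [ex_zero]⟩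

theorem A4_lift {l₀ : List κ} : ∀ {l : List κ}, F.Ok l → l₀ <:+ l → F.A l₀ g → F.A l g
  | [], _, hl, h => by rw [List.suffix_nil.1 hl] at h; exact h
  | _ :: _, hF, hl, h => by
    rcases List.suffix_cons_iff.1 hl with rfl | hl
    · exact h
    · exact (A4_lift hF.1 hl h).up hF

namespace Fr

theorem Cl.const (hF : F.Ok l) (e : E) : F.A l fun _ => e :=
  A4_lift hF List.nil_suffix ⟨differentiableOn_const _, ‖e‖, fun _ _ => le_rfl⟩

/-- bounded holomorphic functions on `D []` -/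
theorem A.of_nil (hF : F.Ok l) (h : DifferentiableOn ℂ g (F.D [])) (hb : Bd (F.D []) g) :
    F.A l g := A4_lift hF List.nil_suffix ⟨h, hb⟩

theorem Cl.smul (hF : F.Ok l) {f : X → ℂ} (hb : 0 ≤ b) (hb' : 0 ≤ b') (h : F.Cl l b f)
    (h' : F.Cl l b' g) : F.Cl l (b + b') fun x => f x • g x :=
  A3_bil hF (ContinuousLinearMap.lsmul ℂ ℂ) hb hb' h h'

theorem Cl.mul (hF : F.Ok l) {f g : X → ℂ} (hb : 0 ≤ b) (hb' : 0 ≤ b') (h : F.Cl l b f)
    (h' : F.Cl l b' g) : F.Cl l (b + b') fun x => f x * g x := Cl.smul hF hb hb' h h'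

theorem A.smul (hF : F.Ok l) {f : X → ℂ} (h : F.A l f) (h' : F.A l g) :
    F.A l fun x => f x • g x := by simpa using Cl.smul hF le_rfl le_rfl h h'

theorem A.mul (hF : F.Ok l) {f g : X → ℂ} (h : F.A l f) (h' : F.A l g) :
    F.A l fun x => f x * g x := A.smul hF h h'

theorem Cl.pow (hF : F.Ok l) {f : X → ℂ} (hb : 0 ≤ b) (h : F.Cl l b f) (n : ℕ) :
    F.Cl l (n * b) fun x => f x ^ n := by
  induction n with
  | zero => simpa using Cl.const hF (1 : ℂ)
  | succ n ih =>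
    have := Cl.mul hF (by positivity) hb ih h
    simpa only [pow_succ, Nat.cast_succ, add_mul, one_mul] using this

theorem A.pow (hF : F.Ok l) {f : X → ℂ} (h : F.A l f) (n : ℕ) : F.A l fun x => f x ^ n := by
  simpa using Cl.pow hF le_rfl h n

theorem A.prod {I : Type*} (hF : F.Ok l) (J : Finset I) {f : I → X → ℂ}
    (h : ∀ i ∈ J, F.A l (f i)) : F.A l fun x => ∏ i ∈ J, f i x := by
  classical
  induction J using Finset.induction_on with
  | empty => simpa using Cl.const hF (1 : ℂ)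
  | insert i J hi ih =>
    simp only [Finset.prod_insert hi]
    exact A.mul hF (h i (Finset.mem_insert_self _ _))
      (ih fun j hj => h j (Finset.mem_insert_of_mem hj))

/-- multiplication by `e^{-t s_a}`, any real `t` -/
theorem Cl.ex_smul (hF : F.Ok (a :: l)) (t : ℝ) (h : F.Cl (a :: l) b g) :
    F.Cl (a :: l) (t + b) fun x => F.ex a t x • g x := by
  obtain ⟨c, hc⟩ := h.ex hF
  refine Cl.of_family hF ((hF.diff_ex t).smul hc.diff) (fun u : ℝ => t + u) c hc.cl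
    (fun u hu => hc.lo u (by linarith)) fun K _ => ?_
  obtain ⟨S, hS⟩ := hc.fin (K - t)
  obtain ⟨C, hC⟩ := hc.est _ S hS
  refine ⟨S, C, fun u hu => hS u (by linarith), fun x hx => ?_⟩
  have e : F.ex a t x • g x - ∑ u ∈ S, F.ex a (t + u) x • c u x =
      F.ex a t x • (g x - ∑ u ∈ S, F.ex a u x • c u x) := by
    simp only [smul_sub, Finset.smul_sum, ex_add, mul_smul]
  rw [e, norm_smul, norm_ex]
  calc _ ≤ Real.exp (-(t * (F.s a x).re)) * (C * Real.exp (-((K - t) * (F.s a x).re))) := by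
        gcongr; exact hC x hx
    _ = _ := by
      rw [mul_left_comm, ← Real.exp_add]; congr 2; ring

/-- general summation theorem -/
theorem Cl.series {I : Type*} (hF : F.Ok (a :: l)) {T : I → X → E} {β : I → ℝ}
    (hT : ∀ i, F.Cl (a :: l) (β i) (T i)) (hb : ∀ i, β i < b → T i = 0)
    (hg : DifferentiableOn ℂ g (F.D (a :: l)))
    (he : ∀ K : ℝ, 0 ≤ K → ∃ (J : Finset I) (C : ℝ), (∀ i, β i < K → i ∉ J → T i = 0) ∧
      ∀ x ∈ F.D (a :: l), ‖g x - ∑ i ∈ J, T i x‖ ≤ C * Real.exp (-(K * (F.s a x).re))) :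
    F.Cl (a :: l) b g := by
  classical
  have hT' : ∀ i, ∃ c, F.Ex a l (β i) (T i) c ∧ (T i = 0 → c = 0) := fun i => by
    by_cases h : T i = 0
    · refine ⟨0, ⟨A1_diff (hT i), fun _ => Cl.zero, fun _ _ => rfl,
        fun _ => ⟨∅, fun _ _ _ => rfl⟩, fun _ _ _ => ⟨0, fun x _ => by simp [h]⟩⟩, fun _ => rfl⟩
    · exact ((hT i).ex hF).imp fun c hc => ⟨hc, fun h' => absurd h' h⟩
  choose c hc h0 using hT'
  refine Cl.of_family hF hg (fun i : Σ _ : I, ℝ => i.2) (fun i => c i.1 i.2)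
    (fun i => (hc i.1).cl i.2) (fun i hi => ?_) fun K hK => ?_
  · by_cases h : β i.1 < b
    · rw [h0 _ (hb _ h)]; rfl
    · exact (hc i.1).lo _ (by linarith)
  obtain ⟨J, C, hJ, hC⟩ := he K hK
  choose S hS using fun i => (hc i).fin K
  choose C' hC' using fun i => (hc i).est K (S i) (hS i)
  refine ⟨J.sigma S, C + ∑ i ∈ J, C' i, fun i hi hs => ?_, fun x hx => ?_⟩
  · by_cases h : i.1 ∈ J
    · exact hS i.1 i.2 hi fun h' => hs (Finset.mem_sigma.2 ⟨h, h'⟩)
    by_cases h' : β i.1 < K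
    · rw [h0 _ (hJ _ h' h)]; rfl
    · exact (hc i.1).lo _ (by linarith)
  have e : g x - ∑ i ∈ J.sigma S, F.ex a i.2 x • c i.1 i.2 x = (g x - ∑ i ∈ J, T i x) +
      ∑ i ∈ J, (T i x - ∑ t ∈ S i, F.ex a t x • c i t x) := by
    rw [Finset.sum_sigma, Finset.sum_sub_distrib]; abel
  rw [e, add_mul, Finset.sum_mul]
  exact (norm_add_le _ _).trans (add_le_add (hC x hx)
    (norm_sum_le_of_le _ fun i _ => hC' i x hx))

/-- splitting off the coefficient of the lowest exponent -/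
theorem Ex.split (hF : F.Ok (a :: l)) {c : ℝ → X → E} (h : F.Ex a l b g c) :
    ∃ (γ : ℝ) (g1 : X → E), 0 < γ ∧ F.A (a :: l) g1 ∧
      ∀ x, g x = F.ex a b x • (c b x + F.ex a γ x • g1 x) := by
  classical
  obtain ⟨S, hS⟩ := h.fin (b + 1)
  obtain ⟨γ, hγ, hγ1, hγS⟩ : ∃ γ : ℝ, 0 < γ ∧ γ ≤ 1 ∧ ∀ t ∈ S, b < t → b + γ ≤ t := by
    clear hS
    induction S using Finset.induction_on with
    | empty => exact ⟨1, one_pos, le_rfl, fun _ h => absurd h (by simp)⟩
    | insert u S _ ih =>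
      obtain ⟨γ, h1, h2, h3⟩ := ih
      by_cases hu : b < u
      · refine ⟨min γ (u - b), lt_min h1 (by linarith), (min_le_left _ _).trans h2, fun t ht h => ?_⟩
        rcases Finset.mem_insert.1 ht with rfl | ht
        · have := min_le_right γ (t - b); linarith
        · have := min_le_left γ (u - b); have := h3 t ht h; linarith
      · refine ⟨γ, h1, h2, fun t ht h => ?_⟩
        rcases Finset.mem_insert.1 ht with rfl | ht
        · exact absurd h hu
        · exact h3 t ht h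
  have h1 : F.Cl (a :: l) (b + γ) fun x => g x - F.ex a b x • c b x := by
    refine ⟨h.diff.sub ((hF.diff_ex b).smul ((A1_diff (h.cl b)).mono hF.sub)),
      Function.update c b 0, fun t => ?_, fun t ht => ?_, fun K => ?_⟩
    · by_cases ht : t = b
      · rw [ht, Function.update_self]; exact Cl.zero
      · rw [Function.update_of_ne ht]; exact h.cl t
    · rcases lt_trichotomy t b with h1 | h1 | h1
      · rw [Function.update_of_ne h1.ne]; exact h.lo t h1
      · rw [h1, Function.update_self]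
      · rw [Function.update_of_ne h1.ne']
        exact hS t (by linarith) fun h2 => by have := hγS t h2 h1; linarith
    obtain ⟨S', hS'⟩ := h.fin K
    obtain ⟨C, hC⟩ := h.est K (insert b (S'.erase b)) fun t ht hs =>
      hS' t ht fun h' => hs (by by_cases e : t = b <;> simp [e, h'])
    refine ⟨S'.erase b, C, fun t ht hs => ?_, fun x hx => ?_⟩
    · by_cases e : t = b
      · rw [e, Function.update_self]
      · rw [Function.update_of_ne e]; exact hS' t ht fun h' => hs (by simp [e, h'])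
    · have := hC x hx
      rw [Finset.sum_insert (Finset.notMem_erase _ _), ← sub_sub] at this
      convert this using 3
      exact Finset.sum_congr rfl fun t ht => by
        rw [Function.update_of_ne (Finset.ne_of_mem_erase ht)]
  refine ⟨γ, fun x => F.ex a (-(b + γ)) x • (g x - F.ex a b x • c b x), hγ,
    by simpa using h1.ex_smul hF (-(b + γ)), fun x => ?_⟩
  rw [smul_add, smul_smul, smul_smul, ← ex_add, ← ex_add]
  simp [ex_zero]

/-- projection to the lower level -/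
theorem A.proj (hF : F.Ok (a :: l)) (h : F.A (a :: l) g) : ∃ (c g1 : X → E) (γ : ℝ), 0 < γ ∧
    F.A l c ∧ F.A (a :: l) g1 ∧ ∀ x, g x = c x + F.ex a γ x • g1 x := by
  obtain ⟨c, hc⟩ := Cl.ex hF h
  obtain ⟨γ, g1, h1, h2, h3⟩ := hc.split hF
  exact ⟨c 0, g1, γ, h1, hc.cl 0, h2, fun x => by simpa [ex_zero] using h3 x⟩

/-- the lowest coefficient that does not vanish on `D l` -/
theorem Ex.lead (hF : F.Ok (a :: l)) {c : ℝ → X → E} (h : F.Ex a l b g c)
    (h0 : ∃ t, ¬ EqOn (c t) 0 (F.D l)) : ∃ (t γ : ℝ) (g1 : X → E), b ≤ t ∧ 0 < γ ∧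
      ¬ EqOn (c t) 0 (F.D l) ∧ F.A (a :: l) g1 ∧
      ∀ x, g x = F.ex a t x • (c t x + F.ex a γ x • g1 x) := by
  classical
  obtain ⟨t1, ht1⟩ := h0
  obtain ⟨S, hS⟩ := h.fin (t1 + 1)
  have hz : ∀ t, c t = 0 → EqOn (c t) 0 (F.D l) := fun t e x _ => by rw [e]
  obtain ⟨t, ht, hmin⟩ := (S.filter fun t => ¬ EqOn (c t) 0 (F.D l)).exists_min_image id
    ⟨t1, Finset.mem_filter.2 ⟨by_contra fun h' => ht1 (hz _ (hS t1 (by linarith) h')), ht1⟩⟩
  have ht' := (Finset.mem_filter.1 ht).2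
  have hlt : t ≤ t1 := hmin t1
    (Finset.mem_filter.2 ⟨by_contra fun h' => ht1 (hz _ (hS t1 (by linarith) h')), ht1⟩)
  have hlow : ∀ u < t, EqOn (c u) 0 (F.D l) := fun u hu => by_contra fun h' => by
    have := hmin u
      (Finset.mem_filter.2 ⟨by_contra fun h'' => h' (hz _ (hS u (by linarith) h'')), h'⟩)
    exact absurd hu (not_lt.2 this)
  have h' : F.Ex a l t g fun u => if u < t then 0 else c u := by
    refine ⟨h.diff, fun u => ?_, fun u hu => if_pos hu, fun K => (h.fin K).imp fun S hS u hu hs => ?_,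
      fun K S' hS' => ?_⟩
    · split_ifs
      · exact Cl.zero
      · exact h.cl u
    · split_ifs
      · rfl
      · exact hS u hu hs
    obtain ⟨S1, hS1⟩ := h.fin K
    obtain ⟨C, hC⟩ := h.est K S1 hS1
    refine est_any hF (τ := id) (d := fun u => if u < t then 0 else c u) (J := S1) (C := C)
      (fun u => ?_) (fun u hu hs => ?_) hS' fun x hx => ?_
    · split_ifs
      · exact ⟨0, fun _ _ => by simp⟩
      · exact A1_bd hF.1 le_rfl (h.cl u)
    · split_ifs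
      · rfl
      · exact hS1 u hu hs
    · convert hC x hx using 3
      refine Finset.sum_congr rfl fun u _ => ?_
      dsimp only [id]
      split_ifs with hu
      · rw [hlow u hu (hF.sub hx)]
      · rfl
  obtain ⟨γ, g1, h1, h2, h3⟩ := h'.split hF
  refine ⟨t, γ, g1, not_lt.1 fun hb => ht' (hz _ (h.lo t hb)), h1, ht', h2, fun x => ?_⟩
  simpa using h3 x

/-- all coefficients vanish: flat -/
theorem Ex.flat (hF : F.Ok (a :: l)) {c : ℝ → X → E} (h : F.Ex a l b g c)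
    (h0 : ∀ t, EqOn (c t) 0 (F.D l)) (K : ℝ) :
    ∃ C : ℝ, ∀ x ∈ F.D (a :: l), ‖g x‖ ≤ C * Real.exp (-(K * (F.s a x).re)) := by
  obtain ⟨S, hS⟩ := h.fin K
  obtain ⟨C, hC⟩ := h.est K S hS
  refine ⟨C, fun x hx => ?_⟩
  have := hC x hx
  rwa [Finset.sum_eq_zero fun t _ => by rw [h0 t (hF.sub hx)]; simp, sub_zero] at this

end Fr

theorem A5_ex (hF : F.Ok (a :: l)) {t : ℝ} (_ht : 0 ≤ t) (h : F.A (a :: l) g) :
    F.Cl (a :: l) t fun x => F.ex a t x • g x := by simpa using Cl.ex_smul hF t h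

theorem A6_series (hF : F.Ok (a :: l)) {T : ℕ → X → E} {β : ℕ → ℝ} (h0 : ∀ n, 0 ≤ β n)
    (hβ : Tendsto β atTop atTop) (hT : ∀ n, F.Cl (a :: l) (β n) (T n))
    (hg : DifferentiableOn ℂ g (F.D (a :: l)))
    (he : ∀ K : ℝ, ∃ N₀ : ℕ, ∀ N ≥ N₀, ∃ C : ℝ, ∀ x ∈ F.D (a :: l),
      ‖g x - ∑ n ∈ Finset.range N, T n x‖ ≤ C * Real.exp (-(K * (F.s a x).re))) :
    F.A (a :: l) g := by
  refine Cl.series hF hT (fun n h => absurd (h0 n) (not_le.2 h)) hg fun K _ => ?_
  obtain ⟨N₀, hN₀⟩ := he K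
  obtain ⟨N₁, hN₁⟩ := eventually_atTop.1 (hβ.eventually_ge_atTop K)
  obtain ⟨C, hC⟩ := hN₀ (max N₀ N₁) (le_max_left _ _)
  refine ⟨_, C, fun n hn hs => absurd (hN₁ n ?_) (not_le.2 hn), hC⟩
  exact (le_max_right _ _).trans (not_lt.1 fun h => hs (Finset.mem_range.2 h))


end Crest.Agent.N207.O
end
end

-- ▼ part N207/O/Alg3

/-!
# Row 207, block O (helper88): standard parts, ranges, pull-backs
-/

set_option autoImplicit false
set_option linter.unusedSectionVars false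

open Set Filter Topology Metric

noncomputable section

namespace Crest.Agent.N207.O

variable {X X' κ κ' E : Type*} [NormedAddCommGroup X] [NormedSpace ℂ X]
  [NormedAddCommGroup X'] [NormedSpace ℂ X'] [NormedAddCommGroup E] [NormedSpace ℂ E]
  {F : Fr X κ} {F' : Fr X' κ'} {l : List κ} {l' : List κ'} {a : κ} {a' : κ'} {b b' : ℝ}
  {g g' : X → E}

open Fr

namespace Fr

theorem St.A {gb : X → E} : ∀ {l : List κ}, F.St l g gb → F.A l g
  | [], h => h.1
  | _ :: _, h => h.1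

theorem St.A0 {gb : X → E} : ∀ {l : List κ} {g : X → E}, F.St l g gb → F.A [] gb
  | [], _, h => h.2.1
  | _ :: _, _, h => by
    obtain ⟨_, c, _, _, _, h1, _⟩ := h
    exact St.A0 h1

theorem St.congr {gb : X → E} (h : F.St l g gb) (e : EqOn g g' (F.D l)) : F.St l g' gb := by
  cases l with
  | nil => exact ⟨A2_congr h.1 e, h.2.1, fun x hx => (e hx).symm.trans (h.2.2 hx)⟩
  | cons a l =>
    obtain ⟨h1, c, g1, γ, h2, h3, h4, h5⟩ := h
    exact ⟨A2_congr h1 e, c, g1, γ, h2, h3, h4, fun x hx => (e hx).symm.trans (h5 x hx)⟩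


theorem St.up {gb : X → E} (hF : F.Ok (a :: l)) (h : F.St l g gb) : F.St (a :: l) g gb :=
  ⟨h.A.up hF, g, 0, 1, one_pos, h, Cl.zero, fun x _ => by simp⟩

theorem St.lift {gb : X → E} {l₀ : List κ} : ∀ {l : List κ}, F.Ok l → l₀ <:+ l → F.St l₀ g gb →
    F.St l g gb
  | [], _, hl, h => by rw [List.suffix_nil.1 hl] at h; exact h
  | _ :: _, hF, hl, h => by
    rcases List.suffix_cons_iff.1 hl with rfl | hl
    · exact h
    · exact (St.lift hF.1 hl h).up hF

theorem St.of_nil (hF : F.Ok l) (h : F.A [] g) : F.St l g g :=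
  St.lift hF List.nil_suffix ⟨h, h, fun _ _ => rfl⟩

theorem In.A {K : Set E} : ∀ {l : List κ}, F.In l K g → F.A l g
  | [], h => h.1
  | _ :: _, h => h.1

theorem In.maps {K : Set E} : ∀ {l : List κ}, F.In l K g → MapsTo g (F.D l) K
  | [], h => h.2
  | _ :: _, h => h.2.1

theorem In.congr {K : Set E} (h : F.In l K g) (e : EqOn g g' (F.D l)) : F.In l K g' := by
  cases l with
  | nil => exact ⟨A2_congr h.1 e, fun x hx => e hx ▸ h.2 hx⟩
  | cons a l =>
    obtain ⟨h1, h0, c, g1, γ, h2, h3, h4, h5⟩ := h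
    exact ⟨A2_congr h1 e, fun x hx => e hx ▸ h0 hx, c, g1, γ, h2, h3, h4,
      fun x hx => (e hx).symm.trans (h5 x hx)⟩

theorem In.mono {K K' : Set E} (hK : K ⊆ K') : ∀ {l : List κ} {g : X → E}, F.In l K g → F.In l K' g
  | [], _, h => ⟨h.1, h.2.mono_right hK⟩
  | _ :: _, _, h => by
    obtain ⟨h1, h0, c, g1, γ, h2, h3, h4, h5⟩ := h
    exact ⟨h1, h0.mono_right hK, c, g1, γ, h2, In.mono hK h3, h4, h5⟩

theorem In.up {K : Set E} (hF : F.Ok (a :: l)) (h : F.In l K g) : F.In (a :: l) K g :=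
  ⟨h.A.up hF, h.maps.mono_left hF.sub, g, 0, 1, one_pos, h, Cl.zero, fun x _ => by simp⟩

theorem In.lift {K : Set E} {l₀ : List κ} : ∀ {l : List κ}, F.Ok l → l₀ <:+ l → F.In l₀ K g →
    F.In l K g
  | [], _, hl, h => by rw [List.suffix_nil.1 hl] at h; exact h
  | _ :: _, hF, hl, h => by
    rcases List.suffix_cons_iff.1 hl with rfl | hl
    · exact h
    · exact (In.lift hF.1 hl h).up hF

end Fr

theorem A7_St : ∀ {l : List κ} {g : X → E}, F.Ok l → F.A l g → ∃ gb, F.St l g gb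
  | [], g, _, h => ⟨g, h, h, fun _ _ => rfl⟩
  | _ :: _, _, hF, h => by
    obtain ⟨c, g1, γ, h1, h2, h3, h4⟩ := h.proj hF
    obtain ⟨gb, h5⟩ := A7_St hF.1 h2
    exact ⟨gb, h, c, g1, γ, h1, h5, h3, fun x _ => h4 x⟩

theorem A7_In : ∀ {l : List κ} {g : X → E}, F.Ok l → F.A l g → ∃ M : ℝ, F.In l (closedBall 0 M) g
  | [], g, _, h => h.2.imp fun M hM => ⟨h, fun x hx => by simpa using hM x hx⟩
  | _ :: _, _, hF, h => by
    obtain ⟨c, g1, γ, h1, h2, h3, h4⟩ := h.proj hF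
    obtain ⟨M, h5⟩ := A7_In hF.1 h2
    obtain ⟨M', h6⟩ := A1_bd hF le_rfl h
    exact ⟨max M M', h, fun x hx => by simpa using Or.inr (h6 x hx), c, g1, γ, h1,
      h5.mono (closedBall_subset_closedBall (le_max_left _ _)), h3, fun x _ => h4 x⟩

/-- `A9_step` keeping the lower bound of the exponents -/
theorem A9_step' (hF : F.Ok (a :: l)) (hF' : F'.Ok (a' :: l')) {Φ : X' → X} {e : X' → ℂ}
    (hm : MapsTo Φ (F'.D (a' :: l')) (F.D (a :: l)))
    (hd : DifferentiableOn ℂ Φ (F'.D (a' :: l')))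
    (hs : ∀ x ∈ F'.D (a' :: l'), F.s a (Φ x) = F'.s a' x + e x)
    (he : ∀ t : ℝ, 0 ≤ t → F'.A (a' :: l') fun x => Complex.exp (-((t : ℂ) * e x)))
    (hB : ∃ B : ℝ, ∀ x ∈ F'.D (a' :: l'), -B ≤ (e x).re)
    (H : ∀ c : X → E, F.A l c → F'.A (a' :: l') (c ∘ Φ)) (hb : 0 ≤ b) (h : F.Cl (a :: l) b g) :
    F'.Cl (a' :: l') b (g ∘ Φ) := by
  obtain ⟨c, hc⟩ := Cl.ex hF h
  obtain ⟨B, hB⟩ := hB
  refine Cl.series hF' (β := id)
    (T := fun t x => F'.ex a' t x • (Complex.exp (-((t : ℂ) * e x)) • c t (Φ x)))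
    (fun t => ?_) (fun t ht => ?_) (hc.diff.comp hd hm) fun K hK => ?_
  · by_cases ht : t < b
    · simpa [hc.lo t ht] using Cl.zero'
    · have ht' : 0 ≤ t := hb.trans (not_lt.1 ht)
      exact A5_ex hF' ht' (A.smul hF' (he t ht') (H _ (hc.cl t)))
  · funext x; simp [hc.lo t ht]
  obtain ⟨S, hS⟩ := hc.fin K
  obtain ⟨C, hC⟩ := hc.est K S hS
  refine ⟨S, max C 0 * Real.exp (K * B), fun t ht hs => by funext x; simp [hS t ht hs],
    fun x hx => ?_⟩
  have h1 := hC _ (hm hx)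
  have e1 : ∀ t : ℝ, F.ex a t (Φ x) = F'.ex a' t x * Complex.exp (-((t : ℂ) * e x)) := fun t => by
    simp only [ex, hs x hx, ← Complex.exp_add]; congr 1; ring
  simp only [e1, mul_smul] at h1
  refine h1.trans ?_
  rw [mul_assoc, ← Real.exp_add]
  refine mul_le_mul (le_max_left _ _) (Real.exp_le_exp.2 ?_) (Real.exp_pos _).le (le_max_right _ _)
  rw [hs x hx, Complex.add_re]
  have := hB x hx
  nlinarith

theorem A9_step (hF : F.Ok (a :: l)) (hF' : F'.Ok (a' :: l')) {Φ : X' → X} {e : X' → ℂ}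
    (hm : MapsTo Φ (F'.D (a' :: l')) (F.D (a :: l)))
    (hd : DifferentiableOn ℂ Φ (F'.D (a' :: l')))
    (hs : ∀ x ∈ F'.D (a' :: l'), F.s a (Φ x) = F'.s a' x + e x)
    (he : ∀ t : ℝ, 0 ≤ t → F'.A (a' :: l') fun x => Complex.exp (-((t : ℂ) * e x)))
    (hB : ∃ B : ℝ, ∀ x ∈ F'.D (a' :: l'), -B ≤ (e x).re)
    (H : ∀ c : X → E, F.A l c → F'.A (a' :: l') (c ∘ Φ)) (h : F.A (a :: l) g) :
    F'.A (a' :: l') (g ∘ Φ) := A9_step' hF hF' hm hd hs he hB H le_rfl h

/-- pull-back with differentiability only on the domains of the suffixes -/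
theorem A9_pull' {F' : Fr X' κ} {Φ : X' → X} : ∀ {l : List κ} {b : ℝ} {g : X → E},
    (∀ l₀, l₀ <:+ l → MapsTo Φ (F'.D l₀) (F.D l₀)) →
    (∀ l₀, l₀ <:+ l → DifferentiableOn ℂ Φ (F'.D l₀)) →
    (∀ a l₀, a :: l₀ <:+ l → ∀ x ∈ F'.D (a :: l₀), F.s a (Φ x) = F'.s a x) →
    F.Cl l b g → F'.Cl l b (g ∘ Φ)
  | [], _, _, hm, hd, _, h => by
    obtain ⟨h1, C, hC⟩ := h
    exact ⟨h1.comp (hd _ List.suffix_rfl) (hm _ List.suffix_rfl), C,
      fun x hx => hC _ (hm _ List.suffix_rfl hx)⟩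
  | a :: l, b, g, hm, hd, hs, h => by
    obtain ⟨h1, c, h2, h3, h4⟩ := h
    have ht : ∀ l₀, l₀ <:+ l → l₀ <:+ a :: l := fun l₀ h => h.trans (List.suffix_cons _ _)
    refine ⟨h1.comp (hd _ List.suffix_rfl) (hm _ List.suffix_rfl), fun t => c t ∘ Φ,
      fun t => A9_pull' (fun l₀ h => hm l₀ (ht _ h)) (fun l₀ h => hd l₀ (ht _ h))
        (fun a l₀ h => hs a l₀ (ht _ h)) (h2 t), fun t ht => by funext x; simp [h3 t ht], fun K => ?_⟩
    obtain ⟨S, C, h5, h6⟩ := h4 K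
    refine ⟨S, C, fun t ht hs => by funext x; simp [h5 t ht hs], fun x hx => ?_⟩
    have := h6 _ (hm _ List.suffix_rfl hx)
    simpa only [ex, hs a l List.suffix_rfl x hx, Function.comp] using this

theorem A9_pull {F' : Fr X' κ} (hF' : F'.Ok l) {Φ : X' → X}
    (hm : ∀ l₀, l₀ <:+ l → MapsTo Φ (F'.D l₀) (F.D l₀)) (hd : DifferentiableOn ℂ Φ (F'.D []))
    (hs : ∀ a l₀, a :: l₀ <:+ l → ∀ x ∈ F'.D (a :: l₀), F.s a (Φ x) = F'.s a x)
    (h : F.Cl l b g) : F'.Cl l b (g ∘ Φ) :=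
  A9_pull' hm (fun _ h => hd.mono ((hF'.suffix h).subset List.nil_suffix)) hs h

namespace Fr

theorem Sub.suffix {F' : Fr X κ} {R : ℝ} {l₀ : List κ} : ∀ {l : List κ}, F'.Sub F R l → l₀ <:+ l →
    F'.Sub F R l₀
  | [], h, hl => by rw [List.suffix_nil.1 hl]; exact h
  | _ :: _, h, hl => by
    rcases List.suffix_cons_iff.1 hl with rfl | hl
    · exact h
    · exact Sub.suffix h.1 hl

theorem Sub.subset {F' : Fr X κ} {R : ℝ} : ∀ {l : List κ}, F'.Sub F R l → F'.D l ⊆ F.D l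
  | [], h => h
  | _ :: _, h => h.2.1

theorem Sub.mono {F' : Fr X κ} {R R' : ℝ} (hR : R' ≤ R) : ∀ {l : List κ}, F'.Sub F R l →
    F'.Sub F R' l
  | [], h => h
  | _ :: _, h => ⟨Sub.mono hR h.1, h.2.1, h.2.2.1, fun x hx => hR.trans (h.2.2.2 x hx)⟩

/-- restriction to a sub-frame -/
theorem Cl.restrict {F' : Fr X κ} {R : ℝ} (hs : F'.Sub F R l) (h : F.Cl l b g) : F'.Cl l b g :=
  A9_pull' (Φ := id) (fun _ h => (hs.suffix h).subset) (fun _ _ => differentiableOn_id)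
    (fun _ _ h x _ => by rw [(hs.suffix h).2.2.1]; rfl) h

theorem St.restrict {F' : Fr X κ} {R : ℝ} {gb : X → E} : ∀ {l : List κ} {g : X → E},
    F'.Sub F R l → F.St l g gb → F'.St l g gb
  | [], _, hs, h => ⟨Cl.restrict hs h.1, Cl.restrict hs h.2.1, h.2.2.mono hs⟩
  | _ :: _, _, hs, h => by
    obtain ⟨h1, c, g1, γ, h2, h3, h4, h5⟩ := h
    refine ⟨Cl.restrict hs h1, c, g1, γ, h2, St.restrict hs.1 h3, Cl.restrict hs h4,
      fun x hx => ?_⟩
    simpa only [ex, hs.2.2.1] using h5 x (hs.2.1 hx)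

theorem In.restrict {F' : Fr X κ} {R : ℝ} {K : Set E} : ∀ {l : List κ} {g : X → E},
    F'.Sub F R l → F.In l K g → F'.In l K g
  | [], _, hs, h => ⟨Cl.restrict hs h.1, h.2.mono_left hs⟩
  | _ :: _, _, hs, h => by
    obtain ⟨h1, h0, c, g1, γ, h2, h3, h4, h5⟩ := h
    refine ⟨Cl.restrict hs h1, h0.mono_left hs.2.1, c, g1, γ, h2, In.restrict hs.1 h3,
      Cl.restrict hs h4, fun x hx => ?_⟩
    simpa only [ex, hs.2.2.1] using h5 x (hs.2.1 hx)

theorem Ok.prod {Y : Type*} [NormedAddCommGroup Y] [NormedSpace ℂ Y] {U : Set Y} (hU : IsOpen U) :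
    ∀ {l : List κ}, F.Ok l → (F.prod U).Ok l
  | [], h => IsOpen.prod h hU
  | _ :: _, h => ⟨Ok.prod hU h.1, h.isOpen.prod hU, prod_mono h.sub Subset.rfl,
      h.diff.comp differentiableOn_fst fun _ hx => hx.1, fun _ hx => h.re hx.1⟩

/-- functions of the first variable only -/
theorem Cl.fst {Y : Type*} [NormedAddCommGroup Y] [NormedSpace ℂ Y] {U : Set Y} (h : F.Cl l b g) :
    (F.prod U).Cl l b fun z => g z.1 :=
  A9_pull' (F' := F.prod U) (Φ := Prod.fst) (fun _ _ _ hx => hx.1)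
    (fun _ _ => differentiableOn_fst) (fun _ _ _ _ _ => rfl) h

/-- slices of a function on a product frame -/
theorem Cl.slice {Y : Type*} [NormedAddCommGroup Y] [NormedSpace ℂ Y] {U : Set Y} {G : X × Y → E}
    (h : (F.prod U).Cl l b G) {y : Y} (hy : y ∈ U) : F.Cl l b fun x => G (x, y) :=
  A9_pull' (F := F.prod U) (Φ := fun x => (x, y)) (fun _ _ _ hx => ⟨hx, hy⟩)
    (fun _ _ => differentiableOn_id.prodMk (differentiableOn_const _)) (fun _ _ _ _ _ => rfl) h

end Fr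

end Crest.Agent.N207.O
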