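import Crest.Agent.N207.O.Kit1

/-!
# Row 207, block O (helper81): tower kit, part 2 (T5, T7, T8, T9)
-/

set_option autoImplicit false
set_option linter.unusedSectionVars false

open Set Filter Topology Metric

noncomputable section

namespace Crest.Agent.N207.O

section Id

variable {X E : Type*} [NormedAddCommGroup X] [NormedSpace ℂ X] [NormedAddCommGroup E]
  [NormedSpace ℂ E] [CompleteSpace E] {g : X → E}

/-- identity theorem along a complex line in a ball -/
theorem line_id {c z v : X} {ρ : ℝ} (hg : DifferentiableOn ℂ g (ball c ρ)) (hz : z ∈ ball c ρ)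
    {τ : ℂ} (hτ : z + τ • v ∈ ball c ρ) (h0 : ∃ᶠ t in 𝓝[≠] (0 : ℂ), g (z + t • v) = 0) :
    g (z + τ • v) = 0 := by
  have hc : Differentiable ℂ fun t : ℂ => z + t • v := by fun_prop
  have ho : IsOpen ((fun t : ℂ => z + t • v) ⁻¹' ball c ρ) := isOpen_ball.preimage hc.continuous
  have hx : Convex ℝ ((fun t : ℂ => z + t • v) ⁻¹' ball c ρ) := by
    intro s hs t ht a b ha hb hab
    have e : z + (a • s + b • t) • v - c =
        (a : ℂ) • (z + s • v - c) + (b : ℂ) • (z + t • v - c) := by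
      have h1 : (a : ℂ) + b = 1 := by exact_mod_cast hab
      simp only [Complex.real_smul]
      linear_combination (norm := module) (-h1) • z + h1 • c
    simp only [mem_preimage, mem_ball, dist_eq_norm] at hs ht ⊢
    rw [e]
    refine (norm_add_le _ _).trans_lt ?_
    rw [norm_smul, norm_smul, Complex.norm_real, Complex.norm_real, Real.norm_of_nonneg ha,
      Real.norm_of_nonneg hb]
    rcases ha.eq_or_lt with rfl | ha'
    · rw [zero_add] at hab; subst hab; simpa using ht
    · have h2 : a * ρ + b * ρ = ρ := by rw [← add_mul, hab, one_mul]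
      linarith [mul_lt_mul_of_pos_left hs ha', mul_le_mul_of_nonneg_left ht.le hb]
  have ha := (hg.comp hc.differentiableOn (mapsTo_preimage _ _)).analyticOnNhd ho
  exact ha.eqOn_zero_of_preconnected_of_frequently_eq_zero hx.isPreconnected (z₀ := 0)
    (by simpa using hz) h0 hτ

/-- identity theorem in several variables -/
theorem id_thm {V : Set X} (hV : IsOpen V) (hc : IsPreconnected V) (hg : DifferentiableOn ℂ g V)
    {x : X} (hx : x ∈ V) (h0 : g =ᶠ[𝓝 x] 0) : EqOn g 0 V := by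
  have h1 : V ⊆ {x | g =ᶠ[𝓝 x] 0} := by
    refine hc.subset_of_closure_inter_subset isOpen_setOfPred_eventually_nhds ⟨x, hx, h0⟩ ?_
    rintro y ⟨hy, hyV⟩
    obtain ⟨ρ, hρ, hb⟩ := Metric.isOpen_iff.1 hV y hyV
    obtain ⟨z, hz, hz0⟩ := mem_closure_iff.1 hy _ isOpen_ball (mem_ball_self hρ)
    filter_upwards [ball_mem_nhds y hρ] with u hu
    have ht : Tendsto (fun t : ℂ => z + t • (u - z)) (𝓝[≠] 0) (𝓝 z) := by
      have : Continuous fun t : ℂ => z + t • (u - z) := by fun_prop
      exact (this.tendsto' 0 z (by simp)).mono_left nhdsWithin_le_nhds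
    have := line_id (hg.mono hb) hz (τ := 1) (v := u - z) (by simpa using hu)
      (ht.eventually hz0).frequently
    simpa using this
  exact fun y hy => (h1 hy).self_of_nhds

end Id

variable {ι : Type} [Fintype ι] [DecidableEq ι] {α : Type} {U : Ultrafilter α} {T : Tw ι}
  {p : α → ι → ℂ} {l : List (ι ⊕ ℕ)} {W : Finset ι} {k : ι} {g : (ι → ℂ) → ℂ} {a : ι ⊕ ℕ}

/-- a holomorphic function that vanishes at the real points near a real point vanishes nearby -/
theorem zero_of_real {E : Type*} [NormedAddCommGroup E] [NormedSpace ℂ E] [CompleteSpace E]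
    {g : (ι → ℂ) → E} {V : Set (ι → ℂ)} (hV : IsOpen V) (hg : DifferentiableOn ℂ g V)
    (h0 : ∀ x ∈ V, x ∈ Rp ι → g x = 0) {y : ι → ℂ} (hy : y ∈ V) (hr : y ∈ Rp ι) :
    g =ᶠ[𝓝 y] 0 := by
  obtain ⟨ρ, hρ, hb⟩ := Metric.isOpen_iff.1 hV y hy
  filter_upwards [ball_mem_nhds y hρ] with u hu
  have hz : (fun k => ((u k).re : ℂ)) ∈ ball y ρ := by
    rw [mem_ball, dist_pi_lt_iff hρ] at hu ⊢
    intro k
    refine lt_of_le_of_lt ?_ (hu k)
    rw [dist_eq_norm, dist_eq_norm]
    have : ((u k).re : ℂ) - y k = ((u k - y k).re : ℂ) := by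
      apply Complex.ext <;> simp [hr k]
    rw [this, Complex.norm_real]
    exact Complex.abs_re_le_norm _
  have e : (fun k => ((u k).re : ℂ)) + Complex.I • (fun k => ((u k).im : ℂ)) = u := by
    funext k
    simp only [Pi.add_apply, Pi.smul_apply, smul_eq_mul]
    rw [mul_comm]; exact Complex.re_add_im _
  have ht : Tendsto (fun t : ℝ => (t : ℂ)) (𝓝[≠] 0) (𝓝[≠] 0) :=
    tendsto_nhdsWithin_iff.2 ⟨(Complex.continuous_ofReal.tendsto' 0 0 (by simp)).mono_left
      nhdsWithin_le_nhds, by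
        filter_upwards [self_mem_nhdsWithin] with t ht using by simpa using ht⟩
  have hc : Continuous fun t : ℝ =>
      (fun k => ((u k).re : ℂ)) + (t : ℂ) • (fun k => ((u k).im : ℂ)) := by fun_prop
  have h1 := ((hc.tendsto' 0 _ (by simp)).mono_left (nhdsWithin_le_nhds (s := {0}ᶜ))).eventually
    (isOpen_ball.mem_nhds hz)
  have := line_id (hg.mono hb) hz (τ := Complex.I) (v := fun k => ((u k).im : ℂ))
    (by rw [e]; exact hu) (ht.frequently (h1.mono fun t ht =>
      h0 _ (hb ht) fun k => by simp).frequently)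
  rwa [e] at this

open Tw

theorem ev_Om (R : ℝ) : ∀ᶠ x : ℝ in atTop, (x : ℂ) ∈ Om R := by
  have h1 : Tendsto (fun x : ℝ => R * (x⁻¹ + Real.log x / x)) atTop (𝓝 (R * (0 + 0))) :=
    (tendsto_inv_atTop_zero.add Real.isLittleO_log_id_atTop.tendsto_div_nhds_zero).const_mul R
  filter_upwards [eventually_gt_atTop R, eventually_gt_atTop 0,
    h1.eventually (gt_mem_nhds (by norm_num : R * (0 + 0) < 1))] with x h2 h3 h4
  refine ⟨h2, ?_⟩
  rw [Complex.norm_real, Real.norm_of_nonneg h3.le, Complex.ofReal_re]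
  have : R * (x⁻¹ + Real.log x / x) = R * (1 + Real.log x) / x := by field_simp
  rwa [this, div_lt_one h3] at h4

theorem Tw.Pt.ev_Sd (hp : T.Pt U p) (R : ℝ) : ∀ {l : List (ι ⊕ ℕ)}, l <:+ T.top →
    ∀ᶠ i in U, l.Pairwise fun a b => R * (T.s b (p i)).re < (T.s a (p i)).re
  | [], _ => Eventually.of_forall fun _ => List.Pairwise.nil
  | a :: l, hl => by
    have h1 : ∀ᶠ i in U, ∀ b ∈ {b | b ∈ l}, R * (T.s b (p i)).re < (T.s a (p i)).re := by
      refine (eventually_all_finite l.finite_toSet).2 fun b hb => ?_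
      filter_upwards [((hp.ord a l hl b hb).const_mul R).eventually
        (gt_mem_nhds (by norm_num : R * 0 < 1)),
        (hp.big a (hl.subset List.mem_cons_self)).eventually_gt_atTop 0] with i h2 h3
      rwa [← mul_div_assoc, div_lt_one h3] at h2
    filter_upwards [h1, Tw.Pt.ev_Sd hp R (suffix_tail hl)] with i h2 h3
    exact List.Pairwise.cons h2 h3

theorem T5_mem (h : T.WF) (hp : T.Pt U p) : ∀ {l : List (ι ⊕ ℕ)}, l <:+ T.top →
    ∀ᶠ i in U, p i ∈ T.D l
  | [], _ => (eventually_all_finset T.Fv).2 fun k hk =>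
      (hp.z0 k hk).norm.eventually (gt_mem_nhds (by simpa using h.r0 k hk))
  | a :: l, hl => by
    obtain ⟨r1, r2⟩ := h.real_head hl (T6_real h (suffix_tail hl))
    filter_upwards [T5_mem h hp (suffix_tail hl), hp.ev_Sd T.R hl,
      (hp.big a (hl.subset List.mem_cons_self)).eventually (ev_Om T.R)] with i h1 h2 h3
    refine mem_RC ⟨hp.re i, h2⟩ ⟨h1, ?_, fun j e => ?_⟩
    · have : T.s a (p i) = ((T.s a (p i)).re : ℂ) :=
        Complex.ext (by simp) (by simp [r1 _ h1 (hp.re i)])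
      rw [this]; exact h3
    · rw [r2 j e _ h1 (hp.re i), abs_zero]; positivity

/-- a single term of the expansion -/
theorem Fr.Cl.single {X κ E : Type*} [NormedAddCommGroup X] [NormedSpace ℂ X]
    [NormedAddCommGroup E] [NormedSpace ℂ E] {F : Fr X κ} {a : κ} {l : List κ}
    (hF : F.Ok (a :: l)) {c : X → E} (hc : F.A l c) (t : ℝ) :
    F.Cl (a :: l) t fun x => F.ex a t x • c x := by
  classical
  refine ⟨(hF.diff_ex t).smul ((A1_diff hc).mono hF.sub), fun u => if u = t then c else 0,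
    fun u => ?_, fun u hu => if_neg hu.ne, fun K => ⟨{t}, 0, fun u _ hu => if_neg (by simpa using hu),
      fun x _ => by simp⟩⟩
  by_cases hu : u = t
  · simpa [hu] using hc
  · simpa [hu] using Fr.Cl.zero

theorem T7_mon (h : T.WF) {γ : ι ⊕ ℕ → ℝ} : ∀ {l : List (ι ⊕ ℕ)}, l <:+ T.top → (∀ a, 0 ≤ γ a) →
    T.fr.A l fun x => Complex.exp (-T.lin l γ x)
  | [], _, _ => by
    simp only [lin_nil]
    exact ⟨differentiableOn_const _, _, fun _ _ => le_rfl⟩
  | a :: l, hl, hγ => by
    refine A2_congr (A3_mono (Fr.Cl.single (T1_ok h hl) (T7_mon h (suffix_tail hl) hγ) (γ a))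
      (hγ a)) fun x _ => ?_
    simp only [Fr.ex, lin_cons (h.not_mem hl), smul_eq_mul, ← Complex.exp_add, neg_add]
    rfl


theorem T9_idR' {E : Type*} [NormedAddCommGroup E] [NormedSpace ℂ E] [CompleteSpace E]
    {g : (ι → ℂ) → E} (h : T.WF) (hl : l <:+ T.top) (hg : DifferentiableOn ℂ g (T.D l))
    (h0 : ∀ x ∈ T.D l, x ∈ Rp ι → g x = 0) : EqOn g 0 (T.D l) := by
  have ho := h.isOpen_D hl
  rcases l with _ | ⟨a, l⟩
  · have hz : (0 : ι → ℂ) ∈ T.D [] := fun k hk => by simpa using h.r0 k hk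
    exact id_thm ho T.convex_D_nil.isPreconnected hg hz (zero_of_real ho hg h0 hz fun _ => rfl)
  · rintro x ⟨y, hy, hx⟩
    have hs : connectedComponentIn {x | x ∈ T.D l ∧ T.cst a x} y ⊆ T.D (a :: l) :=
      fun z hz => ⟨y, hy, hz⟩
    have hm := mem_connectedComponentIn (connectedComponentIn_nonempty_iff.1 ⟨_, hx⟩)
    exact id_thm (h.isOpen_S hl (T1_ok h (suffix_tail hl))).connectedComponentIn
      isPreconnected_connectedComponentIn (hg.mono hs) hm (zero_of_real ho hg h0 (hs hm) hy.1) hx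

theorem T9_idR (h : T.WF) (hl : l <:+ T.top) (hg : DifferentiableOn ℂ g (T.D l))
    (h0 : ∀ x ∈ T.D l, x ∈ Rp ι → g x = 0) : EqOn g 0 (T.D l) := T9_idR' h hl hg h0

end Crest.Agent.N207.O
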