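import Crest.Agent.N207.O.Kit2
import Crest.Agent.N207.O.Sq
import Crest.Agent.N207.O.El0
import Crest.Agent.N207.O.Alg3

-- ▼ part N207/O/Cl1
section

/-!
# Row 207, block O (helper99): values along the ultrafilter (L1, L2, L3)
-/

set_option autoImplicit false
set_option linter.unusedSectionVars false

open Set Filter Topology Metric

noncomputable section

namespace Crest.Agent.N207.O

variable {ι : Type} [Fintype ι] [DecidableEq ι] {α : Type} {U : Ultrafilter α} {T : Tw ι}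
  {p : α → ι → ℂ} {l : List (ι ⊕ ℕ)} {k : ι}

/-- the real parts of the scales at the points `p i` -/
def Tw.val (T : Tw ι) (p : α → ι → ℂ) (a : ι ⊕ ℕ) (i : α) : ℝ := (T.s a (p i)).re

theorem Tw.re_lin_val (T : Tw ι) (p : α → ι → ℂ) (l : List (ι ⊕ ℕ)) (γ : ι ⊕ ℕ → ℝ) (i : α) :
    (T.lin l γ (p i)).re = Sq.lin (T.val p) l γ i := by
  simp [Tw.lin, Sq.lin, Tw.val]

theorem Tw.Pt.sq (hp : T.Pt U p) (hl : l <:+ T.top) : Sq.Ord U (T.val p) l :=
  (Sq.Ord.of_suffix hp.big hp.ord).suffix hl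

theorem L2_tri (hp : T.Pt U p) (hl : l <:+ T.top) (γ : ι ⊕ ℕ → ℝ) :
    (∀ a ∈ l, γ a = 0) ∨ Tendsto (fun i => (T.lin l γ (p i)).re) U atTop ∨
      Tendsto (fun i => (T.lin l γ (p i)).re) U atBot := by
  simp only [Tw.re_lin_val]
  exact (hp.sq hl).tri

theorem L3_top (hp : T.Pt U p) (hl : l <:+ T.top) {γ : ι ⊕ ℕ → ℝ}
    (hγ : Tendsto (fun i => (T.lin l γ (p i)).re) U atTop) {a : ι ⊕ ℕ} (ha : a ∈ l)
    (h0 : γ a ≠ 0) : ∃ C : ℝ, ∀ᶠ i in U, (T.s a (p i)).re ≤ C * (T.lin l γ (p i)).re := by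
  simp only [Tw.re_lin_val] at hγ ⊢
  exact (hp.sq hl).top hγ ha h0

theorem lin_val (h : T.WF) (hp : T.Pt U p) (hl : l <:+ T.top) (γ : ι ⊕ ℕ → ℝ) :
    ∀ᶠ i in U, T.lin l γ (p i) = (Sq.lin (T.val p) l γ i : ℝ) :=
  (T5_mem h hp hl).mono fun i hi => Complex.ext (by rw [Tw.re_lin_val, Complex.ofReal_re])
    (by rw [Tw.im_lin (fun a ha => T6_real h hl a ha _ hi (hp.re i)), Complex.ofReal_im])

/-- a nonzero real null sequence is `± e^{-w}` -/
theorem exists_log {f : α → ℝ} (h0 : Tendsto f U (𝓝 0)) (hn : ∀ᶠ i in U, f i ≠ 0) :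
    ∃ (ε : ℝ) (w : α → ℝ), |ε| = 1 ∧ Tendsto w U atTop ∧ ∀ᶠ i in U, f i = ε * Real.exp (-w i) := by
  have t : Tendsto (fun i => -Real.log (f i)) U atTop :=
    tendsto_neg_atBot_atTop.comp (Real.tendsto_log_nhdsNE_zero.comp
      (tendsto_nhdsWithin_iff.2 ⟨h0, hn⟩))
  rcases Ultrafilter.eventually_or.1 (hn.mono fun i hi => lt_or_gt_of_ne hi) with c | c
  · exact ⟨-1, _, by simp, t, c.mono fun i hi => by
      rw [neg_neg, Real.exp_log_eq_abs hi.ne, abs_of_neg hi]; ring⟩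
  · exact ⟨1, _, by simp, t, c.mono fun i hi => by rw [neg_neg, Real.exp_log hi, one_mul]⟩

theorem L1_class (h : T.WF) (hp : T.Pt U p) (hk : k ∈ T.Fv) {j : ℕ} (hj : j ≤ T.p) :
    T.Bey U p j k ∨
    (∃ (γ : ι ⊕ ℕ → ℝ) (c : ℝ) (z : α → ℝ), c ≠ 0 ∧ Tendsto z U (𝓝 0) ∧
      Tendsto (fun i => (T.lin (T.lv j) γ (p i)).re) U atTop ∧
      ∀ᶠ i in U, p i k = Complex.exp (-T.lin (T.lv j) γ (p i)) * ((c : ℂ) + z i)) ∨
    ∃ (γ : ι ⊕ ℕ → ℝ) (ε η : ℝ) (σ : α → ℝ) (l₁ l₂ : List (ι ⊕ ℕ)), T.lv j = l₁ ++ l₂ ∧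
      Tendsto σ U atTop ∧ (∀ b ∈ l₂, Tendsto (fun i => (T.s b (p i)).re / σ i) U (𝓝 0)) ∧
      (∀ a ∈ l₁, Tendsto (fun i => σ i / (T.s a (p i)).re) U (𝓝 0)) ∧
      (j < T.p → Tendsto (fun i => σ i / (T.s (Sum.inr j) (p i)).re) U (𝓝 0)) ∧
      ∀ᶠ i in U, p i k = (ε : ℂ) * Complex.exp (-(T.lin (T.lv j) γ (p i) + (η * σ i : ℝ))) ∧
        ε ≠ 0 := by
  have hre : ∀ i, p i k = ((p i k).re : ℝ) := fun i => Complex.ext rfl (by simpa using hp.re i k)
  by_cases hz : ∀ᶠ i in U, p i k = 0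
  · exact Or.inl ⟨fun _ => ⟨1, one_pos, hz.mono fun i hi => by
      rw [hi, norm_zero]; exact (Real.exp_pos _).le⟩, fun _ => hz⟩
  obtain ⟨ε, w, e1, wt, hw⟩ := exists_log (U := U) (f := fun i => (p i k).re)
    ((Complex.continuous_re.tendsto 0).comp (hp.z0 k hk))
    ((Ultrafilter.eventually_not.2 hz).mono fun i hi e => hi (by rw [hre, e, Complex.ofReal_zero]))
  have e0 : ε ≠ 0 := by rintro rfl; simp at e1
  have hl := Tw.lv_top (T := T) hj
  by_cases hb : j < T.p ∧ ¬ Tendsto (fun i => w i / T.val p (Sum.inr j) i) U (𝓝 0)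
  · have vt := hp.big _ (Tw.inr_mem_lv.2 hb.1)
    obtain ⟨t, t0, ht⟩ : ∃ t > 0, ∀ᶠ i in U, t ≤ w i / T.val p (Sum.inr j) i := by
      by_contra! hn
      refine hb.2 (tendsto_order.2 ⟨fun a ha => ?_, fun a ha => ?_⟩)
      · filter_upwards [wt.eventually_gt_atTop 0, vt.eventually_gt_atTop 0] with i h1 h2
        exact ha.trans (div_pos h1 h2)
      · exact hn a ha
    refine Or.inl ⟨fun _ => ⟨t, t0, ?_⟩, fun c => absurd hb.1 c⟩
    filter_upwards [ht, hw, vt.eventually_gt_atTop 0] with i h1 h2 h3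
    rw [hre, Complex.norm_real, h2, Real.norm_eq_abs, abs_mul, e1, one_mul, Real.abs_exp]
    exact Real.exp_le_exp.2 (neg_le_neg ((le_div_iff₀ h3).1 h1))
  refine Or.inr ?_
  rcases (hp.sq hl).cls w with ⟨γ, c, hc⟩ | ⟨γ, η, σ, l₁, l₂, a1, a2, a3, a4⟩
  · refine Or.inl ⟨γ, ε * Real.exp (-c), fun i =>
      ε * Real.exp (-(w i - Sq.lin (T.val p) (T.lv j) γ i)) - ε * Real.exp (-c), mul_ne_zero e0 (Real.exp_ne_zero _), ?_, ?_, ?_⟩
    · exact tendsto_sub_nhds_zero_iff.2 (((Real.continuous_exp.tendsto _).comp hc.neg).const_mul ε)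
    · simp only [Tw.re_lin_val]
      exact (wt.atTop_add hc.neg).congr fun i => by ring
    · filter_upwards [hw, lin_val h hp hl γ] with i h1 h2
      rw [hre, h1, h2]
      norm_cast
      rw [add_sub_cancel, mul_left_comm, ← Real.exp_add]
      congr 2; ring
  · refine Or.inr ⟨γ, ε, η, σ, l₁, l₂, a1, a3.big, a3.lo, a3.hi, fun c => ?_, ?_⟩
    · exact Sq.small_of_eq a2 a4 (by_contra fun hn => hb ⟨c, hn⟩) (hp.ord _ _ (Tw.inr_lv_suffix c))
    · filter_upwards [hw, lin_val h hp hl γ] with i h1 h2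
      refine ⟨?_, e0⟩
      rw [hre, h1, h2, a4 i]
      norm_cast

end Crest.Agent.N207.O

end
end

-- ▼ part N207/O/En1
section

/-!
# Row 207, block O (helper81): renormalisation of one level, the common core
-/

set_option autoImplicit false
set_option linter.unusedSectionVars false

open Set Filter Topology Metric

noncomputable section

namespace Crest.Agent.N207.O.En

open Tw

theorem Om_add {R c : ℝ} (hR : 1 ≤ R) (hc : 1 ≤ c) {w v : ℂ} (hw : w ∈ Om (R * (1 + c)))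
    (hv : v ∈ Om (R * (1 + c))) : w + c * v ∈ Om R := by
  have h1 : R ≤ R * (1 + c) := by nlinarith
  have w1 : 1 ≤ ‖w‖ := by linarith [hw.1, Complex.re_le_norm w]
  have v1 : 1 ≤ ‖v‖ := by linarith [hv.1, Complex.re_le_norm v]
  have lw := Real.log_nonneg w1
  have lv := Real.log_nonneg v1
  have re : (w + c * v).re = w.re + c * v.re := by simp
  have v0 : 0 ≤ v.re := by linarith [hv.1]
  have v2 : v.re ≤ c * v.re := by nlinarith
  have a1 : R < (w + c * v).re := by rw [re]; linarith [hw.1]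
  refine ⟨a1, ?_⟩
  have n0 : 0 < ‖w + c * v‖ := by linarith [Complex.re_le_norm (w + c * v)]
  have n1 : ‖w + c * v‖ ≤ (1 + c) * (‖w‖ * ‖v‖) := by
    refine (norm_add_le _ _).trans ?_
    rw [norm_mul, Complex.norm_real, Real.norm_of_nonneg (by linarith)]
    nlinarith [mul_le_mul_of_nonneg_left v1 (norm_nonneg w),
      mul_le_mul_of_nonneg_right w1 (mul_nonneg (by linarith : 0 ≤ c) (norm_nonneg v))]
  have n2 := Real.log_le_log n0 n1
  rw [Real.log_mul (by linarith) (by positivity), Real.log_mul (by linarith) (by linarith)] at n2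
  have n3 : Real.log (1 + c) ≤ c := by linarith [Real.log_le_sub_one_of_pos (by linarith : 0 < 1 + c)]
  rw [re]
  have n4 := mul_le_mul_of_nonneg_left (n2.trans (add_le_add_left n3 _)) (by linarith : 0 ≤ R)
  have n5 := mul_le_mul_of_nonneg_right h1 lw
  have n6 := mul_le_mul_of_nonneg_right h1 lv
  nlinarith [hw.2, hv.2]

theorem Om_sum {β : Type*} (S : Finset β) {C : β → ℝ} (hC : ∀ b ∈ S, 1 ≤ C b) {R : ℝ} (hR : 1 ≤ R) :
    ∃ R', R ≤ R' ∧ ∀ (w : ℂ) (v : β → ℂ), w ∈ Om R' → (∀ b ∈ S, v b ∈ Om R') →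
      w + ∑ b ∈ S, C b * v b ∈ Om R := by
  classical
  induction S using Finset.induction_on generalizing R with
  | empty => exact ⟨R, le_rfl, fun w v hw _ => by simpa using hw⟩
  | insert b S hb ih =>
    have c1 := hC b (Finset.mem_insert_self _ _)
    have h1 : R ≤ R * (1 + C b) := by nlinarith
    obtain ⟨R', h2, h3⟩ := ih (fun b hb => hC b (Finset.mem_insert_of_mem hb)) (hR.trans h1)
    refine ⟨R', h1.trans h2, fun w v hw hv => ?_⟩
    rw [Finset.sum_insert hb, add_comm (C b * v b : ℂ), ← add_assoc]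
    exact Om_add hR c1 (h3 w v hw fun b hb => hv b (Finset.mem_insert_of_mem hb))
      (Om_anti (hR.trans (h1.trans h2)) h2 (hv b (Finset.mem_insert_self _ _)))

variable {ι : Type} [Fintype ι] [DecidableEq ι] {α : Type} {U : Ultrafilter α} {T T' : Tw ι}
  {p p' : α → ι → ℂ} {l l₂ L : List (ι ⊕ ℕ)} {a : ι ⊕ ℕ} {C : ι ⊕ ℕ → ℝ} {R : ℝ}
  {s' : ι ⊕ ℕ → (ι → ℂ) → ℂ} {Φ : (ι → ℂ) → ι → ℂ}

theorem suffix_unique {β : Type*} {a : β} {l l' L : List β} (nd : L.Nodup) (h : a :: l <:+ L)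
    (h' : a :: l' <:+ L) : l = l' := by
  have key : ∀ {l l' : List β}, a :: l' <:+ L → a :: l <:+ a :: l' → l = l' := fun h' e => by
    rcases List.suffix_cons_iff.1 e with e | e
    · exact (List.cons.inj e).2
    · exact absurd (e.subset List.mem_cons_self) (List.nodup_cons.1 (h'.sublist.nodup nd)).1
  rcases List.suffix_or_suffix_of_suffix h h' with e | e
  exacts [key h' e, (key h e).symm]

theorem mon_of_ok {γ : ι ⊕ ℕ → ℝ} (hγ : ∀ a, 0 ≤ γ a) : ∀ {l : List (ι ⊕ ℕ)}, T.fr.Ok l →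
    l.Nodup → T.fr.A l fun x => Complex.exp (-T.lin l γ x)
  | [], _, _ => by
    simp only [lin_nil]
    exact ⟨differentiableOn_const _, _, fun _ _ => le_rfl⟩
  | a :: l, ho, nd => by
    refine A2_congr (A3_mono (Fr.Cl.single ho (mon_of_ok hγ ho.tail nd.of_cons) (γ a))
      (hγ a)) fun x _ => ?_
    simp only [Fr.ex, lin_cons (List.nodup_cons.1 nd).1, smul_eq_mul, ← Complex.exp_add, neg_add]
    rfl

theorem lin_ratio (hp : T.Pt U p) (hl : a :: l <:+ T.top) (γ : ι ⊕ ℕ → ℝ) :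
    Tendsto (fun i => (T.lin l γ (p i)).re / (T.s a (p i)).re) U (𝓝 0) := by
  simp only [re_lin, Finset.sum_div, mul_div_assoc]
  have := tendsto_finsetSum l.toFinset fun b hb =>
    (hp.ord a l hl b (List.mem_toFinset.1 hb)).const_mul (γ b)
  simpa using this

theorem pt_of_ratio (hp : T.Pt U p) (ht : T'.top = T.top) (re : ∀ i, p' i ∈ Rp ι)
    (z0 : ∀ k ∈ T'.Fv, Tendsto (fun i => p' i k) U (𝓝 0))
    (un : ∀ k, k ∉ T'.Fv → Sum.inl k ∉ T'.top → ∀ i, p' i k = 0)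
    (hr : ∀ b ∈ T.top, Tendsto (fun i => (T'.s b (p' i)).re / (T.s b (p i)).re) U (𝓝 1)) :
    T'.Pt U p' := by
  refine ⟨re, z0, un, fun b hb => ?_, fun b l hl c hc => ?_⟩
  · rw [ht] at hb
    refine ((hr b hb).pos_mul_atTop one_pos (hp.big b hb)).congr' ?_
    filter_upwards [(hp.big b hb).eventually_gt_atTop 0] with i hi using div_mul_cancel₀ _ hi.ne'
  · rw [ht] at hl
    have hb := hl.subset List.mem_cons_self
    have hc' := hl.subset (List.mem_cons_of_mem _ hc)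
    have := ((hr c hc').mul (hp.ord b l hl c hc)).div (hr b hb) one_ne_zero
    rw [mul_zero, zero_div] at this
    refine this.congr' ?_
    filter_upwards [(hp.big b hb).eventually_gt_atTop 0, (hp.big c hc').eventually_gt_atTop 0]
      with i h1 h2
    simp only [Pi.div_apply]
    rw [div_mul_div_cancel₀ h2.ne', div_div_div_cancel_right₀ h1.ne']

/-- the renormalised tower -/
def nw (T : Tw ι) (a : ι ⊕ ℕ) (C : ι ⊕ ℕ → ℝ) (s' : ι ⊕ ℕ → (ι → ℂ) → ℂ) (Φ : (ι → ℂ) → ι → ℂ)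
    (R : ℝ) : Tw ι :=
  { T with
    R := R
    s := s'
    ρ := fun j b => T.ρ j b + T.ρ j a * C b
    c := fun j b => T.c j b + (if a ∈ (T.lv j).toFinset then T.c j a else 0) * C b +
      if a = Sum.inr j then C b else 0
    u := fun j => T.u j ∘ Φ }

theorem nw_lv (j : ℕ) : (nw T a C s' Φ R).lv j = T.lv j := 
  congrFun (El.lv_congr (T := T) (T' := nw T a C s' Φ R) rfl) j
theorem nw_top : (nw T a C s' Φ R).top = T.top := nw_lv _

/-- hypotheses of the core -/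
structure Core (T : Tw ι) (a : ι ⊕ ℕ) (l₂ : List (ι ⊕ ℕ)) (C : ι ⊕ ℕ → ℝ)
    (s' : ι ⊕ ℕ → (ι → ℂ) → ℂ) (Φ : (ι → ℂ) → ι → ℂ) (R : ℝ) : Prop where
  wf : T.WF
  hl : a :: l₂ <:+ T.top
  C1 : ∀ b ∈ l₂, 1 ≤ C b
  C0 : ∀ b, b ∉ l₂ → C b = 0
  p1 : ∀ b, b ≠ a → ∀ x, T.s b (Φ x) = s' b x
  p2 : ∀ x, T.s a (Φ x) = s' a x + T.lin l₂ C x
  p3 : ∀ b ∈ l₂, s' b = T.s b
  p4 : ∀ j, Sum.inr j ∈ l₂ → ∀ x, T.u j (Φ x) = T.u j x
  p5 : ∀ l₀, l₀ <:+ l₂ → ∀ x ∈ T.D l₀, Φ x ∈ T.D l₀ ∧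
    ∀ g : (ι → ℂ) → ℂ, T.fr.A l₀ g → g (Φ x) = g x
  dif : DifferentiableOn ℂ Φ (T.D l₂)
  rea : ∀ x ∈ T.D l₂, x ∈ Rp ι → Φ x ∈ Rp ι
  sN : ∀ k x, s' (Sum.inl k) x = x k
  ind : ∀ j < T.p, ∀ k, Sum.inl k ∉ T.lv j → (k ∉ T.Fv ∨ j < T.lab k) →
    Ind k (s' (Sum.inr j)) ∧ Ind k (T.u j ∘ Φ)
  hR : T.R * (1 + ∑ b ∈ l₂.toFinset, C b) ≤ R
  hO : ∀ (w : ℂ) (v : ι ⊕ ℕ → ℂ), w ∈ Om R → (∀ b ∈ l₂.toFinset, v b ∈ Om R) →
    w + ∑ b ∈ l₂.toFinset, C b * v b ∈ Om T.R

namespace Core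

variable (H : Core T a l₂ C s' Φ R)
include H

theorem Cn (b : ι ⊕ ℕ) : 0 ≤ C b := by
  by_cases hb : b ∈ l₂
  exacts [zero_le_one.trans (H.C1 b hb), (H.C0 b hb).ge]

theorem RR' : T.R ≤ R := by
  have : 0 ≤ ∑ b ∈ l₂.toFinset, C b := Finset.sum_nonneg fun b _ => H.Cn b
  nlinarith [H.hR, H.wf.R1]

theorem R0 : 0 ≤ R := by linarith [H.RR', H.wf.R1]

theorem lin2 (x : ι → ℂ) : T.lin l₂ C x = (nw T a C s' Φ R).lin l₂ C x :=
  (El.lin_congr (fun b hb => congrFun (H.p3 b hb) x) fun _ _ => rfl).symm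

theorem cases (hL : L <:+ T.top) : L <:+ l₂ ∨ a :: l₂ <:+ L := by
  rcases List.suffix_or_suffix_of_suffix hL H.hl with e | e
  · rcases List.suffix_cons_iff.1 e with e | e
    exacts [Or.inr (by rw [e]), Or.inl e]
  · exact Or.inr e

theorem sub_of_mem (hL : L <:+ T.top) (ha : a ∈ L) : ∀ b ∈ l₂, b ∈ L := by
  rcases H.cases hL with e | e
  · exact absurd (e.subset ha) (H.wf.not_mem H.hl)
  · exact fun b hb => e.subset (List.mem_cons_of_mem _ hb)

theorem lin_pull (hL : L <:+ T.top) (γ : ι ⊕ ℕ → ℝ) (x : ι → ℂ) : T.lin L γ (Φ x) =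
    (nw T a C s' Φ R).lin L (fun b => γ b + (if a ∈ L.toFinset then γ a else 0) * C b) x := by
  by_cases ha : a ∈ L
  · have h1 : T.lin l₂ C x = ∑ b ∈ L.toFinset, (C b : ℂ) * s' b x := by
      rw [H.lin2]
      refine Finset.sum_subset (fun b hb => List.mem_toFinset.2
        (H.sub_of_mem hL ha b (List.mem_toFinset.1 hb))) fun b _ hb => ?_
      rw [H.C0 b (by simpa using hb)]; simp
    have h2 : ∀ b, (γ b : ℂ) * T.s b (Φ x) =
        γ b * s' b x + if b = a then γ a * T.lin l₂ C x else 0 := fun b => by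
      split_ifs with e
      · rw [e, H.p2]; ring
      · rw [H.p1 b e]; ring
    simp only [lin, h2, Finset.sum_add_distrib, Finset.sum_ite_eq', List.mem_toFinset, ha, if_true]
    rw [show ∑ b ∈ l₂.toFinset, (C b : ℂ) * T.s b x = T.lin l₂ C x from rfl, h1, Finset.mul_sum,
      ← Finset.sum_add_distrib]
    exact Finset.sum_congr rfl fun b _ => by simp only [nw]; push_cast; ring
  · simp only [List.mem_toFinset, ha, if_false, zero_mul, add_zero]
    exact (El.lin_congr (fun b hb => (H.p1 b (by rintro rfl; exact ha hb) x).symm)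
      fun _ _ => rfl).symm

theorem E_pull {j : ℕ} (hj : j < T.p) (x : ι → ℂ) : (nw T a C s' Φ R).E j x = T.E j (Φ x) := by
  unfold E
  rw [nw_lv, H.lin_pull (lv_top hj.le), show (nw T a C s' Φ R).u j x = T.u j (Φ x) from rfl]
  congr 2
  funext b
  split_ifs with e
  · rfl
  · simp only [nw, H.wf.ρs j hj a (by simpa using e)]

theorem low (hL : L <:+ l₂) : El.Rel T (nw T a C s' Φ R) L L id := by
  have h0 : El.Rel T (nw T a C s' Φ R) [] [] id :=
    El.Rel.nil (fun _ hx => hx) differentiableOn_id fun _ _ hx => hx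
  have := El.climb0 (Q := l₂) H.wf (by simpa using suffix_tail H.hl) h0 H.RR' List.Sublist.slnil
    (fun b hb x _ => (congrFun (H.p3 b (by simpa using hb)) x).symm) (fun j hj x _ => ?_) hL
  · simpa using this
  · obtain ⟨l', hl'⟩ := exists_suffix_of_mem hj
    obtain ⟨h1, rfl⟩ := inr_suffix (hl'.trans (suffix_tail H.hl))
    have ha : a ∉ T.lv j := fun e => H.wf.not_mem H.hl ((suffix_tail hl').subset e)
    unfold E
    rw [nw_lv, show (nw T a C s' Φ R).u j x = T.u j (Φ x) from rfl, H.p4 j hj]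
    congr 1
    exact El.lin_congr (fun b hb => congrFun (H.p3 b ((suffix_tail hl').subset hb)) x)
      fun b _ => by simp only [nw, H.wf.ρs j h1 a ha]; ring

theorem rel2 : El.Rel T (nw T a C s' Φ R) l₂ l₂ Φ := by
  have h := H.low List.suffix_rfl
  exact ⟨h.ok, fun x hx => (H.p5 _ List.suffix_rfl x (h.maps hx)).1, H.dif.mono h.maps,
    fun x hx => H.rea x (h.maps hx), fun g hg => A2_congr (h.cl g hg) fun x hx =>
      ((H.p5 _ List.suffix_rfl x (h.maps hx)).2 g hg).symm⟩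

theorem sd (hL : a :: l₂ <:+ L) (hL' : L <:+ T.top) {y : ι → ℂ} (hy : y ∈ (nw T a C s' Φ R).Sd L)
    (hD : y ∈ (nw T a C s' Φ R).D L) : Φ y ∈ T.Sd L := by
  have hD2 := D_suffix (suffix_tail hL) hD
  have pos : ∀ b ∈ L, 0 ≤ (s' b y).re := fun b hb => H.R0.trans (El.s_om hD hb).1.le
  have e2 : (T.s a (Φ y)).re = (s' a y).re + ∑ b ∈ l₂.toFinset, C b * (s' b y).re := by
    rw [H.p2, H.lin2, Complex.add_re, re_lin]; rfl
  have n2 : 0 ≤ ∑ b ∈ l₂.toFinset, C b * (s' b y).re := Finset.sum_nonneg fun b hb =>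
    mul_nonneg (H.Cn b) (pos b (hL.subset (List.mem_cons_of_mem _ (List.mem_toFinset.1 hb))))
  refine ⟨H.rel2.rea y hD2 hy.1, ?_⟩
  obtain ⟨Q, rfl⟩ := hL
  have nd := hL'.sublist.nodup H.wf.nd
  have hy2 : (Q ++ a :: l₂).Pairwise fun b c => R * (s' c y).re < (s' b y).re := hy.2
  have both := hy2.and (List.nodup_iff_pairwise_ne.1 nd)
  have R1 := H.wf.R1
  have gen : ∀ {b c}, c ∈ Q ++ a :: l₂ → c ≠ a → R * (s' c y).re < (s' b y).re →
      T.R * (T.s c (Φ y)).re < (T.s b (Φ y)).re := fun {b c} hc hca h1 => by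
    rw [H.p1 c hca]
    refine ((mul_le_mul_of_nonneg_right H.RR' (pos c hc)).trans_lt h1).trans_le ?_
    by_cases hb : b = a
    · rw [hb, e2]; linarith
    · rw [H.p1 b hb]
  rw [List.pairwise_append] at hy2 ⊢
  have aQ : a ∉ Q := fun e => (List.nodup_append.1 nd).2.2 a e a List.mem_cons_self rfl
  refine ⟨hy2.1.imp_of_mem fun {b c} _ hc h1 => gen (List.mem_append_left _ hc)
    (by rintro rfl; exact aQ hc) h1, ?_, fun b hb c hc => ?_⟩
  · refine List.Pairwise.cons (fun c hc => gen (List.mem_append_right _ (List.mem_cons_of_mem _ hc))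
      (by rintro rfl; exact H.wf.not_mem H.hl hc) ((List.pairwise_cons.1 hy2.2.1).1 c hc))
      ((List.pairwise_cons.1 hy2.2.1).2.imp_of_mem fun {b c} _ hc h1 => gen
        (List.mem_append_right _ (List.mem_cons_of_mem _ hc))
        (by rintro rfl; exact H.wf.not_mem H.hl hc) h1)
  · by_cases hca : c = a
    · subst hca
      have hb' : b ≠ c := by rintro rfl; exact aQ hb
      rw [e2, H.p1 b hb']
      have h1 := hy2.2.2 b hb c List.mem_cons_self
      have h2 : R * ∑ d ∈ l₂.toFinset, C d * (s' d y).re ≤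
          (∑ d ∈ l₂.toFinset, C d) * (s' b y).re := by
        rw [Finset.mul_sum, Finset.sum_mul]
        exact Finset.sum_le_sum fun d hd => by
          have := mul_le_mul_of_nonneg_left (hy2.2.2 b hb d
            (List.mem_cons_of_mem _ (List.mem_toFinset.1 hd))).le (H.Cn d)
          linarith
      have h3 := pos b (List.mem_append_left _ hb)
      have h4 : 0 < R := by linarith [H.RR']
      refine lt_of_mul_lt_mul_left (a := R) ?_ h4.le
      have h5 := mul_lt_mul_of_pos_left (add_lt_add_of_lt_of_le h1 h2) (by linarith : 0 < T.R)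
      have h6 := mul_le_mul_of_nonneg_right H.hR h3
      nlinarith
    · exact gen (List.mem_append_right _ hc) hca (hy2.2.2 b hb c hc)

theorem rel_a : El.Rel T (nw T a C s' Φ R) (a :: l₂) (a :: l₂) Φ := by
  have h2 := H.rel2
  have ho : (nw T a C s' Φ R).fr.Ok (a :: l₂) := by
    refine El.ok_step h2.ok H.R0 ((((El.dif_s H.wf H.hl).comp h2.dif h2.maps).sub
      (El.dif_lin h2.ok C)).congr fun x _ => ?_) ?_
    · rw [Pi.sub_apply, ← H.lin2]; exact eq_sub_of_add_eq (H.p2 x).symm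
    · rintro j rfl
      obtain ⟨hj, rfl⟩ := inr_suffix H.hl
      exact ((El.dif_E H.wf hj).continuousOn.comp h2.dif.continuousOn h2.maps).congr
        fun x _ => H.E_pull hj x
  refine El.Rel.step H.wf H.hl (h2.up (List.suffix_cons _ _) ho)
    (e := (nw T a C s' Φ R).lin l₂ C) (fun x _ => by rw [← H.lin2]; exact H.p2 x)
    (fun x hx => ?_) (fun t ht => ?_) ⟨0, fun x hx => ?_⟩ fun y hy hD =>
      H.sd List.suffix_rfl H.hl hy hD
  · rw [H.p2, H.lin2]
    exact H.hO _ _ (D_cons_cst hx).1 fun b hb =>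
      El.s_om hx (List.mem_cons_of_mem _ (List.mem_toFinset.1 hb))
  · refine A2_congr (A4_lift ho (List.suffix_cons _ _) (mon_of_ok (γ := fun b => t * C b)
      (fun b => mul_nonneg ht (H.Cn b)) h2.ok ((suffix_tail H.hl).sublist.nodup H.wf.nd)))
      fun x _ => ?_
    simp only [lin, Finset.mul_sum]
    congr 2
    exact Finset.sum_congr rfl fun b _ => by push_cast; ring
  · rw [neg_zero]; exact El.re_lin H.R0 H.Cn (D_cons_sub hx)

theorem high (hL : a :: l₂ <:+ L) (hL' : L <:+ T.top) : El.Rel T (nw T a C s' Φ R) L L Φ := by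
  obtain ⟨Q, rfl⟩ := hL
  have nd := hL'.sublist.nodup H.wf.nd
  have aQ : a ∉ Q := fun e => (List.nodup_append.1 nd).2.2 a e a List.mem_cons_self rfl
  refine El.climb H.wf hL' H.rel_a H.R0 (fun b hb => ⟨0, Fr.Cl.zero, fun x _ => ?_⟩)
    (fun j hj x _ => H.E_pull (inr_mem_lv.1 (hL'.subset (List.mem_append_left _ hj))) x)
    (fun q hq y hy hD => H.sd (List.suffix_append _ _) ?_ hy hD) List.suffix_rfl
  · rw [H.p1 b (by rintro rfl; exact aQ hb)]
    exact ⟨by simp [nw], fun h' => El.Om_mono H.wf.R1 H.RR' h'⟩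
  · obtain ⟨t, rfl⟩ := hq
    exact List.IsSuffix.trans ⟨t, by simp⟩ hL'

theorem pb (hL : L <:+ T.top) : Pb T (nw T a C s' Φ R) L L Φ := by
  have sc : ∀ b ∈ L, ∃ (C' : ι ⊕ ℕ → ℝ) (g : (ι → ℂ) → ℂ), (nw T a C s' Φ R).fr.A L g ∧
      RR ((nw T a C s' Φ R).D L) g ∧ ∀ x ∈ (nw T a C s' Φ R).D L,
        T.s b (Φ x) = (nw T a C s' Φ R).lin L C' x + g x := fun b hb =>
    ⟨_, 0, Fr.Cl.zero, fun _ _ _ => rfl, fun x _ => by
      rw [← El.lin_single hb, H.lin_pull hL]; exact (add_zero _).symm⟩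
  rcases H.cases hL with e | e
  · have h := H.low e
    exact ⟨fun x hx => (H.p5 _ e x (h.maps hx)).1, fun g hg => A2_congr (h.cl g hg) fun x hx =>
      ((H.p5 _ e x (h.maps hx)).2 g hg).symm, fun g hg hr x hx hx' => by
        rw [Function.comp, (H.p5 _ e x (h.maps hx)).2 g hg]; exact hr x (h.maps hx) hx', sc⟩
  · have h := H.high e hL
    exact ⟨h.maps, h.cl, fun _ _ hg => h.rr hg, sc⟩

theorem wf' : (nw T a C s' Φ R).WF := by
  have h := H.wf
  refine ⟨h.R1.trans H.RR', h.r0, by rw [nw_top]; exact h.nd, by rw [nw_top]; exact h.dj, h.lab,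
    H.sN, fun j hj x hx => ?_, fun j hj => ?_, fun j hj => ?_, fun j hj k hk => ?_,
    fun j b => add_nonneg (h.ρ0 j b) (mul_nonneg (h.ρ0 j a) (H.Cn b)), fun j b => ?_,
    fun j hj b hb => ?_, fun j hj => ?_, fun j j' h1 h2 => ?_⟩
  · rw [nw_lv] at hx ⊢
    have e := h.sL j hj _ ((H.pb (lv_top hj.le)).maps hx)
    rw [H.E_pull hj, ← sub_eq_iff_eq_add.2 (sub_add_cancel _ _).symm]
    rw [H.lin_pull (lv_top hj.le)] at e
    by_cases ha : a = Sum.inr j
    · subst ha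
      obtain ⟨-, rfl⟩ := inr_suffix H.hl
      rw [H.p2, H.lin2] at e
      have e2 : (nw T (Sum.inr j) C s' Φ R).lin (T.lv j) ((nw T (Sum.inr j) C s' Φ R).c j) x =
          (nw T (Sum.inr j) C s' Φ R).lin (T.lv j) (fun b => T.c j b +
            (if Sum.inr j ∈ (T.lv j).toFinset then T.c j (Sum.inr j) else 0) * C b) x +
          (nw T (Sum.inr j) C s' Φ R).lin (T.lv j) C x := by
        simp only [lin, ← Finset.sum_add_distrib]
        exact Finset.sum_congr rfl fun b _ => by simp only [nw, if_true]; push_cast; ring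
      rw [e2]
      exact (eq_sub_of_add_eq e).trans (by ring)
    · rw [H.p1 _ (Ne.symm ha)] at e
      refine e.trans ?_
      congr 2
      funext b
      simp only [nw, ha, if_false, add_zero]
  · rw [nw_lv]; exact (H.pb (lv_top hj.le)).cl _ (h.uA j hj)
  · rw [nw_lv]; exact (H.pb (lv_top hj.le)).rr _ (h.uA j hj) (h.uR j hj)
  · rw [nw_lv] at hk; exact H.ind j hj k hk
  · have := h.c0 j b
    have := h.c0 j a
    have := H.Cn b
    simp only [nw]
    split_ifs <;> positivity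
  · rw [nw_lv] at hb
    simp only [nw, h.ρs j hj b hb]
    by_cases ha : a ∈ T.lv j
    · rw [H.C0 b fun e => hb (H.sub_of_mem (lv_top (le_of_lt hj)) ha b e)]; ring
    · rw [h.ρs j hj a ha]; ring
  · obtain ⟨b, h1, h2⟩ := h.ρp j hj
    exact ⟨b, by rw [nw_lv]; exact h1,
      add_pos_of_pos_of_nonneg h2 (mul_nonneg (h.ρ0 j a) (H.Cn b))⟩
  · obtain ⟨h3, b, h4, h5⟩ := h.ρm j j' h1 h2
    exact ⟨fun c => add_le_add (h3 c) (mul_le_mul_of_nonneg_right (h3 a) (H.Cn c)), b,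
      by rw [nw_lv]; exact h4,
      add_lt_add_of_lt_of_le h5 (mul_le_mul_of_nonneg_right (h3 a) (H.Cn b))⟩

end Core

end Crest.Agent.N207.O.En
end
end

-- ▼ part N207/O/En2

/-!
# Row 207, block O (helper81): `E1_norm`
-/

set_option autoImplicit false
set_option linter.unusedSectionVars false

open Set Filter Topology Metric

noncomputable section

namespace Crest.Agent.N207.O

open Tw

variable {ι : Type} [Fintype ι] [DecidableEq ι] {α : Type} {U : Ultrafilter α} {T T' : Tw ι}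
  {p p' : α → ι → ℂ} {l l₂ L : List (ι ⊕ ℕ)} {a : ι ⊕ ℕ} {C : ι ⊕ ℕ → ℝ} {R : ℝ} {W : Finset ι}
  {s' : ι ⊕ ℕ → (ι → ℂ) → ℂ} {Φ : (ι → ℂ) → ι → ℂ}

namespace En

theorem first_ne {β : Type*} {γ : β → ℝ} : ∀ {l : List β}, (∃ b ∈ l, γ b ≠ 0) →
    ∃ l₁ a l₂, l = l₁ ++ a :: l₂ ∧ γ a ≠ 0 ∧ ∀ b ∈ l₁, γ b = 0
  | [], h => by simp at h
  | c :: l, h => by
    by_cases hc : γ c = 0
    · obtain ⟨b, hb, h0⟩ := h
      have hb' : b ∈ l := (List.mem_cons.1 hb).resolve_left (by rintro rfl; exact h0 hc)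
      obtain ⟨l₁, a, l₂, rfl, h1, h2⟩ := first_ne ⟨b, hb', h0⟩
      exact ⟨c :: l₁, a, l₂, rfl, h1, fun b hb => (List.mem_cons.1 hb).elim (fun e => e ▸ hc) (h2 b)⟩
    · exact ⟨[], c, l, rfl, hc, by simp⟩

theorem lin_append_zero {γ : ι ⊕ ℕ → ℝ} (x : ι → ℂ) : ∀ {l₁ : List (ι ⊕ ℕ)}, (l₁ ++ l).Nodup →
    (∀ b ∈ l₁, γ b = 0) → T.lin (l₁ ++ l) γ x = T.lin l γ x
  | [], _, _ => rfl
  | b :: l₁, nd, h => by
    rw [List.cons_append] at nd ⊢
    rw [lin_cons (List.nodup_cons.1 nd).1, h b List.mem_cons_self,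
      lin_append_zero x nd.of_cons fun c hc => h c (List.mem_cons_of_mem _ hc)]
    simp

theorem Core.fin (H : Core T a l₂ C s' Φ R) (hp : T.Pt U p)
    (com : ∀ k ∈ W, ∀ x w, Φ (Function.update x k w) = Function.update (Φ x) k w)
    (opn : ∀ x, Φ x ∈ T.D l₂ → 𝓝 (Φ x) ≤ map Φ (𝓝 x)) (re : ∀ i, p' i ∈ Rp ι)
    (hp' : ∀ᶠ i in U, Φ (p' i) = p i) (pk : ∀ k, Sum.inl k ≠ a → ∀ i, p' i k = p i k) :
    T.Lift (nw T a C s' Φ R) U 0 W p p' Φ ∧ T.Same (nw T a C s' Φ R) 0 Φ := by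
  have ha := H.hl.subset List.mem_cons_self
  have hi := H.high H.hl List.suffix_rfl
  have pt : (nw T a C s' Φ R).Pt U p' := by
    refine pt_of_ratio hp nw_top re (fun k hk => ?_) (fun k h1 h2 i => ?_) fun b hb => ?_
    · simp only [pk k (by rintro rfl; exact H.wf.dj k hk ha)]
      exact hp.z0 k hk
    · rw [nw_top] at h2
      rw [pk k (by rintro rfl; exact h2 ha)]
      exact hp.un k h1 h2 i
    · by_cases e : b = a
      · subst e
        have := (lin_ratio hp H.hl C).const_sub 1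
        rw [sub_zero] at this
        refine this.congr' ?_
        filter_upwards [hp', (hp.big b hb).eventually_gt_atTop 0] with i h1 h2
        have e1 : T.lin l₂ C (p' i) = T.lin l₂ C (p i) :=
          El.lin_congr (fun c hc => by
            rw [← h1, H.p1 c (by rintro rfl; exact H.wf.not_mem H.hl hc), H.p3 c hc]) fun _ _ => rfl
        have e2 := H.p2 (p' i)
        rw [h1, e1] at e2
        rw [show (nw T b C s' Φ R).s b (p' i) = T.s b (p i) - T.lin l₂ C (p i) from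
          eq_sub_of_add_eq e2.symm, Complex.sub_re, sub_div, div_self h2.ne']
      · refine tendsto_const_nhds.congr' ?_
        filter_upwards [hp', (hp.big b hb).eventually_gt_atTop 0] with i h1 h2
        rw [show (nw T a C s' Φ R).s b (p' i) = T.s b (p i) from by rw [← h1]; exact (H.p1 b e _).symm,
          div_self h2.ne']
  refine ⟨⟨H.wf', pt, hp', rfl, le_rfl, Finset.Subset.refl _, fun k _ hk => ⟨hk, rfl, rfl⟩, com,
    fun k _ => le_max_left _ _, by rw [nw_top]; exact hi.dif, by rw [nw_top]; exact hi.rea,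
    fun m _ hm => ?_⟩, rfl, rfl, rfl, fun x hx => ?_, fun L _ hL => H.pb hL, fun b L _ hL => ?_⟩
  · rw [El.lw_congr (T := T) (T' := nw T a C s' Φ R) rfl]
    exact H.pb (El.lw_top T hm)
  · rw [nw_top] at hx
    exact opn x (D_suffix (suffix_tail H.hl) (hi.maps hx))
  · by_cases e : b = a
    · subst e
      obtain rfl := suffix_unique H.wf.nd hL H.hl
      exact ⟨C, 0, Fr.Cl.zero, fun _ _ _ => rfl, fun x _ => by
        rw [H.p2, H.lin2]; exact (add_zero _).symm⟩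
    · exact ⟨0, 0, Fr.Cl.zero, fun _ _ _ => rfl, fun x _ => by
        rw [H.p1 b e]; simp [lin, nw]⟩

/-- numerical data -/
structure Num (T : Tw ι) (l₂ : List (ι ⊕ ℕ)) (C : ι ⊕ ℕ → ℝ) (R : ℝ) : Prop where
  C1 : ∀ b ∈ l₂, 1 ≤ C b
  C0 : ∀ b, b ∉ l₂ → C b = 0
  hR : T.R * (1 + ∑ b ∈ l₂.toFinset, C b) ≤ R
  hO : ∀ (w : ℂ) (v : ι ⊕ ℕ → ℂ), w ∈ Om R → (∀ b ∈ l₂.toFinset, v b ∈ Om R) →
    w + ∑ b ∈ l₂.toFinset, C b * v b ∈ Om T.R

theorem ind_lv (h : T.WF) {j : ℕ} (hj : j < T.p) {k : ι} (h1 : Sum.inl k ∉ T.lv j)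
    (h2 : k ∉ T.Fv ∨ j < T.lab k) {b : ι ⊕ ℕ} (hb : b ∈ T.lv j) : Ind k (T.s b) :=
  (h.ind_s (lv_top hj.le) h1 (fun hF _ hj' => (inr_mem_lv.1 hj').trans
    (h2.resolve_left fun e => e hF)) hb).1

theorem core_tied (h : T.WF) {j : ℕ} (hl : Sum.inr j :: l₂ <:+ T.top) (N : Num T l₂ C R) :
    Core T (Sum.inr j) l₂ C
      (fun b x => if b = Sum.inr j then T.s b x - T.lin l₂ C x else T.s b x) id R := by
  refine ⟨h, hl, N.C1, N.C0, fun b hb x => by simp [hb], fun x => by simp, fun b hb => ?_,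
    fun _ _ _ => rfl, fun _ _ _ hx => ⟨hx, fun _ _ => rfl⟩, differentiableOn_id, fun _ _ hx => hx,
    fun k x => by simp [h.sN], fun j' hj k h1 h2 => ⟨fun x w => ?_, (h.ind j' hj k h1 h2).2⟩,
    N.hR, N.hO⟩
  · funext x
    rw [if_neg (by rintro rfl; exact h.not_mem hl hb)]
  · beta_reduce
    rw [(h.ind j' hj k h1 h2).1 x w]
    split_ifs with e
    · obtain rfl := Sum.inr.inj e
      obtain ⟨-, rfl⟩ := inr_suffix hl
      rw [ind_lin (fun b hb => ind_lv h hj h1 h2 hb) C x w]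
    · rfl

/-- the shear of a free coordinate -/
def shear (T : Tw ι) (l₂ : List (ι ⊕ ℕ)) (C : ι ⊕ ℕ → ℝ) (k : ι) (σ : ℂ) (x : ι → ℂ) : ι → ℂ :=
  Function.update x k (x k + σ * T.lin l₂ C x)

theorem shear_com {k k' : ι} (hk : k' ≠ k) (hi : Ind k' (T.lin l₂ C)) (σ : ℂ) (x : ι → ℂ) (w : ℂ) :
    shear T l₂ C k σ (Function.update x k' w) = Function.update (shear T l₂ C k σ x) k' w := by
  unfold shear
  rw [hi, Function.update_of_ne hk.symm, Function.update_comm hk]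

theorem shear_shear {k : ι} (hi : Ind k (T.lin l₂ C)) (σ τ : ℂ) (x : ι → ℂ) :
    shear T l₂ C k σ (shear T l₂ C k τ x) = shear T l₂ C k (τ + σ) x := by
  unfold shear
  rw [hi, Function.update_self, Function.update_idem]
  congr 1; ring

theorem shear_zero (k : ι) (x : ι → ℂ) : shear T l₂ C k 0 x = x := by simp [shear]

theorem dif_shear (ho : T.fr.Ok l₂) (k : ι) (σ : ℂ) :
    DifferentiableOn ℂ (shear T l₂ C k σ) (T.D l₂) := by
  refine differentiableOn_pi.2 fun k' => ?_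
  by_cases e : k' = k
  · subst e
    simp only [shear, Function.update_self]
    exact (differentiableOn_apply _ _).add ((El.dif_lin ho C).const_mul σ)
  · simp only [shear, Function.update_of_ne e]
    exact differentiableOn_apply _ _

theorem core_free (h : T.WF) {k : ι} (hl : Sum.inl k :: l₂ <:+ T.top) (N : Num T l₂ C R) :
    Core T (Sum.inl k) l₂ C
      (fun b x => if b = Sum.inl k then x k else T.s b (shear T l₂ C k 1 x)) (shear T l₂ C k 1) R := by
  have hF : k ∉ T.Fv := fun hF => h.dj k hF (hl.subset List.mem_cons_self)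
  have hk := h.not_mem hl
  have hl' := suffix_tail hl
  have i1 : ∀ b ∈ l₂, Ind k (T.s b) ∧ ∀ j, b = Sum.inr j → Ind k (T.u j) := fun b hb =>
    h.ind_s hl' hk (fun e => absurd e hF) hb
  refine ⟨h, hl, N.C1, N.C0, fun b hb x => by simp [hb], fun x => by simp [h.sN, shear],
    fun b hb => ?_, fun j hj x => (i1 _ hj).2 j rfl x _, fun l₀ h₀ x hx => ⟨?_, fun g hg => ?_⟩,
    dif_shear (T1_ok h hl') k 1, fun x hx hr k' => ?_, fun k' x => ?_, fun j hj k' h1 h2 => ?_,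
    N.hR, N.hO⟩
  · funext x
    rw [if_neg (by rintro rfl; exact hk hb)]
    exact (i1 b hb).1 x _
  · exact T2_upd h (h₀.trans hl') (fun e => hk (h₀.subset e)) (fun e => absurd e hF) hx
      fun e => absurd e hF
  · exact T3_liou h (h₀.trans hl') (fun e => hk (h₀.subset e)) hF (A1_diff hg)
      (A1_bd (T1_ok h (h₀.trans hl')) le_rfl hg) hx _
  · by_cases e : k' = k
    · subst e
      simp only [shear, Function.update_self, one_mul, Complex.add_im, hr k',
        im_lin fun b hb => T6_real h hl' b hb x hx hr, add_zero]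
    · simp only [shear, Function.update_of_ne e, hr k']
  · split_ifs with e
    · rw [Sum.inl.inj e]
    · rw [h.sN, shear, Function.update_of_ne fun e' => e (by rw [e'])]
  · obtain ⟨i2, i3⟩ := h.ind j hj k' h1 h2
    simp only [reduceCtorEq, if_false]
    by_cases ha : Sum.inl k ∈ T.lv j
    · have sub : ∀ b ∈ l₂, b ∈ T.lv j := by
        obtain ⟨l', hl''⟩ := exists_suffix_of_mem ha
        obtain rfl := suffix_unique h.nd (hl''.trans (lv_top hj.le)) hl
        exact fun b hb => (suffix_tail hl'').subset hb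
      have com := shear_com (C := C) (k := k) (k' := k') (by rintro rfl; exact h1 ha)
        (ind_lin (fun b hb => ind_lv h hj h1 h2 (sub b hb)) C) 1
      exact ⟨fun x w => by beta_reduce; rw [com, i2], fun x w => by simp only [Function.comp]; rw [com, i3]⟩
    · obtain ⟨i4, i5⟩ := h.ind j hj k ha (Or.inl hF)
      exact ⟨fun x w => by simp only [shear]; rw [i4, i4, i2],
        fun x w => by simp only [Function.comp, shear]; rw [i5, i5, i3]⟩

end En

open En

theorem E1_norm (h : T.WF) (hp : T.Pt U p) (hl : l <:+ T.top)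
    (hW : ∀ k ∈ W, k ∈ T.Fv ∧ T.Free l k) {γ : ι ⊕ ℕ → ℝ}
    (hγ : Tendsto (fun i => (T.lin l γ (p i)).re) U atTop) :
    ∃ (T' : Tw ι) (p' : α → ι → ℂ) (Φ : (ι → ℂ) → ι → ℂ) (γ' : ι ⊕ ℕ → ℝ),
      T.Lift T' U 0 W p p' Φ ∧ T.Same T' 0 Φ ∧ T'.r = T.r ∧ (∀ a, 0 ≤ γ' a) ∧
      (∃ a ∈ l, 0 < γ' a) ∧ (∀ x ∈ T'.D l, T.lin l γ (Φ x) = T'.lin l γ' x) ∧
      (∀ k ∈ T.Fv, ∀ x, Φ x k = x k) ∧ ∀ k ∈ T.Fv, ∀ i, p' i k = p i k := by
  have hne : ∃ b ∈ l, γ b ≠ 0 := by
    by_contra hc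
    push Not at hc
    have : ∀ i, (T.lin l γ (p i)).re = 0 := fun i => by
      rw [re_lin]; exact Finset.sum_eq_zero fun b hb => by rw [hc b (List.mem_toFinset.1 hb), zero_mul]
    obtain ⟨i, hi⟩ := (hγ.eventually_gt_atTop 0).exists
    exact hi.ne' (this i)
  obtain ⟨l₁, a, l₂, rfl, h1, h2⟩ := first_ne hne
  have nd := hl.sublist.nodup h.nd
  have hla : a :: l₂ <:+ T.top := (List.suffix_append _ _).trans hl
  have ha : a ∈ T.top := hla.subset List.mem_cons_self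
  have hpos : 0 < γ a := by
    refine lt_of_le_of_ne (not_lt.1 fun hc => ?_) h1.symm
    obtain ⟨i, i1, i2, i3⟩ := ((hγ.eventually_gt_atTop 0).and (((hp.big a ha).eventually_gt_atTop
      0).and ((lin_ratio hp hla γ).eventually (gt_mem_nhds (neg_pos.2 hc))))).exists
    rw [lin_append_zero _ nd h2, lin_cons (h.not_mem hla), Complex.add_re, Complex.re_ofReal_mul] at i1
    rw [div_lt_iff₀ i2] at i3
    linarith
  obtain ⟨C, hC⟩ : ∃ C : ι ⊕ ℕ → ℝ, C = fun b => if b ∈ l₂.toFinset then 1 + |γ b| / γ a else 0 :=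
    ⟨_, rfl⟩
  have C1 : ∀ b ∈ l₂, 1 ≤ C b := fun b hb => by
    simp only [hC, List.mem_toFinset, hb, if_true]
    have : 0 ≤ |γ b| / γ a := by positivity
    linarith
  have C0 : ∀ b, b ∉ l₂ → C b = 0 := fun b hb => by simp only [hC, List.mem_toFinset, hb, if_false]
  obtain ⟨R₁, -, hR₁⟩ := Om_sum l₂.toFinset (fun b hb => C1 b (List.mem_toFinset.1 hb)) h.R1
  obtain ⟨R, hR⟩ : ∃ R, R = max 1 (max R₁ (T.R * (1 + ∑ b ∈ l₂.toFinset, C b))) := ⟨_, rfl⟩
  have R1 : 1 ≤ R := hR ▸ le_max_left _ _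
  have R2 : R₁ ≤ R := hR ▸ (le_max_left _ _).trans (le_max_right _ _)
  have N : Num T l₂ C R := ⟨C1, C0, hR ▸ (le_max_right _ _).trans (le_max_right _ _),
    fun w v hw hv => hR₁ w v (Om_anti R1 R2 hw) fun b hb => Om_anti R1 R2 (hv b hb)⟩
  have fin : ∀ {s' Φ}, Core T a l₂ C s' Φ R → ∃ γ' : ι ⊕ ℕ → ℝ, (∀ a, 0 ≤ γ' a) ∧
      (∃ b ∈ l₁ ++ a :: l₂, 0 < γ' b) ∧ ∀ x ∈ (nw T a C s' Φ R).D (l₁ ++ a :: l₂),
        T.lin (l₁ ++ a :: l₂) γ (Φ x) = (nw T a C s' Φ R).lin (l₁ ++ a :: l₂) γ' x := by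
    intro s' Φ H
    refine ⟨fun b => max (γ b + γ a * C b) 0, fun _ => le_max_right _ _, ⟨a, by simp, ?_⟩,
      fun x _ => ?_⟩
    · exact lt_max_of_lt_left (by rw [C0 a (h.not_mem hla)]; linarith)
    · rw [H.lin_pull hl]
      refine El.lin_congr (fun _ _ => rfl) fun b hb => ?_
      rw [if_pos (by simp), max_eq_left]
      by_cases hb2 : b ∈ l₂
      · simp only [hC, List.mem_toFinset, hb2, if_true]
        rw [mul_add, mul_div_cancel₀ _ h1]
        linarith [neg_abs_le (γ b)]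
      · rw [C0 b hb2]
        rcases List.mem_append.1 hb with e | e
        · rw [h2 b e]; simp
        · rw [(List.mem_cons.1 e).resolve_right hb2]; linarith
  rcases a with k | j
  · have H := core_free h hla N
    have hF : k ∉ T.Fv := fun hF => h.dj k hF ha
    have hl' := suffix_tail hla
    have ik : Ind k (T.lin l₂ C) := ind_lin
      (fun b hb => (h.ind_s hl' (h.not_mem hla) (fun e => absurd e hF) hb).1) C
    obtain ⟨γ', g1, g2, g3⟩ := fin H
    have opn : ∀ x, shear T l₂ C k 1 x ∈ T.D l₂ →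
        𝓝 (shear T l₂ C k 1 x) ≤ map (shear T l₂ C k 1) (𝓝 x) := fun x hx => by
      have c : ContinuousAt (shear T l₂ C k (-1)) (shear T l₂ C k 1 x) :=
        (dif_shear (T1_ok h hl') k (-1)).continuousOn.continuousAt ((h.isOpen_D hl').mem_nhds hx)
      have e1 : shear T l₂ C k (-1) (shear T l₂ C k 1 x) = x := by
        rw [shear_shear ik, add_neg_cancel, shear_zero]
      have e2 : shear T l₂ C k 1 ∘ shear T l₂ C k (-1) = id := by
        funext y; simp only [Function.comp]; rw [shear_shear ik, neg_add_cancel, shear_zero, id]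
      have := map_mono (m := shear T l₂ C k 1) c.tendsto
      rwa [map_map, e2, map_id, e1] at this
    have re : ∀ i, Function.update (p i) k ((p i k - T.lin l₂ C (p i)).re : ℂ) ∈ Rp ι := by
      intro i k'
      by_cases e : k' = k
      · subst e; simp
      · simp only [Function.update_of_ne e]; exact hp.re i k'
    have hp' : ∀ᶠ i in U, shear T l₂ C k 1
        (Function.update (p i) k ((p i k - T.lin l₂ C (p i)).re : ℂ)) = p i := by
      filter_upwards [T5_mem h hp hl'] with i hi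
      have e : (((p i k - T.lin l₂ C (p i)).re : ℝ) : ℂ) = p i k + -1 * T.lin l₂ C (p i) :=
        Complex.ext (by simp; ring) (by
          simp [hp.re i k, im_lin fun b hb => T6_real h hl' b hb _ hi (hp.re i)])
      rw [e]
      exact (shear_shear ik 1 (-1) (p i)).trans (by rw [neg_add_cancel, shear_zero])
    have ne : ∀ k' ∈ T.Fv, k' ≠ k := by rintro k' hk' rfl; exact hF hk'
    obtain ⟨L, S⟩ := H.fin (W := W) hp (fun k' hk' => shear_com
        (ne k' (hW _ hk').1) (ind_lin (fun b hb => (h.ind_s hl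
          (fun e => h.dj k' (hW _ hk').1 (hl.subset e)) (fun _ => (hW _ hk').2)
          (List.mem_append_right _ (List.mem_cons_of_mem _ hb))).1) C) 1) opn re hp'
      (fun k' hk' i => Function.update_of_ne (fun e => hk' (by rw [e])) _ _)
    exact ⟨_, _, _, γ', L, S, rfl, g1, g2, g3, fun k' hk' x => Function.update_of_ne (ne k' hk') _ _,
      fun k' hk' i => Function.update_of_ne (ne k' hk') _ _⟩
  · have H := core_tied h hla N
    obtain ⟨γ', g1, g2, g3⟩ := fin H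
    obtain ⟨L, S⟩ := H.fin (W := W) (p' := p) hp (fun _ _ _ _ => rfl) (fun x _ => by simp) hp.re
      (Eventually.of_forall fun _ => rfl) fun _ _ _ => rfl
    exact ⟨_, _, _, γ', L, S, rfl, g1, g2, g3, fun _ _ _ => rfl, fun _ _ _ => rfl⟩

end Crest.Agent.N207.O
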