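import Crest.Agent.N250.H.Int
import Crest.Agent.N250.H.Fix
import Crest.Agent.N207.O.Alg1
import Crest.Agent.N207.O.Alg3

-- ▼ part N207/O/Hol1
section

/-!
# Row 207, block O (helper28): class-free holomorphy lemmas

Iterated divided differences `ds`, Taylor formula with remainder, joint holomorphy of partial
derivatives, circle integrals and divided differences, reality, the root of a perturbed identity.
-/

set_option autoImplicit false
set_option linter.unusedSectionVars false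

open Set Filter Topology Metric Complex
open Crest.Agent.N250.H

noncomputable section

namespace Crest.Agent.N207.O

variable {X Y E : Type*} [NormedAddCommGroup X] [NormedSpace ℂ X] [NormedAddCommGroup Y]
  [NormedSpace ℂ Y] [NormedAddCommGroup E] [NormedSpace ℂ E]

/-- iterated divided difference at `0` -/
def ds (d : ℕ) (f : ℂ → E) : ℂ → E := (Function.swap dslope 0)^[d] f

theorem ds_zero (f : ℂ → E) : ds 0 f = f := rfl

theorem ds_succ (d : ℕ) (f : ℂ → E) : ds (d + 1) f = dslope (ds d f) 0 :=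
  Function.iterate_succ_apply' _ _ _

theorem ds_expand (f : ℂ → E) (d : ℕ) (w : ℂ) :
    f w = ∑ j ∈ Finset.range d, w ^ j • ds j f 0 + w ^ d • ds d f w := by
  induction d with
  | zero => simp [ds_zero]
  | succ d ih =>
    have h := sub_smul_dslope (ds d f) 0 w
    rw [sub_zero, ← ds_succ] at h
    rw [Finset.sum_range_succ, pow_succ, mul_smul, h, smul_sub]
    refine ih.trans ?_
    abel

theorem ds_diff [CompleteSpace E] {f : ℂ → E} {r : ℝ} (hr : 0 < r)
    (hf : DifferentiableOn ℂ f (ball 0 r)) (d : ℕ) : DifferentiableOn ℂ (ds d f) (ball 0 r) := by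
  induction d with
  | zero => exact hf
  | succ d ih => rw [ds_succ]; exact (differentiableOn_dslope (ball_mem_nhds _ hr)).2 ih

theorem dslope_le {f : ℂ → E} {c w : ℂ} {r M : ℝ} (hf : DifferentiableOn ℂ f (ball c r))
    (hM : ∀ z ∈ ball c r, ‖f z‖ ≤ M) (hw : w ∈ ball c r) : ‖dslope f c w‖ ≤ 2 * M / r :=
  norm_dslope_le_div_of_mapsTo_ball hf (maps_of_bd (nonempty_ball.1 ⟨w, hw⟩) hM) hw

theorem ds_le [CompleteSpace E] {f : ℂ → E} {r M : ℝ} (hf : DifferentiableOn ℂ f (ball 0 r))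
    (hM : ∀ z ∈ ball 0 r, ‖f z‖ ≤ M) (d : ℕ) : ∀ w ∈ ball 0 r, ‖ds d f w‖ ≤ (2 / r) ^ d * M := by
  induction d with
  | zero => simpa [ds_zero] using hM
  | succ d ih =>
    intro w hw
    rw [ds_succ]
    refine (dslope_le (ds_diff (nonempty_ball.1 ⟨w, hw⟩) hf d) ih hw).trans (le_of_eq ?_)
    ring

theorem ds_at_zero [CompleteSpace E] {f : ℂ → E} (hf : AnalyticAt ℂ f 0) (d : ℕ) :
    ds d f 0 = (d.factorial : ℂ)⁻¹ • iteratedDeriv d f 0 := by
  obtain ⟨p, r, hp⟩ := hf
  have h1 := (hp.hasFPowerSeriesAt.has_fpower_series_iterate_dslope_fslope d).coeff_zero 1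
  have h2 := hp.factorial_smul (1 : ℂ) d
  rw [← FormalMultilinearSeries.coeff, FormalMultilinearSeries.coeff_iterate_fslope,
    zero_add] at h1
  rw [ds, ← h1, iteratedDeriv_eq_iteratedFDeriv, ← h2, ← Nat.cast_smul_eq_nsmul ℂ, smul_smul,
    inv_mul_cancel₀ (by exact_mod_cast d.factorial_ne_zero), one_smul]
  rfl

/-- no global bound is needed -/
theorem diffOn_fderiv' [CompleteSpace E] {f : X → E} {U : Set X} (hU : IsOpen U)
    (hd : DifferentiableOn ℂ f U) : DifferentiableOn ℂ (fderiv ℂ f) U := by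
  intro c hc
  have h1 : ∀ᶠ z in 𝓝 c, ‖f z‖ < ‖f c‖ + 1 :=
    (hd.continuousOn.continuousAt (hU.mem_nhds hc)).norm.eventually (gt_mem_nhds (lt_add_one _))
  obtain ⟨r, hr, hs⟩ := Metric.eventually_nhds_iff_ball.1 (h1.and (hU.mem_nhds hc))
  exact ((diffOn_fderiv (M := ‖f c‖ + 1) isOpen_ball (fun z hz => (hs z hz).1.le)
    (hd.mono fun z hz => (hs z hz).2)).differentiableAt (ball_mem_nhds c hr)).differentiableWithinAt

theorem slice_diff {G : X × Y → E} {V : Set X} {U : Set Y} (hG : DifferentiableOn ℂ G (V ×ˢ U))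
    {x : X} (hx : x ∈ V) : DifferentiableOn ℂ (fun y => G (x, y)) U :=
  hG.comp (f := fun y => (x, y)) (by fun_prop) fun _ hy => ⟨hx, hy⟩

/-- joint holomorphy of the partial derivative -/
theorem pd_diff [CompleteSpace E] {G : X × Y → E} {V : Set X} {U : Set Y} (hV : IsOpen V)
    (hU : IsOpen U) (hG : DifferentiableOn ℂ G (V ×ˢ U)) :
    DifferentiableOn ℂ (fun z : X × Y => fderiv ℂ (fun y => G (z.1, y)) z.2) (V ×ˢ U) := by
  have h1 := diffOn_fderiv' (hV.prod hU) hG
  refine (h1.clm_comp (differentiableOn_const (ContinuousLinearMap.inr ℂ X Y))).congr ?_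
  intro z hz
  have h2 := (hG.differentiableAt ((hV.prod hU).mem_nhds hz)).hasFDerivAt
  exact (HasFDerivAt.comp (f := fun y => (z.1, y)) z.2 h2 (hasFDerivAt_prodMk_right _ _)).fderiv

/-- holomorphy of circle integrals in a parameter -/
theorem circ_diff [CompleteSpace E] {H : X → ℂ → E} {V : Set X} (hV : IsOpen V) {ρ M : ℝ}
    (hρ : 0 < ρ) (hc : ∀ z ∈ V, ContinuousOn (H z) (sphere 0 ρ))
    (hd : ∀ ζ ∈ sphere (0 : ℂ) ρ, DifferentiableOn ℂ (fun z => H z ζ) V)
    (hb : ∀ z ∈ V, ∀ ζ ∈ sphere (0 : ℂ) ρ, ‖H z ζ‖ ≤ M) :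
    DifferentiableOn ℂ (fun z => ∮ ζ in C(0, ρ), H z ζ) V := by
  have hs : ∀ θ, circleMap 0 ρ θ ∈ sphere (0 : ℂ) ρ := circleMap_mem_sphere 0 hρ.le
  simp only [circleIntegral, intervalIntegral.integral_of_le Real.two_pi_pos.le]
  refine int_diffOn (g := fun _ => ρ * M) hV (MeasureTheory.integrable_const _) (fun z hz => ?_)
    (Eventually.of_forall fun θ => (hd _ (hs θ)).const_smul _)
    (Eventually.of_forall fun θ z hz => ?_)
  · refine Continuous.aestronglyMeasurable ?_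
    simp only [deriv_circleMap]
    exact Continuous.smul (by fun_prop) ((hc z hz).comp_continuous (continuous_circleMap _ _) hs)
  · rw [norm_smul]
    have : ‖deriv (circleMap 0 ρ) θ‖ = ρ := by simp [abs_of_pos hρ]
    rw [this]
    exact mul_le_mul_of_nonneg_left (hb z hz _ (hs θ)) hρ.le

/-- joint holomorphy of the divided difference -/
theorem dslope_diff [CompleteSpace E] {G : X × ℂ → E} {V : Set X} {r M : ℝ} (hV : IsOpen V)
    (hG : DifferentiableOn ℂ G (V ×ˢ ball 0 r)) (hM : ∀ z ∈ V ×ˢ ball (0 : ℂ) r, ‖G z‖ ≤ M) :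
    DifferentiableOn ℂ (fun z : X × ℂ => dslope (fun w => G (z.1, w)) 0 z.2) (V ×ˢ ball 0 r) := by
  intro z hz
  have hr : 0 < r := nonempty_ball.1 ⟨_, hz.2⟩
  have hfix : ∀ ζ ∈ ball (0 : ℂ) r, ∀ U : Set ℂ,
      DifferentiableOn ℂ (fun z : X × ℂ => G (z.1, ζ)) (V ×ˢ U) := fun ζ hζ U =>
    hG.comp (f := fun z : X × ℂ => (z.1, ζ)) (by fun_prop) fun _ hy => ⟨hy.1, hζ⟩
  by_cases h0 : z.2 = 0
  · have hsp : ∀ ζ ∈ sphere (0 : ℂ) (r / 2), ‖ζ‖ = r / 2 := fun ζ h => by simpa using h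
    have hsb : sphere (0 : ℂ) (r / 2) ⊆ ball 0 r := fun ζ h => by
      rw [mem_ball_zero_iff, hsp ζ h]; linarith
    have hne : ∀ ζ ∈ sphere (0 : ℂ) (r / 2), ∀ w ∈ ball (0 : ℂ) (r / 4), r / 4 ≤ ‖ζ - w‖ := by
      intro ζ h w hw
      have := norm_sub_norm_le ζ w
      rw [mem_ball_zero_iff] at hw
      linarith [hsp ζ h]
    have hne' : ∀ ζ ∈ sphere (0 : ℂ) (r / 2), ∀ w ∈ ball (0 : ℂ) (r / 4), ζ - w ≠ 0 :=
      fun ζ h w hw => norm_pos_iff.1 (lt_of_lt_of_le (by positivity) (hne ζ h w hw))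
    have hz0 : ∀ ζ ∈ sphere (0 : ℂ) (r / 2), ζ ≠ 0 := fun ζ h =>
      norm_pos_iff.1 (by rw [hsp ζ h]; positivity)
    have hD := circ_diff (H := fun (z : X × ℂ) ζ =>
        (ζ - z.2)⁻¹ • dslope (fun w => G (z.1, w)) 0 ζ) (V := V ×ˢ ball 0 (r / 4))
      (M := (r / 4)⁻¹ * (2 * M / r)) (hV.prod isOpen_ball) (half_pos hr) ?_ ?_ ?_
    · have hm : V ×ˢ ball (0 : ℂ) (r / 4) ∈ 𝓝 z := (hV.prod isOpen_ball).mem_nhds
        ⟨hz.1, by rw [h0]; exact mem_ball_self (by positivity)⟩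
      refine (((hD.const_smul (2 * Real.pi * I : ℂ)⁻¹).differentiableAt hm).congr_of_eventuallyEq
        ?_).differentiableWithinAt
      filter_upwards [hm] with y hy
      have hd := (differentiableOn_dslope (ball_mem_nhds _ hr)).2 (slice_diff hG hy.1)
      have := (hd.mono (closedBall_subset_ball (half_lt_self hr))).circleIntegral_sub_inv_smul
        (ball_subset_ball (by linarith) hy.2)
      simp only [Pi.smul_apply]
      rw [this, inv_smul_smul₀ (by simp)]
    · intro y hy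
      refine ContinuousOn.smul (ContinuousOn.inv₀ (by fun_prop) fun ζ h => hne' ζ h _ hy.2) ?_
      exact (((differentiableOn_dslope (ball_mem_nhds _ hr)).2
        (slice_diff hG hy.1)).continuousOn).mono hsb
    · intro ζ h
      refine DifferentiableOn.smul (DifferentiableOn.inv (by fun_prop)
        fun y hy => hne' ζ h _ hy.2) ?_
      simp only [dslope_of_ne _ (hz0 ζ h), slope_def_module]
      exact ((hfix ζ (hsb h) _).sub (hfix 0 (mem_ball_self hr) _)).const_smul _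
    · intro y hy ζ h
      rw [norm_smul, norm_inv]
      exact mul_le_mul (inv_anti₀ (by positivity) (hne ζ h _ hy.2))
        (dslope_le (slice_diff hG hy.1) (fun w hw => hM (y.1, w) ⟨hy.1, hw⟩) (hsb h))
        (norm_nonneg _) (by positivity)
  · have hm : V ×ˢ ball (0 : ℂ) r ∈ 𝓝 z := (hV.prod isOpen_ball).mem_nhds hz
    have h1 : DifferentiableAt ℂ (fun y : X × ℂ => (y.2 - 0)⁻¹ • (G y - G (y.1, 0))) z :=
      DifferentiableAt.smul (DifferentiableAt.inv (by fun_prop) (by simpa using h0))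
        ((hG.differentiableAt hm).sub ((hfix 0 (mem_ball_self hr) _).differentiableAt hm))
    refine (h1.congr_of_eventuallyEq ?_).differentiableWithinAt
    filter_upwards [continuous_snd.continuousAt.eventually_ne h0] with y hy
    rw [dslope_of_ne _ hy, slope_def_module]

/-- the derivative of a function real on the real axis is real there -/
theorem deriv_real {f : ℂ → ℂ} {U : Set ℂ} (hU : IsOpen U) (hf : DifferentiableOn ℂ f U)
    (hr : ∀ w ∈ U, w.im = 0 → (f w).im = 0) : ∀ w ∈ U, w.im = 0 → (deriv f w).im = 0 := by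
  intro w hw h0
  have h1 := (hf.differentiableAt (hU.mem_nhds hw)).hasDerivAt
  have e : ((w.re : ℝ) : ℂ) = w := by apply Complex.ext <;> simp [h0]
  rw [← e] at h1
  have h2 := Complex.imCLM.hasFDerivAt.comp_hasDerivAt w.re h1.comp_ofReal
  have h3 : HasDerivAt (Complex.imCLM ∘ fun y : ℝ => f y) 0 w.re := by
    refine (hasDerivAt_const w.re (0 : ℝ)).congr_of_eventuallyEq ?_
    have : ∀ᶠ y : ℝ in 𝓝 w.re, (y : ℂ) ∈ U :=
      continuous_ofReal.continuousAt.eventually (hU.mem_nhds (by rwa [e]))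
    filter_upwards [this] with y hy
    exact hr _ hy (ofReal_im y)
  have := h2.unique h3
  rw [e] at this
  exact this

theorem iter_diff [CompleteSpace E] {f : ℂ → E} {U : Set ℂ} (hU : IsOpen U)
    (hf : DifferentiableOn ℂ f U) (n : ℕ) : DifferentiableOn ℂ (iteratedDeriv n f) U := by
  induction n with
  | zero => simpa using hf
  | succ n ih => rw [iteratedDeriv_succ]; exact ih.deriv hU

theorem iter_real {f : ℂ → ℂ} {U : Set ℂ} (hU : IsOpen U) (hf : DifferentiableOn ℂ f U)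
    (hr : ∀ w ∈ U, w.im = 0 → (f w).im = 0) (n : ℕ) :
    ∀ w ∈ U, w.im = 0 → (iteratedDeriv n f w).im = 0 := by
  induction n with
  | zero => simpa using hr
  | succ n ih => rw [iteratedDeriv_succ]; exact deriv_real hU (iter_diff hU hf n) ih

theorem ds_real {f : ℂ → ℂ} {r : ℝ} (hf : DifferentiableOn ℂ f (ball 0 r))
    (hr : ∀ w ∈ ball (0 : ℂ) r, w.im = 0 → (f w).im = 0) (d : ℕ) :
    ∀ w ∈ ball (0 : ℂ) r, w.im = 0 → (ds d f w).im = 0 := by
  induction d with
  | zero => exact hr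
  | succ d ih =>
    intro w hw h0
    have hr0 : 0 < r := nonempty_ball.1 ⟨w, hw⟩
    rw [ds_succ]
    by_cases h : w = 0
    · rw [h, dslope_same]
      exact deriv_real isOpen_ball (ds_diff hr0 hf d) ih 0 (mem_ball_self hr0) rfl
    · rw [dslope_of_ne _ h, slope_def_module]
      simp [h0, ih w hw h0, ih 0 (mem_ball_self hr0) rfl]

/-- the root of a perturbation of the identity as a contour integral -/
theorem root1 {f : ℂ → ℂ} {ρ : ℝ} (hρ : 0 < ρ) (hf : DifferentiableOn ℂ f (ball 0 (3 * ρ)))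
    (hb : ∀ w ∈ ball (0 : ℂ) (3 * ρ), ‖f w - w‖ ≤ ρ / 8) {w₀ : ℂ}
    (e : w₀ = (2 * Real.pi * I : ℂ)⁻¹ • ∮ w in C(0, ρ), w * deriv f w * (f w)⁻¹) :
    f w₀ = 0 ∧ ‖w₀‖ ≤ 2 * ‖f 0‖ ∧
      ((∀ w ∈ ball (0 : ℂ) (3 * ρ), w.im = 0 → (f w).im = 0) → w₀.im = 0) := by
  set T : ℂ → ℂ := fun w => w - f w with hT
  have hTd : DifferentiableOn ℂ T (ball 0 (3 * ρ)) := differentiableOn_id.sub hf
  have hTb : ∀ w ∈ ball (0 : ℂ) (3 * ρ), ‖T w‖ ≤ ρ / 8 := fun w hw => by
    rw [hT, norm_sub_rev]; exact hb w hw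
  have hc : Ctr T (closedBall 0 ρ) (1 / 8) := by
    have := ctr_of_small (T := T) (x0 := 0) (ρ := ρ) (r := 2 * ρ) (ε := ρ / 8) (by positivity)
      (by rwa [show ρ + 2 * ρ = 3 * ρ by ring])
      (by simpa [show ρ + 2 * ρ = 3 * ρ by ring] using hTb) (by linarith)
    rwa [show 2 * (ρ / 8) / (2 * ρ) = 1 / 8 by field_simp] at this
  obtain ⟨v, hv, ev⟩ := hc.exists_fix isClosed_closedBall (by norm_num) (by norm_num)
    ⟨0, mem_closedBall_self hρ.le⟩
  have hsub : closedBall (0 : ℂ) ρ ⊆ ball 0 (3 * ρ) := closedBall_subset_ball (by linarith)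
  have fv : f v = 0 := by simpa [hT] using ev
  have hv8 : ‖v‖ ≤ ρ / 8 := by rw [← ev]; exact hTb v (hsub hv)
  have hb2 : ball v (2 * ρ) ⊆ ball 0 (3 * ρ) :=
    ball_subset_ball' (by rw [dist_zero_right]; linarith)
  have hb1 : closedBall (0 : ℂ) ρ ⊆ ball v (2 * ρ) :=
    closedBall_subset_ball' (by rw [dist_comm, dist_zero_right]; linarith)
  have hds : ∀ w ∈ ball v (2 * ρ), dslope f v w = 1 - dslope T v w := by
    intro w hw
    by_cases h : w = v
    · subst h
      have h1 := (hf.differentiableAt (isOpen_ball.mem_nhds (hsub hv))).hasDerivAt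
      rw [dslope_same, dslope_same, ((hasDerivAt_id' w).fun_sub h1).deriv]; ring
    · have : w - v ≠ 0 := sub_ne_zero.2 h
      simp only [dslope_of_ne _ h, slope_def_field, hT]
      field_simp; ring
  have hne : ∀ w ∈ ball v (2 * ρ), dslope f v w ≠ 0 := by
    intro w hw h
    have h1 := dslope_le (hTd.mono hb2) (fun z hz => hTb z (hb2 hz)) hw
    rw [hds w hw, sub_eq_zero] at h
    rw [← h, norm_one, show 2 * (ρ / 8) / (2 * ρ) = 1 / 8 by field_simp] at h1
    norm_num at h1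
  have hvb : v ∈ ball (0 : ℂ) ρ := by rw [mem_ball_zero_iff]; linarith
  have hD : DifferentiableOn ℂ (fun w => w * deriv f w * (dslope f v w)⁻¹) (closedBall 0 ρ) :=
    (differentiableOn_id.mul ((hf.deriv isOpen_ball).mono hsub)).mul
      ((((differentiableOn_dslope (ball_mem_nhds _ (by positivity))).2 (hf.mono hb2)).mono
        hb1).inv fun w hw => hne w (hb1 hw))
  have hI := hD.circleIntegral_sub_inv_smul hvb
  have e2 : w₀ = v := by
    rw [e, circleIntegral.integral_congr hρ.le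
      (g := fun w => (w - v)⁻¹ • (w * deriv f w * (dslope f v w)⁻¹)), hI,
      inv_smul_smul₀ (by simp), ← dslope_same, mul_assoc,
      mul_inv_cancel₀ (hne v (mem_ball_self (by positivity))), mul_one]
    intro w _
    have := sub_smul_dslope f v w
    rw [fv, sub_zero] at this
    simp only [← this, smul_eq_mul, mul_inv]; ring
  rw [e2]
  refine ⟨fv, ?_, fun hr => ?_⟩
  · have := hc.dist_le (by norm_num) hv (mem_closedBall_self hρ.le) ev
    simp only [hT, sub_zero, zero_sub, norm_neg] at this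
    rw [le_div_iff₀ (by norm_num)] at this
    linarith [norm_nonneg v]
  · have hc' : Ctr T (closedBall 0 ρ ∩ {w | w.im = 0}) (1 / 8) :=
      ⟨fun w hw => ⟨hc.maps hw.1, by
        have h1 : w.im = 0 := hw.2
        simp [hT, h1, hr w (hsub hw.1) h1]⟩, fun x hx y hy => hc.lip x hx.1 y hy.1⟩
    obtain ⟨v', hv', ev'⟩ := hc'.exists_fix
      (isClosed_closedBall.inter (isClosed_eq continuous_im continuous_const)) (by norm_num)
      (by norm_num) ⟨0, mem_closedBall_self hρ.le, rfl⟩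
    rw [hc.uniq (by norm_num) hv hv'.1 ev ev']
    exact hv'.2

end Crest.Agent.N207.O
end
end

-- ▼ part N207/O/Lin
section

/-!
# Row 207, block O (helper28): linear fibre operators on product frames, restrictions
-/

set_option autoImplicit false
set_option linter.unusedSectionVars false

open Set Filter Topology Metric Complex
open Crest.Agent.N250.H

noncomputable section

namespace Crest.Agent.N207.O

open Fr

variable {X Y Y' κ E E' : Type*} [NormedAddCommGroup X] [NormedSpace ℂ X] [NormedAddCommGroup Y]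
  [NormedSpace ℂ Y] [NormedAddCommGroup Y'] [NormedSpace ℂ Y'] [NormedAddCommGroup E]
  [NormedSpace ℂ E] [NormedAddCommGroup E'] [NormedSpace ℂ E'] {F F' : Fr X κ} {l : List κ}
  {b R : ℝ}

theorem ok_prod {U : Set Y} (hU : IsOpen U) : ∀ {l : List κ}, F.Ok l → (F.prod U).Ok l
  | [], h => IsOpen.prod h hU
  | _ :: _, h => ⟨ok_prod hU h.1, h.isOpen.prod hU, prod_mono h.sub Subset.rfl,
      h.diff.comp differentiableOn_fst fun _ hz => hz.1, fun _ hz => h.re hz.1⟩


theorem sub_mono {R' : ℝ} (hR : R' ≤ R) : ∀ {l : List κ}, F'.Sub F R l → F'.Sub F R' l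
  | [], h => h
  | _ :: _, h => ⟨sub_mono hR h.1, h.2.1, h.2.2.1, fun x hx => hR.trans (h.2.2.2 x hx)⟩

theorem sub_prod {U U' : Set Y} (hU : U' ⊆ U) : ∀ {l : List κ}, F'.Sub F R l →
    (F'.prod U').Sub (F.prod U) R l
  | [], h => prod_mono h hU
  | _ :: _, h => ⟨sub_prod hU h.1, prod_mono h.2.1 hU,
      funext fun z => congrFun h.2.2.1 z.1, fun z hz => h.2.2.2 z.1 hz.1⟩

theorem sub_refl : ∀ {l : List κ}, F.Ok l → F.Sub F 0 l
  | [], _ => Subset.rfl
  | _ :: _, h => ⟨sub_refl h.1, Subset.rfl, rfl, fun _ hx => h.re hx⟩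

theorem sub_ex {a : κ} (h : F'.Sub F R (a :: l)) : F'.ex a = F.ex a := by
  funext t x; simp only [Fr.ex, h.2.2.1]

theorem sub_cl : ∀ {l : List κ} {b : ℝ} {g : X → E}, F'.Sub F R l → F.Cl l b g → F'.Cl l b g
  | [], _, _, h, hg => ⟨hg.1.mono h, hg.2.mono h⟩
  | a :: l, b, g, h, hg => by
    obtain ⟨h1, c, h2, h3, h4⟩ := hg
    refine ⟨h1.mono h.2.1, c, fun t => sub_cl h.1 (h2 t), h3, fun K => ?_⟩
    obtain ⟨S, C, h5, h6⟩ := h4 K
    refine ⟨S, C, h5, fun x hx => ?_⟩
    rw [sub_ex h, h.2.2.1]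
    exact h6 x (h.2.1 hx)

theorem sub_st : ∀ {l : List κ} {g gb : X → E}, F'.Sub F R l → F.St l g gb → F'.St l g gb
  | [], _, _, h, hg => ⟨sub_cl h hg.1, sub_cl h hg.2.1, hg.2.2.mono h⟩
  | a :: l, g, gb, h, hg => by
    obtain ⟨h1, c, g1, γ, h2, h3, h4, h5⟩ := hg
    refine ⟨sub_cl h h1, c, g1, γ, h2, sub_st h.1 h3, sub_cl h h4, fun x hx => ?_⟩
    rw [sub_ex h]; exact h5 x (h.2.1 hx)

theorem sub_in {K K' : Set E} (hK : K ⊆ K') : ∀ {l : List κ} {g : X → E}, F'.Sub F R l →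
    F.In l K g → F'.In l K' g
  | [], _, h, hg => ⟨sub_cl h hg.1, fun _ hx => hK (hg.2 (h hx))⟩
  | a :: l, g, h, hg => by
    obtain ⟨h1, h0, c, g1, γ, h2, h3, h4, h5⟩ := hg
    refine ⟨sub_cl h h1, fun _ hx => hK (h0 (h.2.1 hx)), c, g1, γ, h2, sub_in hK h.1 h3,
      sub_cl h h4, fun x hx => ?_⟩
    rw [sub_ex h]; exact h5 x (h.2.1 hx)


theorem in_maps {K : Set E} : ∀ {l : List κ} {g : X → E}, F.In l K g → MapsTo g (F.D l) K
  | [], _, h => h.2
  | _ :: _, _, h => h.2.1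


/-- a bounded linear operator on the fibre functions that preserves joint holomorphy -/
structure LinOp (X : Type*) [NormedAddCommGroup X] [NormedSpace ℂ X] (U : Set Y) (U' : Set Y')
    (Λ : (Y → E) → Y' → E') (C₀ : ℝ) : Prop where
  zero : ∀ y, Λ (fun _ => 0) y = 0
  lin : ∀ (f g : Y → E) (a : ℂ), DifferentiableOn ℂ f U → DifferentiableOn ℂ g U → ∀ y ∈ U',
    Λ (fun y => f y - a • g y) y = Λ f y - a • Λ g y
  bd : ∀ (f : Y → E) (M : ℝ), DifferentiableOn ℂ f U → (∀ y ∈ U, ‖f y‖ ≤ M) → ∀ y ∈ U',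
    ‖Λ f y‖ ≤ C₀ * M
  hol : ∀ (V : Set X) (G : X × Y → E), IsOpen V → DifferentiableOn ℂ G (V ×ˢ U) →
    Bd (V ×ˢ U) G → DifferentiableOn ℂ (fun z : X × Y' => Λ (fun y => G (z.1, y)) z.2) (V ×ˢ U')

theorem LinOp.sum {U : Set Y} {U' : Set Y'} {Λ : (Y → E) → Y' → E'} {C₀ : ℝ}
    (h : LinOp X U U' Λ C₀) {I : Type*} (S : Finset I) (a : I → ℂ) {f : Y → E} {g : I → Y → E}
    (hf : DifferentiableOn ℂ f U) (hg : ∀ i, DifferentiableOn ℂ (g i) U) {y : Y'} (hy : y ∈ U') :
    Λ (fun y => f y - ∑ i ∈ S, a i • g i y) y = Λ f y - ∑ i ∈ S, a i • Λ (g i) y := by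
  classical
  induction S using Finset.induction_on with
  | empty => simp
  | insert i S hi ih =>
    simp only [Finset.sum_insert hi, add_comm (a i • _), ← sub_sub]
    rw [h.lin (fun y => f y - ∑ i ∈ S, a i • g i y) _ _
      (hf.sub (DifferentiableOn.fun_sum fun i _ => (hg i).const_smul _)) (hg i) y hy, ih]

theorem LinOp.cl {U : Set Y} {U' : Set Y'} {Λ : (Y → E) → Y' → E'} {C₀ : ℝ}
    (h : LinOp X U U' Λ C₀) (hU : IsOpen U) : ∀ {l : List κ} {b : ℝ} {G : X × Y → E}, F.Ok l →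
    0 ≤ b → (F.prod U).Cl l b G → (F.prod U').Cl l b fun z => Λ (fun y => G (z.1, y)) z.2
  | [], _, G, hF, _, hG => by
    refine ⟨h.hol _ G hF hG.1 hG.2, ?_⟩
    obtain ⟨M, hM⟩ := hG.2
    exact ⟨C₀ * M, fun z hz => h.bd _ M (slice_diff hG.1 hz.1)
      (fun y hy => hM (z.1, y) ⟨hz.1, hy⟩) _ hz.2⟩
  | a :: l, b, G, hF, hb, hG => by
    have hB := A1_bd (ok_prod hU hF) hb hG
    obtain ⟨h1, c, h2, h3, h4⟩ := hG
    refine ⟨h.hol _ G hF.isOpen h1 hB, fun t z => Λ (fun y => c t (z.1, y)) z.2,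
      fun t => h.cl hU hF.1 le_rfl (h2 t), fun t ht => ?_, fun K => ?_⟩
    · funext z; simp only [h3 t ht]; exact h.zero _
    · obtain ⟨S, C, h5, h6⟩ := h4 K
      refine ⟨S, C₀ * C, fun t ht hS => ?_, fun z hz => ?_⟩
      · funext z; simp only [h5 t ht hS]; exact h.zero _
      · have hc : ∀ t, DifferentiableOn ℂ (fun y => c t (z.1, y)) U := fun t =>
          slice_diff (A1_diff (h2 t)) (hF.sub hz.1)
        have := h.sum S (fun t => F.ex a t z.1) (slice_diff h1 hz.1) hc hz.2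
        rw [mul_assoc]
        refine le_of_eq_of_le (congrArg _ this.symm) (h.bd _ _ ((slice_diff h1 hz.1).sub
          (DifferentiableOn.fun_sum fun t _ => (hc t).const_smul _)) (fun y hy => ?_) _ hz.2)
        exact h6 (z.1, y) ⟨hz.1, hy⟩

theorem linOp_fderiv [CompleteSpace E] {U U' : Set Y} (hU : IsOpen U) {ε : ℝ} (hε : 0 < ε)
    (hs : ∀ y ∈ U', ball y ε ⊆ U) : LinOp X U U' (fderiv ℂ : (Y → E) → _) (2 / ε) where
  zero y := by simp
  lin f g a hf hg y hy := by
    have hm : U ∈ 𝓝 y := hU.mem_nhds (hs y hy (mem_ball_self hε))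
    exact ((hf.differentiableAt hm).hasFDerivAt.sub
      ((hg.differentiableAt hm).hasFDerivAt.const_smul a)).fderiv
  bd f M hf hM y hy := (fd_le hε (hf.mono (hs y hy)) fun z hz => hM z (hs y hy hz)).trans
    (le_of_eq (by ring))
  hol V G hV hG _ := (pd_diff hV hU hG).mono (prod_mono Subset.rfl fun y hy =>
    hs y hy (mem_ball_self hε))

theorem linOp_dslope [CompleteSpace E] (r : ℝ) :
    LinOp X (ball (0 : ℂ) r) (ball (0 : ℂ) r) (fun f : ℂ → E => dslope f 0) (2 / r) where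
  zero y := by by_cases h : y = 0 <;> simp [h, dslope_of_ne, slope_def_module]
  lin f g a hf hg y hy := by
    have hm : ball (0 : ℂ) r ∈ 𝓝 (0 : ℂ) := ball_mem_nhds _ (nonempty_ball.1 ⟨y, hy⟩)
    by_cases h : y = 0
    · simp only [h, dslope_same]
      exact ((hf.differentiableAt hm).hasDerivAt.sub
        ((hg.differentiableAt hm).hasDerivAt.const_smul a)).deriv
    · simp only [dslope_of_ne _ h, slope_def_module]
      module
  bd f M hf hM y hy := (dslope_le hf hM hy).trans (le_of_eq (by ring))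
  hol V G hV hG hB := hB.elim fun _ hM => dslope_diff hV hG hM

theorem linOp_circ [CompleteSpace E] {U : Set ℂ} {ρ : ℝ} (hρ : 0 < ρ) (hs : sphere 0 ρ ⊆ U)
    (U' : Set Y') : LinOp X U U'
      (fun (f : ℂ → E) _ => (2 * Real.pi * I : ℂ)⁻¹ • ∮ w in C(0, ρ), f w) ρ where
  zero y := by simp [circleIntegral]
  lin f g a hf hg y _ := by
    have h1 := (hf.continuousOn.mono hs).circleIntegrable hρ.le
    have h2 : CircleIntegrable (fun y => a • g y) 0 ρ :=
      ((hg.const_smul a).continuousOn.mono hs).circleIntegrable hρ.le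
    simp only []
    rw [circleIntegral.integral_sub h1 h2, smul_sub, smul_comm a, ← circleIntegral.integral_smul,
      ← circleIntegral.integral_smul a]
  bd f M _ hM y _ := circleIntegral.norm_two_pi_i_inv_smul_integral_le_of_norm_le_const hρ.le
    fun z hz => hM z (hs hz)
  hol V G hV hG hB := by
    obtain ⟨M, hM⟩ := hB
    have := circ_diff (H := fun x ζ => G (x, ζ)) hV hρ
      (fun x hx => (slice_diff hG hx).continuousOn.mono hs)
      (fun ζ h => hG.comp (f := fun x => (x, ζ)) (by fun_prop) fun _ hx => ⟨hx, hs h⟩)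
      fun x hx ζ h => hM (x, ζ) ⟨hx, hs h⟩
    exact (this.const_smul _).comp differentiableOn_fst fun _ hz => hz.1

theorem thick_aux {U U' : Set Y} {ε : ℝ} (hs : ∀ y ∈ U', ball y ε ⊆ U) :
    (∀ y ∈ thickening (ε / 2) U', ball y (ε / 2) ⊆ U) ∧
      ∀ y ∈ U', ball y (ε / 2) ⊆ thickening (ε / 2) U' := by
  refine ⟨fun y hy => ?_, fun y hy => ball_subset_thickening hy _⟩
  obtain ⟨z, hz, h⟩ := mem_thickening_iff.1 hy
  exact (ball_subset_ball' (by linarith)).trans (hs z hz)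

/-- iterated partial derivatives in the parameter -/
theorem cl_iteratedFDeriv [CompleteSpace E] (hF : F.Ok l) (hb : 0 ≤ b) {U : Set Y}
    {G : X × Y → E} (hG : (F.prod U).Cl l b G) (n : ℕ) : ∀ {U' : Set Y} {ε : ℝ}, 0 < ε →
      (∀ y ∈ U', ball y ε ⊆ U) →
      (F.prod U').Cl l b fun z => iteratedFDeriv ℂ n (fun y => G (z.1, y)) z.2 := by
  induction n with
  | zero =>
    intro U' ε hε hs
    exact A3_clm (continuousMultilinearCurryFin0 ℂ Y E).symm.toContinuousLinearEquiv.toContinuousLinearMap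
      (sub_cl (sub_prod (fun y hy => hs y hy (mem_ball_self hε)) (sub_refl hF)) hG)
  | succ n ih =>
    intro U' ε hε hs
    obtain ⟨h1, h2⟩ := thick_aux hs
    have := (linOp_fderiv isOpen_thickening (half_pos hε) h2).cl isOpen_thickening hF hb
      (ih (half_pos hε) h1)
    exact A3_clm (continuousMultilinearCurryLeftEquiv ℂ (fun _ : Fin (n + 1) => Y)
      E).symm.toContinuousLinearEquiv.toContinuousLinearMap this

theorem cl_iteratedDeriv [CompleteSpace E] (hF : F.Ok l) (hb : 0 ≤ b) {U : Set ℂ}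
    {G : X × ℂ → E} (hG : (F.prod U).Cl l b G) (n : ℕ) {U' : Set ℂ} {ε : ℝ} (hε : 0 < ε)
    (hs : ∀ y ∈ U', ball y ε ⊆ U) :
    (F.prod U').Cl l b fun z => iteratedDeriv n (fun y => G (z.1, y)) z.2 :=
  A3_clm (ContinuousMultilinearMap.apply ℂ (fun _ : Fin n => ℂ) E fun _ => 1)
    (cl_iteratedFDeriv hF hb hG n hε hs)

theorem cl_ds [CompleteSpace E] (hF : F.Ok l) (hb : 0 ≤ b) {r : ℝ} {G : X × ℂ → E}
    (hG : (F.prod (ball (0 : ℂ) r)).Cl l b G) (d : ℕ) :
    (F.prod (ball (0 : ℂ) r)).Cl l b fun z => ds d (fun y => G (z.1, y)) z.2 := by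
  induction d with
  | zero => exact hG
  | succ d ih =>
    simp only [ds_succ]
    exact (linOp_dslope r).cl isOpen_ball hF hb ih

end Crest.Agent.N207.O
end
end

-- ▼ part N207/O/Comp

/-!
# Row 207, block O (helper28): composition (C0 - C4)
-/

set_option autoImplicit false
set_option linter.unusedSectionVars false

open Set Filter Topology Metric Complex
open Crest.Agent.N250.H

noncomputable section

namespace Crest.Agent.N207.O

open Fr

universe u v

section
variable {Y E : Type*} [NormedAddCommGroup Y] [NormedSpace ℂ Y] [NormedAddCommGroup E]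
  [NormedSpace ℂ E] [CompleteSpace E]

theorem iterF_diff {f : Y → E} {U : Set Y} (hU : IsOpen U) (hf : DifferentiableOn ℂ f U) (n : ℕ) :
    DifferentiableOn ℂ (iteratedFDeriv ℂ n f) U := by
  induction n with
  | zero =>
    exact (continuousMultilinearCurryFin0 ℂ Y
      E).symm.toContinuousLinearEquiv.differentiable.comp_differentiableOn hf
  | succ n ih =>
    exact (continuousMultilinearCurryLeftEquiv ℂ (fun _ : Fin (n + 1) => Y)
      E).symm.toContinuousLinearEquiv.differentiable.comp_differentiableOn (diffOn_fderiv' hU ih)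

theorem line_iter {f : Y → E} {U : Set Y} (hU : IsOpen U) (hf : DifferentiableOn ℂ f U) (y v : Y)
    (n : ℕ) : ∀ z : ℂ, y + z • v ∈ U → iteratedDeriv n (fun z : ℂ => f (y + z • v)) z =
      iteratedFDeriv ℂ n f (y + z • v) fun _ => v := by
  induction n with
  | zero => intro z _; simp
  | succ n ih =>
    intro z hz
    have hc : Continuous fun z : ℂ => y + z • v := by fun_prop
    have e : iteratedDeriv n (fun z : ℂ => f (y + z • v)) =ᶠ[𝓝 z]
        fun z => iteratedFDeriv ℂ n f (y + z • v) fun _ => v := by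
      filter_upwards [hc.continuousAt.eventually (hU.mem_nhds hz)] with w hw using ih w hw
    rw [iteratedDeriv_succ, e.deriv_eq, iteratedFDeriv_succ_apply_left]
    have h1 : HasDerivAt (fun z : ℂ => y + z • v) v z := by
      simpa using ((hasDerivAt_id z).smul_const v).const_add y
    have h2 := ((iterF_diff hU hf n).differentiableAt
      (hU.mem_nhds hz)).hasFDerivAt.comp_hasDerivAt z h1
    exact ((ContinuousMultilinearMap.apply ℂ (fun _ : Fin n => Y) E
      fun _ => v).hasFDerivAt.comp_hasDerivAt z h2).deriv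

end

variable {X κ : Type*} [NormedAddCommGroup X] [NormedSpace ℂ X] {F : Fr X κ} {l : List κ}

theorem A_multi {Y E : Type*} [NormedAddCommGroup Y] [NormedSpace ℂ Y] [NormedAddCommGroup E]
    [NormedSpace ℂ E] (hF : F.Ok l) {w : X → Y} (hw : F.A l w) (n : ℕ) :
    ∀ {M : X → Y [×n]→L[ℂ] E}, F.A l M → F.A l fun x => M x fun _ => w x := by
  induction n with
  | zero =>
    intro M hM
    refine A2_congr (A3_clm (ContinuousMultilinearMap.apply ℂ (fun _ : Fin 0 => Y) E 0) hM)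
      fun x _ => ?_
    exact congrArg (M x) (Subsingleton.elim _ _)
  | succ n ih =>
    intro M hM
    have := A3_bil hF (continuousMultilinearCurryLeftEquiv ℂ (fun _ : Fin (n + 1) => Y)
      E).toContinuousLinearEquiv.toContinuousLinearMap le_rfl le_rfl hM hw
    rw [add_zero] at this
    refine A2_congr (ih this) fun x _ => ?_
    refine congrArg (M x) ?_
    funext i
    refine Fin.cases rfl (fun _ => rfl) i

theorem ex_pow (F : Fr X κ) (a : κ) (γ : ℝ) (x : X) (n : ℕ) :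
    F.ex a (n * γ) x = F.ex a γ x ^ n := by
  simp only [Fr.ex, ← Complex.exp_nat_mul]; congr 1; push_cast; ring

theorem comp_aux {Y : Type u} [NormedAddCommGroup Y] [NormedSpace ℂ Y] {K : Set Y} :
    ∀ {l : List κ} {E : Type (max u v)} [NormedAddCommGroup E] [NormedSpace ℂ E] [CompleteSpace E]
      {U : Set Y} {δ : ℝ} {G : X × Y → E} {φ : X → Y}, F.Ok l → IsOpen U → 0 < δ →
      (∀ y ∈ K, ball y δ ⊆ U) → (F.prod U).A l G → F.In l K φ → F.A l fun x => G (x, φ x)
  | [], E, _, _, _, U, δ, G, φ, hF, hU, hδ, hK, hG, hφ => by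
    have hm : ∀ x ∈ F.D [], (x, φ x) ∈ (F.prod U).D [] := fun x hx =>
      ⟨hx, hK _ (hφ.2 hx) (mem_ball_self hδ)⟩
    exact ⟨hG.1.comp (differentiableOn_id.prodMk hφ.1.1) hm,
      hG.2.imp fun _ hC x hx => hC _ (hm x hx)⟩
  | a :: l, E, _, _, _, U, δ, G, φ, hF, hU, hδ, hK, hG, hφ => by
    obtain ⟨h1, h0, c, g1, γ, hγ, hc, hg1, e⟩ := hφ
    have hm : ∀ x ∈ F.D (a :: l), (x, φ x) ∈ (F.prod U).D (a :: l) := fun x hx =>
      ⟨hx, hK _ (h0 hx) (mem_ball_self hδ)⟩
    have hd : DifferentiableOn ℂ (fun x => (x, φ x)) (F.D (a :: l)) :=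
      differentiableOn_id.prodMk (A1_diff h1)
    refine A9_step (Φ := fun x => (x, φ x)) (e := fun _ => 0) (ok_prod hU hF) hF hm hd
      (fun x _ => (add_zero _).symm) (fun t _ => Cl.const hF _) ⟨0, fun _ _ => by simp⟩
      (fun H hH => ?_) hG
    obtain ⟨k1, k2⟩ := thick_aux hK
    have hP : ∀ n, F.A l fun x => iteratedFDeriv ℂ n (fun y => H (x, y)) (c x) := fun n =>
      comp_aux (G := fun z => iteratedFDeriv ℂ n (fun y => H (z.1, y)) z.2) hF.1 isOpen_thickening
        (half_pos hδ) k2 (cl_iteratedFDeriv hF.1 le_rfl hH n (half_pos hδ) k1) hc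
    set T : ℕ → X → E := fun n x => F.ex a (n * γ) x • ((n.factorial : ℂ)⁻¹ •
      iteratedFDeriv ℂ n (fun y => H (x, y)) (c x) fun _ => g1 x) with hT
    have hTc : ∀ n : ℕ, F.Cl (a :: l) (n * γ) (T n) := fun n =>
      A5_ex hF (by positivity) (Cl.csmul _ (A_multi hF hg1 n ((hP n).up hF)))
    have hHd : DifferentiableOn ℂ H (F.D l ×ˢ U) := A1_diff hH
    obtain ⟨M, hM0, hM⟩ := (A1_bd (ok_prod hU hF.1) le_rfl hH).pos
    obtain ⟨M1, hM10, hM1⟩ := (A1_bd hF le_rfl hg1).pos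
    refine A6_series hF (fun n => by positivity)
      (tendsto_natCast_atTop_atTop.atTop_mul_const hγ) hTc
      (hHd.comp hd fun x hx => ⟨hF.sub hx, (hm x hx).2⟩) fun K' => ?_
    obtain ⟨N₀, hN₀⟩ := exists_nat_ge (K' / γ)
    refine ⟨N₀, fun N hN => ?_⟩
    have hKN : K' ≤ N * γ := by
      rw [div_le_iff₀ hγ] at hN₀
      exact hN₀.trans (mul_le_mul_of_nonneg_right (by exact_mod_cast hN) hγ.le)
    obtain ⟨B, hB0, hB⟩ := (A1_bd hF le_rfl (Cl.sum hF (Finset.range N) fun n _ =>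
      A3_mono (hTc n) (b' := 0) (by positivity))).pos
    set r := δ / M1 with hr
    have hr0 : 0 < r := by positivity
    refine ⟨(2 / r) ^ N * M + (M + B) / r ^ N, fun x hx => ?_⟩
    have key : ‖H (x, φ x) - ∑ n ∈ Finset.range N, T n x‖ ≤
        ((2 / r) ^ N * M + (M + B) / r ^ N) * ‖F.ex a γ x‖ ^ N := by
      have p1 : 0 ≤ (2 / r) ^ N * M * ‖F.ex a γ x‖ ^ N := by positivity
      have p2 : 0 ≤ (M + B) / r ^ N * ‖F.ex a γ x‖ ^ N := by positivity
      rw [add_mul]
      by_cases hμ : ‖F.ex a γ x‖ < r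
      · have hcK := in_maps hc (hF.sub hx)
        have hin : ∀ z ∈ ball (0 : ℂ) r, c x + z • g1 x ∈ U := fun z hz => hK _ hcK (by
          rw [mem_ball_iff_norm, add_sub_cancel_left, norm_smul]
          rw [mem_ball_zero_iff, hr, lt_div_iff₀ hM10] at hz
          exact (mul_le_mul_of_nonneg_left (hM1 x hx) (norm_nonneg _)).trans_lt hz)
        have hs := slice_diff hHd (hF.sub hx)
        have hf : DifferentiableOn ℂ (fun z : ℂ => H (x, c x + z • g1 x)) (ball 0 r) :=
          hs.comp (f := fun z : ℂ => c x + z • g1 x) (by fun_prop) hin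
        have e1 := ds_expand (fun z : ℂ => H (x, c x + z • g1 x)) N (F.ex a γ x)
        have e2 : ∀ n, F.ex a γ x ^ n • ds n (fun z : ℂ => H (x, c x + z • g1 x)) 0 = T n x := by
          intro n
          rw [ds_at_zero (hf.analyticAt (ball_mem_nhds _ hr0)),
            line_iter hU hs _ _ n 0 (hin 0 (mem_ball_self hr0)), hT]
          simp only [ex_pow, zero_smul, add_zero]
        simp only [e2, ← e x hx] at e1
        rw [e1, add_sub_cancel_left, norm_smul, norm_pow, mul_comm]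
        have := ds_le hf (fun z hz => hM (x, _) ⟨hF.sub hx, hin z hz⟩) N _ (mem_ball_zero_iff.2 hμ)
        exact le_add_of_le_of_nonneg (mul_le_mul_of_nonneg_right this (by positivity)) p2
      · refine le_add_of_nonneg_of_le p1 ((norm_sub_le _ _).trans ?_)
        have h3 : r ^ N ≤ ‖F.ex a γ x‖ ^ N := pow_le_pow_left₀ hr0.le (not_lt.1 hμ) N
        rw [div_mul_eq_mul_div, le_div_iff₀ (by positivity)]
        exact mul_le_mul (add_le_add (hM (x, φ x) ⟨hF.sub hx, (hm x hx).2⟩) (hB x hx)) h3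
          (by positivity) (by positivity)
    refine key.trans (mul_le_mul_of_nonneg_left ?_ (by positivity))
    rw [← norm_pow, ← ex_pow, norm_ex]
    exact hF.exp_le hx hKN

variable {Y E E' : Type*} [NormedAddCommGroup Y] [NormedSpace ℂ Y] [NormedAddCommGroup E]
  [NormedSpace ℂ E] [NormedAddCommGroup E'] [NormedSpace ℂ E'] {g : X → E}

/-- substitution of a Banach valued element of the class for the parameter -/
theorem C0_comp {Y : Type u} {E : Type v} [NormedAddCommGroup Y] [NormedSpace ℂ Y]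
    [NormedAddCommGroup E] [NormedSpace ℂ E] [CompleteSpace E] (hF : F.Ok l) {U K : Set Y}
    (hU : IsOpen U) {δ : ℝ} (hδ : 0 < δ) (hK : ∀ y ∈ K, ball y δ ⊆ U) {G : X × Y → E}
    (hG : (F.prod U).A l G) {φ : X → Y} (hφ : F.In l K φ) : F.A l fun x => G (x, φ x) :=
  A3_clm (ContinuousLinearEquiv.ulift (R₁ := ℂ) (M₁ := E)).toContinuousLinearMap
    (comp_aux.{u, v} (E := ULift.{u} E) hF hU hδ hK
      (A3_clm (ContinuousLinearEquiv.ulift (R₁ := ℂ) (M₁ := E)).symm.toContinuousLinearMap hG) hφ)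

theorem ball_of_cth {U K : Set Y} {δ : ℝ} (hK : cthickening δ K ⊆ U) : ∀ y ∈ K, ball y δ ⊆ U :=
  fun _ hy => (ball_subset_thickening hy δ).trans ((thickening_subset_cthickening _ _).trans hK)

theorem C1_comp1 [CompleteSpace E] (hF : F.Ok l) {U K : Set ℂ}
    (hU : IsOpen U) {δ : ℝ} (hδ : 0 < δ) (hK : cthickening δ K ⊆ U) {G : X × ℂ → E}
    (hG : (F.prod U).A l G) {φ : X → ℂ} (hφ : F.In l K φ) : F.A l fun x => G (x, φ x) :=
  C0_comp hF hU hδ (ball_of_cth hK) hG hφ

/-- `C2_compB` for `G` complex differentiable, `K` at distance `δ` from the complement of `U` -/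
theorem C2_compD [CompleteSpace E'] (hF : F.Ok l) {U K : Set E} (hU : IsOpen U)
    {δ : ℝ} (hδ : 0 < δ) (hK : ∀ y ∈ K, ball y δ ⊆ U) {G : E → E'}
    (hG : DifferentiableOn ℂ G U) (hb : Bd U G) (hφ : F.In l K g) : F.A l fun x => G (g x) :=
  C0_comp (G := fun z => G z.2) hF hU hδ hK (A.of_nil (ok_prod hU hF)
    (hG.comp differentiableOn_snd fun _ hz => hz.2) (hb.imp fun _ hC _ hz => hC _ hz.2)) hφ


/-- entire maps that are bounded on bounded sets -/
theorem C3_entire [CompleteSpace E'] (hF : F.Ok l) {G : E → E'} (hG : Differentiable ℂ G)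
    (hb : ∀ M, Bd (ball 0 M) G) (h : F.A l g) : F.A l fun x => G (g x) := by
  obtain ⟨M, hM⟩ := A7_In hF h
  exact C2_compD hF isOpen_ball one_pos (fun y hy => ball_subset_ball' (ε₂ := M + 1) (by
    rw [mem_closedBall] at hy; linarith)) hG.differentiableOn (hb _) hM

theorem C3_exp (hF : F.Ok l) {g : X → ℂ} (h : F.A l g) : F.A l fun x => Complex.exp (g x) :=
  C3_entire hF Complex.differentiable_exp (fun M => ⟨Real.exp M, fun z hz => by
    rw [Complex.norm_exp]
    exact Real.exp_le_exp.2 ((Complex.re_le_norm z).trans (mem_ball_zero_iff.1 hz).le)⟩) h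

theorem near_aux {gb : X → E} : ∀ {l : List κ} {g : X → E} {ε : ℝ}, F.Ok l → F.St l g gb → 0 < ε →
    ∃ R₀ : ℝ, ∀ F' : Fr X κ, F'.Ok l → F'.Sub F R₀ l →
      F'.In l (cthickening ε (gb '' F'.D [])) g ∧ ∀ x ∈ F'.D l, ‖g x - gb x‖ ≤ ε
  | [], g, ε, _, h, hε => ⟨0, fun F' _ hs => ⟨⟨sub_cl hs h.1, fun x hx =>
      self_subset_cthickening _ ⟨x, hx, (h.2.2 (hs hx)).symm⟩⟩, fun x hx => by
        rw [h.2.2 (hs hx), sub_self, norm_zero]; exact hε.le⟩⟩
  | a :: l, g, ε, hF, h, hε => by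
    obtain ⟨h1, c, g1, γ, hγ, hc, hg1, e⟩ := h
    obtain ⟨R₁, hR₁⟩ := near_aux hF.1 hc (half_pos hε)
    obtain ⟨M, hM0, hM⟩ := (A1_bd hF le_rfl hg1).pos
    refine ⟨max R₁ (Real.log (M / (ε / 2)) / γ), fun F' hF' hs => ?_⟩
    obtain ⟨k1, k2⟩ := hR₁ F' hF'.1 (sub_mono (le_max_left _ _) hs.1)
    have key : ∀ x ∈ F'.D (a :: l), ‖g x - gb x‖ ≤ ε := by
      intro x hx
      have h2 : Real.log (M / (ε / 2)) ≤ γ * (F.s a x).re := by
        have := (le_max_right _ _).trans (hs.2.2.2 x hx)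
        rwa [div_le_iff₀ hγ, mul_comm] at this
      have h3 : ‖F.ex a γ x‖ ≤ ε / 2 / M := by
        rw [norm_ex]
        refine (Real.exp_le_exp.2 (neg_le_neg h2)).trans (le_of_eq ?_)
        rw [Real.exp_neg, Real.exp_log (by positivity), inv_div]
      have h4 : ‖F.ex a γ x • g1 x‖ ≤ ε / 2 := by
        rw [norm_smul]
        refine (mul_le_mul h3 (hM x (hs.2.1 hx)) (norm_nonneg _) (by positivity)).trans
          (le_of_eq (by field_simp))
      rw [e x (hs.2.1 hx), add_sub_right_comm]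
      linarith [norm_add_le (c x - gb x) (F.ex a γ x • g1 x), k2 x (hF'.sub hx)]
    refine ⟨⟨sub_cl hs h1, fun x hx => ?_, c, g1, γ, hγ,
      k1.mono (cthickening_mono (by linarith) _), sub_cl hs hg1, fun x hx => ?_⟩, key⟩
    · exact mem_cthickening_of_dist_le _ (gb x) _ _ ⟨x, hF'.subset List.nil_suffix hx, rfl⟩
        (by rw [dist_eq_norm]; exact key x hx)
    · rw [sub_ex hs]; exact e x (hs.2.1 hx)

theorem C4_near (hF : F.Ok l) {gb : X → E} (h : F.St l g gb) {ε : ℝ} (hε : 0 < ε) :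
    ∃ R₀ : ℝ, ∀ F' : Fr X κ, F'.Ok l → F'.Sub F R₀ l →
      F'.In l (cthickening ε (gb '' F'.D [])) g ∧ F'.St l g gb ∧
        ∀ x ∈ F'.D l, ‖g x - gb x‖ ≤ ε :=
  (near_aux hF h hε).imp fun _ H F' h1 h2 => ⟨(H F' h1 h2).1, sub_st h2 h, (H F' h1 h2).2⟩

end Crest.Agent.N207.O
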