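import Crest.Agent.N207.O.Cls

-- ▼ part N207/O/Sec1
section

/-! Row 207, block O (helper76): the section through a deep point, definitions and small lemmas. -/

set_option autoImplicit false

namespace Crest.Agent.N207.O.Q

open Set Filter Finset
open scoped Topology

/-- the power domain -/
def Pw (R : ℝ) : Set ℂ := {w | R * (1 + √‖w‖) < w.re}

/-- a real linear form in the scales below `n` -/
noncomputable def lf (ρ : ℕ → ℝ) (n : ℕ) (σ : ℕ → ℂ → ℂ) (s : ℂ) : ℂ :=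
  ∑ i ∈ range n, (ρ i : ℂ) * σ i s

/-- logarithm of a tied quantity -/
noncomputable def ph (ρ : ℕ → ℕ → ℝ) (σ u : ℕ → ℂ → ℂ) (n : ℕ) (s : ℂ) : ℂ :=
  lf (ρ n) n σ s + u n s

/-- the exponents of a tower -/
structure Ex (J : ℕ) (td : ℕ → Prop) (ρ cc : ℕ → ℕ → ℝ) : Prop where
  rho_nn : ∀ a b, 0 ≤ ρ a b
  cc_nn : ∀ a b, 0 ≤ cc a b
  supp : ∀ a b, a ≤ b → ρ a b = 0
  pos : ∀ a < J, td a → ∃ b, 0 < ρ a b
  inc : ∀ a b, a < b → b < J → td a → td b → (∀ i, ρ a i ≤ ρ b i) ∧ ∃ i, ρ a i < ρ b i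

/-- the constraint of the level `n` -/
def cs (td : ℕ → Prop) (ρ : ℕ → ℕ → ℝ) (σ u : ℕ → ℂ → ℂ) (R : ℝ) (n : ℕ) (s : ℂ) : Prop :=
  σ n s ∈ Om R ∧ (td n → |(ph ρ σ u n s).im| < Real.pi / 2)

/-- preimages of the domains -/
structure Zs (J : ℕ) (td : ℕ → Prop) (ρ : ℕ → ℕ → ℝ) (σ u : ℕ → ℂ → ℂ) (R : ℝ)
    (Z : ℕ → Set ℂ) : Prop where
  R0 : 0 ≤ R
  Z0 : Z 0 = univ
  Zo : ∀ n ≤ J, IsOpen (Z n)
  Zm : ∀ n < J, Z (n + 1) ⊆ Z n
  Zc : ∀ n < J, ∀ s ∈ Z (n + 1), cs td ρ σ u R n s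
  Zp : ∀ n < J, ∀ P : Set ℂ, IsPreconnected P → P ⊆ Z n → (∀ s ∈ P, cs td ρ σ u R n s) →
    (P ∩ Z (n + 1)).Nonempty → P ⊆ Z (n + 1)

/-- a function of the class along the curve -/
def Dec (γ C : ℝ) (σ : ℕ → ℂ → ℂ) (Z : ℕ → Set ℂ) (n : ℕ) (g : ℂ → ℂ) : Prop :=
  ∃ (k : ℂ) (v : ℕ → ℂ → ℂ), (∀ s ∈ Z n, g s = k + ∑ b ∈ range n, v b s) ∧
    ∀ b < n, DifferentiableOn ℂ (v b) (Z (b + 1)) ∧
      ∀ s ∈ Z (b + 1), ‖v b s‖ ≤ C * Real.exp (-γ * (σ b s).re)

/-- a holomorphic curve in a tower -/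
structure Sec (J : ℕ) (td : ℕ → Prop) (ρ cc : ℕ → ℕ → ℝ) (γ C R : ℝ) (p : ℕ → ℝ)
    (σ u : ℕ → ℂ → ℂ) (Z : ℕ → Set ℂ) : Prop extends Zs J td ρ σ u R Z where
  C0 : 0 ≤ C
  free : ∀ n < J, ¬ td n → (∀ s ∈ Z n, σ n s = p n + s) ∨
    ∃ m, n = m + 1 ∧ 0 ≤ p n ∧ ∀ s ∈ Z n, σ n s = p n + σ m s
  tied : ∀ n < J, td n → ∀ s ∈ Z n, σ n s = Complex.exp (ph ρ σ u n s) - lf (cc n) n σ s
  dec : ∀ n < J, td n → Dec γ C σ Z n (u n)
  bd : ∀ n < J, td n → ∀ s ∈ Z n, ‖u n s‖ ≤ C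
  re : ∀ n < J, td n → ∀ x : ℝ, (x : ℂ) ∈ Z n → (u n x).im = 0

theorem Ex.consts {J : ℕ} {td : ℕ → Prop} {ρ cc : ℕ → ℕ → ℝ} (h : Ex J td ρ cc) :
    ∃ τ T : ℝ, 0 < τ ∧ τ ≤ 1 ∧ 0 ≤ T ∧ (∀ a < J, ∀ b < J, ρ a b ≤ T ∧ cc a b ≤ T) ∧
      (∀ a < J, ∀ b, 0 < ρ a b → τ ≤ ρ a b) ∧
      ∀ a < J, ∀ b < J, ∀ i, ρ a i < ρ b i → τ ≤ ρ b i - ρ a i := by
  have e1 : ∀ᶠ T : ℝ in atTop, ∀ a ∈ range J, ∀ b ∈ range J, ρ a b ≤ T ∧ cc a b ≤ T := by
    simp only [eventually_all_finset]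
    exact fun a _ b _ => (eventually_ge_atTop _).and (eventually_ge_atTop _)
  have e0 : ∀ {x : ℝ}, ∀ᶠ τ : ℝ in 𝓝[>] 0, 0 < x → τ ≤ x := by
    intro x
    by_cases hx : 0 < x
    · filter_upwards [mem_nhdsWithin_of_mem_nhds (Iic_mem_nhds hx)] with τ hτ _ using hτ
    · exact Eventually.of_forall fun τ h' => absurd h' hx
  have e2 : ∀ᶠ τ : ℝ in 𝓝[>] 0, ∀ a ∈ range J, ∀ b ∈ range J, 0 < ρ a b → τ ≤ ρ a b := by
    simp only [eventually_all_finset]
    exact fun a _ b _ => e0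
  have e3 : ∀ᶠ τ : ℝ in 𝓝[>] 0, ∀ a ∈ range J, ∀ b ∈ range J, ∀ i ∈ range J,
      0 < ρ b i - ρ a i → τ ≤ ρ b i - ρ a i := by
    simp only [eventually_all_finset]
    exact fun a _ b _ i _ => e0
  obtain ⟨T, hT, hT0⟩ := (e1.and (eventually_ge_atTop 0)).exists
  obtain ⟨τ, ⟨h2, h3⟩, h4, h5⟩ := ((e2.and e3).and ((e0 (x := 1)).and self_mem_nhdsWithin)).exists
  refine ⟨τ, T, h5, h4 one_pos, hT0, fun a ha b hb => hT a (by simpa) b (by simpa),
    fun a ha b hb => h2 a (by simpa) b ?_ hb,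
    fun a ha b hb i hi => h3 a (by simpa) b (by simpa) i ?_ (by linarith)⟩
  · by_contra hc
    rw [h.supp a b (by simp at hc; omega)] at hb
    exact lt_irrefl _ hb
  · by_contra hc
    rw [h.supp b i (by simp at hc; omega)] at hi
    exact absurd (h.rho_nn a i) (by linarith)

theorem lf_diffOn {ρ : ℕ → ℝ} {n : ℕ} {ω : ℕ → ℂ → ℂ} {Z : Set ℂ}
    (h : ∀ i < n, DifferentiableOn ℂ (ω i) Z) : DifferentiableOn ℂ (lf ρ n ω) Z :=
  DifferentiableOn.fun_sum fun i hi => (h i (by simpa using hi)).const_mul _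

theorem lf_hasDerivAt {ρ : ℕ → ℝ} {n : ℕ} {ω : ℕ → ℂ → ℂ} {s : ℂ}
    (h : ∀ i < n, DifferentiableAt ℂ (ω i) s) :
    HasDerivAt (lf ρ n ω) (∑ i ∈ range n, (ρ i : ℂ) * deriv (ω i) s) s :=
  HasDerivAt.fun_sum fun i hi => ((h i (by simpa using hi)).hasDerivAt).const_mul _

theorem lf_ext {ρ : ℕ → ℝ} {m n : ℕ} (h : ∀ i, m ≤ i → ρ i = 0) (hn : m ≤ n) (σ : ℕ → ℂ → ℂ) :
    lf ρ n σ = lf ρ m σ := by
  ext s
  simp only [lf]
  symm
  refine sum_subset (range_mono hn) fun i _ hi => ?_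
  rw [h i (by simpa using hi)]; simp

theorem lf_re (ρ : ℕ → ℝ) (n : ℕ) (σ : ℕ → ℂ → ℂ) (s : ℂ) :
    (lf ρ n σ s).re = ∑ i ∈ range n, ρ i * (σ i s).re := by
  simp [lf]

theorem lf_im (ρ : ℕ → ℝ) (n : ℕ) (σ : ℕ → ℂ → ℂ) (s : ℂ) :
    (lf ρ n σ s).im = ∑ i ∈ range n, ρ i * (σ i s).im := by
  simp [lf]

theorem lf_sub (ρ σ : ℕ → ℝ) (n : ℕ) (ω : ℕ → ℂ → ℂ) (s : ℂ) :
    lf (ρ - σ) n ω s = lf ρ n ω s - lf σ n ω s := by
  simp only [lf, ← sum_sub_distrib, Pi.sub_apply, Complex.ofReal_sub, sub_mul]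

/-- a function which is real at real points has a real derivative there -/
theorem deriv_im_zero {f : ℂ → ℂ} {x : ℝ} {Z : Set ℂ} (hZ : Z ∈ 𝓝 (x : ℂ))
    (hf : DifferentiableAt ℂ f x) (h : ∀ y : ℝ, (y : ℂ) ∈ Z → (f y).im = 0) :
    (deriv f x).im = 0 := by
  have h1 : HasDerivAt (fun y : ℝ => f y) (deriv f x) x := hf.hasDerivAt.comp_ofReal
  have h2 : HasDerivAt (fun y : ℝ => (f y).im) (deriv f x).im x :=
    Complex.imCLM.hasFDerivAt.comp_hasDerivAt x h1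
  have h3 : HasDerivAt (fun y : ℝ => (f y).im) 0 x :=
    (hasDerivAt_const x (0 : ℝ)).congr_of_eventuallyEq
      (mem_of_superset (Complex.continuous_ofReal.continuousAt hZ) fun y hy => h y hy)
  exact h2.unique h3

theorem hasDerivAt_re {f : ℂ → ℂ} {f' : ℂ} {x : ℝ} (hf : HasDerivAt f f' x) :
    HasDerivAt (fun y : ℝ => (f y).re) f'.re x := hf.real_of_complex

/-- growth along the ray from a lower bound of the derivative -/
theorem ray_grow {f f' : ℝ → ℝ} {x0 m : ℝ} (h : ∀ x, x0 ≤ x → HasDerivAt f (f' x) x)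
    (hm : ∀ x, x0 ≤ x → m ≤ f' x) {x : ℝ} (hx : x0 ≤ x) : f x0 + m * (x - x0) ≤ f x := by
  have := (convex_Ici x0).mul_sub_le_image_sub_of_le_deriv (f := f) (C := m)
    (fun y hy => (h y hy).continuousAt.continuousWithinAt)
    (fun y hy => (h y (interior_subset hy)).differentiableAt.differentiableWithinAt)
    (fun y hy => by rw [(h y (interior_subset hy)).deriv]; exact hm y (interior_subset hy))
    x0 (mem_Ici.2 le_rfl) x hx hx
  linarith

/-- mean value estimate along a vertical segment -/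
theorem vert_mv {f : ℂ → ℂ} {s b : ℂ} {e : ℝ}
    (h : ∀ τ ∈ Icc (0 : ℝ) 1, DifferentiableAt ℂ f (s.re + τ * s.im * Complex.I) ∧
      ‖deriv f (s.re + τ * s.im * Complex.I) - b‖ ≤ e) :
    ‖f s - f s.re - s.im * Complex.I * b‖ ≤ e * |s.im| := by
  set g : ℝ → ℂ := fun τ => f (s.re + τ * s.im * Complex.I) - τ * (s.im * Complex.I * b) with hg
  have hd : ∀ τ ∈ Icc (0 : ℝ) 1, HasDerivWithinAt g
      (s.im * Complex.I * (deriv f (s.re + τ * s.im * Complex.I) - b)) (Icc 0 1) τ := by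
    intro τ hτ
    have h1 : HasDerivAt (fun z : ℂ => (s.re : ℂ) + z * s.im * Complex.I) (s.im * Complex.I) τ := by
      simpa using (((hasDerivAt_id (τ : ℂ)).mul_const (s.im : ℂ)).mul_const Complex.I).const_add
        (s.re : ℂ)
    have h2 := ((h τ hτ).1.hasDerivAt.comp (τ : ℂ) h1).sub
      ((hasDerivAt_id (τ : ℂ)).mul_const (s.im * Complex.I * b))
    have h3 := h2.comp_ofReal
    refine HasDerivAt.hasDerivWithinAt ?_
    refine HasDerivAt.congr_deriv h3 ?_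
    ring
  have := norm_image_sub_le_of_norm_deriv_le_segment_01' (C := e * |s.im|) hd (fun τ hτ => by
    rw [norm_mul, norm_mul, Complex.norm_I, Complex.norm_real, Real.norm_eq_abs, mul_one, mul_comm]
    exact mul_le_mul_of_nonneg_right (h τ (Ico_subset_Icc_self hτ)).2 (abs_nonneg _))
  simp only [hg, Complex.ofReal_one, one_mul, Complex.ofReal_zero, zero_mul, add_zero,
    sub_zero, Complex.re_add_im] at this
  rwa [sub_right_comm]

end Crest.Agent.N207.O.Q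
end

-- ▼ part N207/O/Sec1b

/-! Row 207, block O (helper76): discs inside the domains and derivative bounds. -/

set_option autoImplicit false

namespace Crest.Agent.N207.O.Q

open Set Filter Finset Metric
open scoped Topology

variable {J : ℕ} {td : ℕ → Prop} {ρ cc : ℕ → ℕ → ℝ} {γ C R T : ℝ} {p : ℕ → ℝ}
  {σ u : ℕ → ℂ → ℂ} {Z : ℕ → Set ℂ}

theorem Zs.anti (h : Zs J td ρ σ u R Z) {m n : ℕ} (hmn : m ≤ n) (hn : n ≤ J) : Z n ⊆ Z m := by
  induction n, hmn using Nat.le_induction with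
  | base => exact Subset.rfl
  | succ n _ ih => exact (h.Zm n (by omega)).trans (ih (by omega))

theorem Zs.re_pos (h : Zs J td ρ σ u R Z) {b n : ℕ} (hb : b < n) (hn : n ≤ J) {s : ℂ}
    (hs : s ∈ Z n) : 0 < (σ b s).re :=
  h.R0.trans_lt (h.Zc b (by omega) s (h.anti (by omega) hn hs)).1.1

theorem Dec.diffOn (h : Zs J td ρ σ u R Z) {n : ℕ} (hn : n ≤ J) {g : ℂ → ℂ}
    (hg : Dec γ C σ Z n g) : DifferentiableOn ℂ g (Z n) := by
  obtain ⟨k, v, h1, h2⟩ := hg
  refine DifferentiableOn.congr ?_ h1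
  exact (DifferentiableOn.fun_sum fun b hb => (h2 b (by simpa using hb)).1.mono
    (h.anti (by simp at hb; omega) hn)).const_add k

theorem Sec.diffOn (h : Sec J td ρ cc γ C R p σ u Z) : ∀ n < J, DifferentiableOn ℂ (σ n) (Z n) := by
  intro n
  induction n using Nat.strong_induction_on with
  | _ n ih =>
    intro hn
    have hl : ∀ i < n, DifferentiableOn ℂ (σ i) (Z n) := fun i hi =>
      (ih i hi (by omega)).mono (h.anti hi.le hn.le)
    by_cases ht : td n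
    · refine DifferentiableOn.congr ?_ (h.tied n hn ht)
      exact ((lf_diffOn hl).add ((h.dec n hn ht).diffOn h.toZs hn.le)).cexp.sub (lf_diffOn hl)
    · rcases h.free n hn ht with h1 | ⟨m, rfl, -, h1⟩
      · exact DifferentiableOn.congr (by fun_prop) h1
      · exact DifferentiableOn.congr ((hl m (by omega)).const_add _) h1

theorem Sec.diffOn' (h : Sec J td ρ cc γ C R p σ u Z) {i n : ℕ} (hi : i ≤ n) (hiJ : i < J)
    (hn : n ≤ J) : DifferentiableOn ℂ (σ i) (Z n) := (h.diffOn i hiJ).mono (h.anti hi hn)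

theorem Sec.ph_diffOn (h : Sec J td ρ cc γ C R p σ u Z) {n : ℕ} (hn : n < J) (ht : td n) :
    DifferentiableOn ℂ (ph ρ σ u n) (Z n) :=
  (lf_diffOn fun i hi => h.diffOn' hi.le (by omega) hn.le).add ((h.dec n hn ht).diffOn h.toZs hn.le)

theorem pw_margin (hR : 0 ≤ R) {w w' : ℂ} (hw : w ∈ Pw (2 * R + 1)) (h : ‖w' - w‖ ≤ 1) :
    w' ∈ Om R := by
  have h1 : (2 * R + 1) * (1 + √‖w‖) < w.re := hw
  have h2 : w.re - 1 ≤ w'.re := by
    have := (abs_le.1 ((Complex.abs_re_le_norm _).trans h)).1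
    simp only [Complex.sub_re] at this; linarith
  have h3 := Real.sqrt_nonneg ‖w‖
  have h4 : Real.log ‖w'‖ ≤ 2 * √‖w‖ := by
    rcases (norm_nonneg w').eq_or_lt with h0 | h0
    · rw [← h0, Real.log_zero]; positivity
    · have h5 : ‖w'‖ ≤ (1 + √‖w‖) ^ 2 := by
        have := norm_le_insert' w' w
        have := Real.sq_sqrt (norm_nonneg w)
        nlinarith
      have h6 := Real.log_le_log h0 h5
      rw [Real.log_pow] at h6
      have := Real.log_le_sub_one_of_pos (by linarith : 0 < 1 + √‖w‖)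
      push_cast at h6; linarith
  exact ⟨by nlinarith, by nlinarith⟩

theorem lf_sub_le {β : ℕ → ℝ} {n : ℕ} (hn : n ≤ J) (hT : 0 ≤ T) (h0 : ∀ i, 0 ≤ β i)
    (h1 : ∀ i < n, β i ≤ T) {f : ℕ → ℂ} {M : ℝ} (hM : 0 ≤ M) (h : ∀ i < n, ‖f i‖ ≤ M) :
    ‖∑ i ∈ range n, (β i : ℂ) * f i‖ ≤ T * J * M := by
  calc _ ≤ ∑ i ∈ range n, T * M := norm_sum_le_of_le _ fun i hi => by
        have hi : i < n := by simpa using hi
        rw [norm_mul, Complex.norm_real, Real.norm_eq_abs, abs_of_nonneg (h0 i)]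
        exact mul_le_mul (h1 i hi) (h i hi) (norm_nonneg _) hT
    _ ≤ _ := by
        rw [sum_const, card_range, nsmul_eq_mul, mul_comm T (J : ℝ), mul_assoc]
        exact mul_le_mul_of_nonneg_right (by exact_mod_cast hn) (by positivity)

theorem abs_lt_of_cos_pos {θ : ℝ} (h : |θ| ≤ Real.pi) (hc : 0 < Real.cos θ) :
    |θ| < Real.pi / 2 := by
  by_contra hn
  have := Real.cos_nonpos_of_pi_div_two_le_of_le (not_lt.1 hn) (by linarith [Real.pi_pos])
  rw [Real.cos_abs] at this; linarith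

/-- the constant of the disc lemma -/
def Kd (J : ℕ) (T C : ℝ) : ℝ := 4 * (1 + T * J) * (T * J + 2 * C + 1)

theorem Kd_ge (hT : 0 ≤ T) (hC : 0 ≤ C) : 4 ≤ Kd J T C := by
  have : 0 ≤ T * J := by positivity
  unfold Kd; nlinarith

theorem disc (hE : Ex J td ρ cc) (h : Sec J td ρ cc γ C R p σ u Z) (hT : 0 ≤ T)
    (k1 : ∀ a < J, ∀ b < J, ρ a b ≤ T ∧ cc a b ≤ T) {n : ℕ} (hn : n ≤ J) {s0 : ℂ}
    (hs : s0 ∈ Z n) (hm : ∀ b < n, σ b s0 ∈ Pw (2 * R + 1)) {M : ℝ} (hM : 1 ≤ M)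
    (hb : ∀ b < n, ‖σ b s0‖ ≤ M) : ∀ b ≤ n, ball s0 ((Kd J T C * M)⁻¹ ^ b) ⊆ Z b ∧
      ∀ i < b, ∀ s ∈ ball s0 ((Kd J T C * M)⁻¹ ^ b), ‖σ i s - σ i s0‖ ≤ 1 := by
  have hK := Kd_ge (J := J) hT h.C0
  have hC := h.C0
  set η := (Kd J T C * M)⁻¹ with hη
  have hKM : 4 ≤ Kd J T C * M := by nlinarith
  have η0 : 0 < η := inv_pos.2 (by linarith)
  have η1 : η ≤ 1 := inv_le_one_of_one_le₀ (by linarith)
  have hTJ : 0 ≤ T * J := by positivity
  intro b
  induction b with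
  | zero => intro _; simp [h.Z0]
  | succ b ih =>
    intro hbn
    obtain ⟨i1, i2⟩ := ih (by omega)
    have hsub : ball s0 (η ^ (b + 1)) ⊆ ball s0 (η ^ b) :=
      ball_subset_ball (pow_le_pow_of_le_one η0.le η1 (by omega))
    have hpos : 0 < η ^ b := pow_pos η0 b
    have s0b : s0 ∈ Z b := h.anti (by omega) hn hs
    have s0b' : s0 ∈ Z (b + 1) := h.anti hbn hn hs
    have sch : ∀ (f : ℂ → ℂ) (B : ℝ), DifferentiableOn ℂ f (Z b) →
        (∀ s ∈ ball s0 (η ^ b), ‖f s - f s0‖ ≤ B) → ∀ s ∈ ball s0 (η ^ (b + 1)),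
        ‖f s - f s0‖ ≤ B * η := fun f B hf hB s hs' => by
      have B0 : 0 ≤ B := (norm_nonneg _).trans (hB s0 (mem_ball_self hpos))
      have := Complex.dist_le_div_mul_dist_of_mapsTo_ball (hf.mono i1)
        (fun z hz => mem_closedBall.2 (by rw [dist_eq_norm]; exact hB z hz)) (hsub hs')
      rw [dist_eq_norm] at this
      refine this.trans ?_
      calc B / η ^ b * dist s s0 ≤ B / η ^ b * η ^ (b + 1) :=
            mul_le_mul_of_nonneg_left (mem_ball.1 hs').le (by positivity)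
        _ = B * η := by field_simp; ring
    have key : ∀ s ∈ ball s0 (η ^ (b + 1)), ‖σ b s - σ b s0‖ ≤ 1 ∧
        (td b → ‖ph ρ σ u b s - ph ρ σ u b s0‖ ≤ 1) := by
      intro s hs'
      have sb : s ∈ Z b := i1 (hsub hs')
      by_cases ht : td b
      · have lb : ∀ β : ℕ → ℝ, (∀ i, 0 ≤ β i) → (∀ i < b, β i ≤ T) → ∀ s ∈ ball s0 (η ^ b),
            ‖lf β b σ s - lf β b σ s0‖ ≤ T * J := fun β h0 h1 s hs => by
          have := lf_sub_le (J := J) (by omega) hT h0 h1 zero_le_one (fun i hi => i2 i hi s hs)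
          simpa only [lf, ← sum_sub_distrib, ← mul_sub, mul_one] using this
        have e1 := sch _ (T * J + 2 * C) (h.ph_diffOn (by omega) ht) (fun s hs => by
          have a1 := lb _ (hE.rho_nn b) (fun i hi => (k1 b (by omega) i (by omega)).1) s hs
          have a2 := h.bd b (by omega) ht s (i1 hs)
          have a3 := h.bd b (by omega) ht s0 s0b
          have : ph ρ σ u b s - ph ρ σ u b s0 =
            (lf (ρ b) b σ s - lf (ρ b) b σ s0) + (u b s - u b s0) := by unfold ph; ring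
          rw [this]
          exact (norm_add_le _ _).trans (by linarith [norm_sub_le (u b s) (u b s0)])) s hs'
        have e2 := sch _ (T * J) (lf_diffOn fun i hi => h.diffOn' hi.le (by omega) (by omega))
          (lb _ (hE.cc_nn b) fun i hi => (k1 b (by omega) i (by omega)).2) s hs'
        have e3 : ‖Complex.exp (ph ρ σ u b s0)‖ ≤ (1 + T * J) * M := by
          have a1 := h.tied b (by omega) ht s0 s0b
          have a2 := lf_sub_le (J := J) (n := b) (by omega) hT (hE.cc_nn b)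
            (fun i hi => (k1 b (by omega) i (by omega)).2) (by linarith)
            (fun i hi => hb i (by omega))
          rw [eq_sub_iff_add_eq] at a1
          rw [← a1]
          exact (norm_add_le _ _).trans (by have := hb b (by omega); unfold lf; linarith)
        have e4 : Kd J T C * M * η = 1 := mul_inv_cancel₀ (by linarith)
        have e5 : (1 + T * J) * M * ((T * J + 2 * C + 1) * η) = 1 / 4 := by
          unfold Kd at e4; linarith
        have e6 : 1 ≤ (1 + T * J) * M := by nlinarith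
        have e7 : 0 ≤ (T * J + 2 * C + 1) * η := by positivity
        have e8 : (T * J + 2 * C + 1) * η ≤ 1 / 4 := by nlinarith
        have e9 : ‖ph ρ σ u b s - ph ρ σ u b s0‖ ≤ (T * J + 2 * C + 1) * η := by nlinarith
        refine ⟨?_, fun _ => by linarith⟩
        have a1 := Complex.norm_exp_sub_one_le (x := ph ρ σ u b s - ph ρ σ u b s0) (by linarith)
        have a2 : σ b s - σ b s0 = Complex.exp (ph ρ σ u b s0) *
            (Complex.exp (ph ρ σ u b s - ph ρ σ u b s0) - 1) -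
            (lf (cc b) b σ s - lf (cc b) b σ s0) := by
          rw [h.tied b (by omega) ht s sb, h.tied b (by omega) ht s0 s0b, mul_sub,
            ← Complex.exp_add]; ring_nf
        rw [a2]
        refine (norm_sub_le _ _).trans ?_
        rw [norm_mul]
        have a3 := mul_le_mul e3 (a1.trans (mul_le_mul_of_nonneg_left e9 zero_le_two))
          (norm_nonneg _) (by linarith)
        nlinarith
      · refine ⟨?_, fun h' => absurd h' ht⟩
        rcases h.free b (by omega) ht with h1 | ⟨m, rfl, -, h1⟩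
        · rw [h1 s sb, h1 s0 s0b, add_sub_add_left_eq_sub, ← dist_eq_norm]
          exact (mem_ball.1 hs').le.trans (pow_le_one₀ η0.le η1)
        · rw [h1 s sb, h1 s0 s0b, add_sub_add_left_eq_sub]
          exact i2 m (by omega) s (hsub hs')
    refine ⟨h.Zp b (by omega) _ (convex_ball _ _).isPreconnected (hsub.trans i1) (fun s hs' => ?_)
      ⟨s0, mem_ball_self (pow_pos η0 _), s0b'⟩, fun i hi s hs' => ?_⟩
    · have a1 := pw_margin h.R0 (hm b (by omega)) (key s hs').1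
      refine ⟨a1, fun ht => abs_lt_of_cos_pos ?_ ?_⟩
      · have a2 := (h.Zc b (by omega) s0 s0b').2 ht
        have a3 := (Complex.abs_im_le_norm _).trans ((key s hs').2 ht)
        rw [Complex.sub_im] at a3
        have := abs_sub_abs_le_abs_sub (ph ρ σ u b s).im (ph ρ σ u b s0).im
        linarith [Real.pi_gt_three]
      · have sb : s ∈ Z b := i1 (hsub hs')
        have a2 := congrArg Complex.re (h.tied b (by omega) ht s sb)
        rw [Complex.sub_re, Complex.exp_re, lf_re] at a2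
        have a3 : 0 ≤ ∑ i ∈ range b, cc b i * (σ i s).re := sum_nonneg fun i hi =>
          mul_nonneg (hE.cc_nn b i) (h.re_pos (by simpa using hi) (by omega) sb).le
        have a4 := h.R0.trans_lt a1.1
        exact (pos_iff_pos_of_mul_pos (by linarith : 0 < Real.exp (ph ρ σ u b s).re *
          Real.cos (ph ρ σ u b s).im)).1 (Real.exp_pos _)
    · rcases Nat.lt_succ_iff_lt_or_eq.1 hi with hi | rfl
      · exact i2 i hi s (hsub hs')
      · exact (key s hs').1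

/-- derivative of a function of the class -/
theorem Dec.der (hE : Ex J td ρ cc) (h : Sec J td ρ cc γ C R p σ u Z) (hT : 0 ≤ T)
    (k1 : ∀ a < J, ∀ b < J, ρ a b ≤ T ∧ cc a b ≤ T) {n : ℕ} (hn : n ≤ J) {s0 : ℂ}
    (hs : s0 ∈ Z n) (hm : ∀ b < n, σ b s0 ∈ Pw (2 * R + 1)) {M : ℕ → ℝ} (hM : ∀ b < n, 1 ≤ M b)
    (hb : ∀ b < n, ∀ i ≤ b, ‖σ i s0‖ ≤ M b) {γ' C' : ℝ} (hγ : 0 ≤ γ') (hC : 0 ≤ C') {g : ℂ → ℂ}
    (hg : Dec γ' C' σ Z n g) : ‖deriv g s0‖ ≤ ∑ b ∈ range n,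
      2 * C' * Real.exp γ' * (Real.exp (-γ' * (σ b s0).re) * (Kd J T C * M b) ^ J) := by
  obtain ⟨k, v, h1, h2⟩ := hg
  have hK := Kd_ge (J := J) hT h.C0
  have hv : ∀ b ∈ range n, DifferentiableAt ℂ (v b) s0 := fun b hb' => by
    have hb' : b < n := by simpa using hb'
    exact (h2 b hb').1.differentiableAt ((h.Zo _ (by omega)).mem_nhds (h.anti hb' hn hs))
  have e : deriv g s0 = ∑ b ∈ range n, deriv (v b) s0 := by
    rw [(EventuallyEq.deriv_eq (mem_of_superset ((h.Zo n hn).mem_nhds hs) h1 :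
      g =ᶠ[𝓝 s0] fun s => k + ∑ b ∈ range n, v b s)), deriv_const_add, deriv_fun_sum hv]
  rw [e]
  refine norm_sum_le_of_le _ fun b hb' => ?_
  have hb' : b < n := by simpa using hb'
  obtain ⟨d1, d2⟩ := disc hE h hT k1 (n := b + 1) (by omega) (h.anti hb' hn hs)
    (fun i hi => hm i (by omega)) (hM b hb') (fun i hi => hb b hb' i (by omega)) (b + 1) le_rfl
  have hKM : 1 ≤ Kd J T C * M b := by nlinarith [hM b hb']
  have r0 : 0 < (Kd J T C * M b)⁻¹ ^ (b + 1) := by positivity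
  have bd : ∀ s ∈ ball s0 ((Kd J T C * M b)⁻¹ ^ (b + 1)),
      ‖v b s‖ ≤ C' * Real.exp γ' * Real.exp (-γ' * (σ b s0).re) := fun s hs' => by
    refine ((h2 b hb').2 s (d1 hs')).trans ?_
    rw [mul_assoc, ← Real.exp_add]
    refine mul_le_mul_of_nonneg_left (Real.exp_le_exp.2 ?_) hC
    have := (abs_le.1 ((Complex.abs_re_le_norm _).trans (d2 b (by omega) s hs'))).1
    rw [Complex.sub_re] at this
    nlinarith
  have := Complex.norm_deriv_le_div_of_mapsTo_ball ((h2 b hb').1.mono d1)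
    (R₂ := 2 * (C' * Real.exp γ' * Real.exp (-γ' * (σ b s0).re)))
    (fun z hz => mem_closedBall.2 (by
      rw [dist_eq_norm]
      exact (norm_sub_le _ _).trans (by linarith [bd z hz, bd s0 (mem_ball_self r0)]))) r0
  refine this.trans ?_
  rw [inv_pow, div_inv_eq_mul]
  calc _ ≤ 2 * (C' * Real.exp γ' * Real.exp (-γ' * (σ b s0).re)) * (Kd J T C * M b) ^ J :=
        mul_le_mul_of_nonneg_left (pow_le_pow_right₀ hKM (by omega)) (by positivity)
    _ = _ := by ring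

/-- derivative of a scale -/
theorem sig_der (hE : Ex J td ρ cc) (h : Sec J td ρ cc γ C R p σ u Z) (hT : 0 ≤ T)
    (k1 : ∀ a < J, ∀ b < J, ρ a b ≤ T ∧ cc a b ≤ T) {b : ℕ} (hb : b < J) {s0 : ℂ}
    (hs : s0 ∈ Z (b + 1)) (hm : ∀ i ≤ b, σ i s0 ∈ Pw (2 * R + 1)) {M : ℝ} (hM : 1 ≤ M)
    (hb' : ∀ i ≤ b, ‖σ i s0‖ ≤ M) : ‖deriv (σ b) s0‖ ≤ (Kd J T C * M) ^ J := by
  have hK := Kd_ge (J := J) hT h.C0
  obtain ⟨d1, d2⟩ := disc hE h hT k1 (n := b + 1) (by omega) hs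
    (fun i hi => hm i (by omega)) hM (fun i hi => hb' i (by omega)) (b + 1) le_rfl
  have hKM : 1 ≤ Kd J T C * M := by nlinarith
  have := Complex.norm_deriv_le_div_of_mapsTo_ball
    ((h.diffOn' (Nat.le_succ b) hb (by omega)).mono d1) (R₂ := 1)
    (fun z hz => mem_closedBall.2 (by rw [dist_eq_norm]; exact d2 b (by omega) z hz))
    (by positivity)
  refine this.trans ?_
  rw [inv_pow, one_div, inv_inv]
  exact pow_le_pow_right₀ hKM (by omega)

end Crest.Agent.N207.O.Q
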