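import Crest.Agent.N207.O.Cls
import Crest.Agent.N207.O.Alg1

-- ▼ part N207/O/Tw
section

/-!
# Row 207, block O (helper84): towers of scales, ultrafilter points, lifts

Levels `inl k` (free logarithmic coordinate `x k`) and `inr j` (tied:
`s_j = exp(<ρ_j,s> + u_j) - <c_j,s>`), finite variables `Fv` with labels.
-/

set_option autoImplicit false

open Set Filter Topology Metric

noncomputable section

namespace Crest.Agent.N207.O

/-- a tower -/
structure Tw (ι : Type) where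
  p : ℕ
  B : ℕ → List ι
  Fv : Finset ι
  lab : ι → ℕ
  r : ι → ℝ
  R : ℝ
  s : ι ⊕ ℕ → (ι → ℂ) → ℂ
  ρ : ℕ → ι ⊕ ℕ → ℝ
  c : ℕ → ι ⊕ ℕ → ℝ
  u : ℕ → (ι → ℂ) → ℂ

namespace Tw

variable {ι : Type} [Fintype ι] [DecidableEq ι] {α : Type}

/-- the levels strictly below the tied level `j` (head = top) -/
def lv (T : Tw ι) : ℕ → List (ι ⊕ ℕ)
  | 0 => (T.B 0).map Sum.inl
  | j + 1 => (T.B (j + 1)).map Sum.inl ++ Sum.inr j :: T.lv j

/-- `lw 0 = []`, `lw (j+1) = lv j` -/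
def lw (T : Tw ι) : ℕ → List (ι ⊕ ℕ)
  | 0 => []
  | j + 1 => T.lv j

/-- all levels -/
def top (T : Tw ι) : List (ι ⊕ ℕ) := T.lv T.p

/-- real linear combination of the scales of `l` -/
def lin (T : Tw ι) (l : List (ι ⊕ ℕ)) (γ : ι ⊕ ℕ → ℝ) (x : ι → ℂ) : ℂ :=
  ∑ a ∈ l.toFinset, (γ a : ℂ) * T.s a x

/-- logarithm of the tied quantity -/
def E (T : Tw ι) (j : ℕ) (x : ι → ℂ) : ℂ := T.lin (T.lv j) (T.ρ j) x + T.u j x

/-- the constraint of the level `a` -/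
def cst (T : Tw ι) (a : ι ⊕ ℕ) (x : ι → ℂ) : Prop :=
  T.s a x ∈ Om T.R ∧ ∀ j, a = Sum.inr j → |(T.E j x).im| < Real.pi / 2

/-- seeds: real points at which the scales of `l` are ordered -/
def Sd (T : Tw ι) (l : List (ι ⊕ ℕ)) : Set (ι → ℂ) :=
  {y | y ∈ Rp ι ∧ l.Pairwise fun a b => T.R * (T.s b y).re < (T.s a y).re}

/-- domains -/
def D (T : Tw ι) : List (ι ⊕ ℕ) → Set (ι → ℂ)
  | [] => {x | ∀ k ∈ T.Fv, ‖x k‖ < T.r k}
  | a :: l => RC (T.Sd (a :: l)) {x | x ∈ T.D l ∧ T.cst a x}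

/-- the frame of a tower -/
def fr (T : Tw ι) : Fr (ι → ℂ) (ι ⊕ ℕ) := ⟨T.s, T.D⟩

/-- change of the parameters -/
def shr (T : Tw ι) (R : ℝ) (r : ι → ℝ) : Tw ι := { T with R := R, r := r }

/-- well formed towers -/
structure WF (T : Tw ι) : Prop where
  R1 : 1 ≤ T.R
  r0 : ∀ k ∈ T.Fv, 0 < T.r k
  nd : T.top.Nodup
  dj : ∀ k ∈ T.Fv, Sum.inl k ∉ T.top
  lab : ∀ k ∈ T.Fv, T.lab k ≤ T.p
  sN : ∀ k x, T.s (Sum.inl k) x = x k
  sL : ∀ j < T.p, ∀ x ∈ T.D (T.lv j),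
    T.s (Sum.inr j) x = Complex.exp (T.E j x) - T.lin (T.lv j) (T.c j) x
  uA : ∀ j < T.p, T.fr.A (T.lv j) (T.u j)
  uR : ∀ j < T.p, RR (T.D (T.lv j)) (T.u j)
  ind : ∀ j < T.p, ∀ k, Sum.inl k ∉ T.lv j → (k ∉ T.Fv ∨ j < T.lab k) →
    Ind k (T.s (Sum.inr j)) ∧ Ind k (T.u j)
  ρ0 : ∀ j a, 0 ≤ T.ρ j a
  c0 : ∀ j a, 0 ≤ T.c j a
  ρs : ∀ j < T.p, ∀ a, a ∉ T.lv j → T.ρ j a = 0
  ρp : ∀ j < T.p, ∃ a ∈ T.lv j, 0 < T.ρ j a
  ρm : ∀ j j', j < j' → j' < T.p → (∀ a, T.ρ j a ≤ T.ρ j' a) ∧ ∃ a ∈ T.lv j', T.ρ j a < T.ρ j' a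

/-- there is an unused coordinate -/
def Sp (T : Tw ι) : Prop :=
  T.Fv.card + (Finset.univ.filter fun k => Sum.inl k ∈ T.top.toFinset).card < Fintype.card ι

/-- quasi-analytic, connected towers -/
structure Good (T : Tw ι) : Prop where
  wf : T.WF
  qa : ∀ a l, a :: l <:+ T.top → T.fr.QA1 a l
  cn : ∀ l, l <:+ T.top → IsPreconnected (T.D l)

/-- ultrafilter points in the regime of `T` -/
structure Pt (T : Tw ι) (U : Ultrafilter α) (p : α → ι → ℂ) : Prop where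
  re : ∀ i, p i ∈ Rp ι
  z0 : ∀ k ∈ T.Fv, Tendsto (fun i => p i k) U (𝓝 0)
  un : ∀ k, k ∉ T.Fv → Sum.inl k ∉ T.top → ∀ i, p i k = 0
  big : ∀ a ∈ T.top, Tendsto (fun i => (T.s a (p i)).re) U atTop
  ord : ∀ a l, a :: l <:+ T.top → ∀ b ∈ l,
    Tendsto (fun i => (T.s b (p i)).re / (T.s a (p i)).re) U (𝓝 0)

/-- termination measure -/
def μ (T : Tw ι) : ℕ := ∑ k ∈ T.Fv, (T.p + 1 - T.lab k)

/-- pull back properties of `Φ` from the list `l` of `T` to the list `l'` of `T'` -/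
structure Pb (T T' : Tw ι) (l l' : List (ι ⊕ ℕ)) (Φ : (ι → ℂ) → ι → ℂ) : Prop where
  maps : MapsTo Φ (T'.D l') (T.D l)
  cl : ∀ g : (ι → ℂ) → ℂ, T.fr.A l g → T'.fr.A l' (g ∘ Φ)
  rr : ∀ g : (ι → ℂ) → ℂ, T.fr.A l g → RR (T.D l) g → RR (T'.D l') (g ∘ Φ)
  sc : ∀ a ∈ l, ∃ (C : ι ⊕ ℕ → ℝ) (b : (ι → ℂ) → ℂ), T'.fr.A l' b ∧ RR (T'.D l') b ∧
    ∀ x ∈ T'.D l', T.s a (Φ x) = T'.lin l' C x + b x

/-- a change of chart, valid for the lists `lw m`, `n ≤ m`, that does not touch the passive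
variables `W` -/
structure Lift (T T' : Tw ι) (U : Ultrafilter α) (n : ℕ) (W : Finset ι) (p p' : α → ι → ℂ)
    (Φ : (ι → ℂ) → ι → ℂ) : Prop where
  wf : T'.WF
  pt : T'.Pt U p'
  hp : ∀ᶠ i in U, Φ (p' i) = p i
  pp : T'.p = T.p
  mu : T'.μ ≤ T.μ
  sub : T'.Fv ⊆ T.Fv
  pas : ∀ k ∈ W, k ∈ T.Fv → k ∈ T'.Fv ∧ T'.lab k = T.lab k ∧ T'.r k = T.r k
  com : ∀ k ∈ W, ∀ x w, Φ (Function.update x k w) = Function.update (Φ x) k w
  lab : ∀ k ∈ T'.Fv, T'.lab k ≤ max (T.lab k) (n - 1)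
  dif : DifferentiableOn ℂ Φ (T'.D T'.top)
  rea : ∀ x ∈ T'.D T'.top, x ∈ Rp ι → Φ x ∈ Rp ι
  pb : ∀ m, n ≤ m → m ≤ T.p + 1 → Pb T T' (T.lw m) (T'.lw m) Φ

/-- a change of chart that keeps the shape -/
structure Same (T T' : Tw ι) (n : ℕ) (Φ : (ι → ℂ) → ι → ℂ) : Prop where
  B : T'.B = T.B
  Fv : T'.Fv = T.Fv
  lab : T'.lab = T.lab
  opn : ∀ x ∈ T'.D T'.top, 𝓝 (Φ x) ≤ map Φ (𝓝 x)
  pb : ∀ l, T.lw n <:+ l → l <:+ T.top → Pb T T' l l Φ
  sc : ∀ a l, T.lw n <:+ l → a :: l <:+ T.top → ∃ (C : ι ⊕ ℕ → ℝ) (b : (ι → ℂ) → ℂ),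
    T'.fr.A (a :: l) b ∧ RR (T'.D (a :: l)) b ∧
      ∀ x ∈ T'.D (a :: l), T.s a (Φ x) = T'.s a x + T'.lin l C x + b x

/-- `h` is a unit at some real value of the passive variables -/
def UU (T : Tw ι) (U : Ultrafilter α) (p : α → ι → ℂ) (W : Finset ι) (h : (ι → ℂ) → ℂ) : Prop :=
  ∃ (w : ι → ℝ) (c : ℂ), (∀ k ∈ W, |w k| < T.r k) ∧ c ≠ 0 ∧
    Tendsto (fun i => h (upd W w (p i))) U (𝓝 c)

/-- monomial times unit -/
def MU (T : Tw ι) (U : Ultrafilter α) (p : α → ι → ℂ) (l : List (ι ⊕ ℕ)) (W : Finset ι)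
    (g : (ι → ℂ) → ℂ) : Prop :=
  ∃ (γ : ι ⊕ ℕ → ℝ) (h : (ι → ℂ) → ℂ), T.fr.A l h ∧ RR (T.D l) h ∧ T.UU U p W h ∧
    ∀ x ∈ T.D l, g x = Complex.exp (-T.lin l γ x) * h x

/-- the value of the variable `k` is beyond the cut `j` -/
def Bey (T : Tw ι) (U : Ultrafilter α) (p : α → ι → ℂ) (j : ℕ) (k : ι) : Prop :=
  (j < T.p → ∃ t : ℝ, 0 < t ∧
    ∀ᶠ i in U, ‖p i k‖ ≤ Real.exp (-(t * (T.s (Sum.inr j) (p i)).re))) ∧
  (¬ j < T.p → ∀ᶠ i in U, p i k = 0)

/-- all tied levels of `l` ignore the variable `k` -/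
def Free (T : Tw ι) (l : List (ι ⊕ ℕ)) (k : ι) : Prop := ∀ j, Sum.inr j ∈ l → j < T.lab k

/-- the direction that translates all free logarithmic coordinates -/
def dir (T : Tw ι) : ι → ℂ := fun k => if Sum.inl k ∈ T.top.toFinset then 1 else 0

end Tw

/-- Taylor coefficient in the coordinate `k` -/
def tc {ι : Type*} [DecidableEq ι] (k : ι) (j : ℕ) (g : (ι → ℂ) → ℂ) (x : ι → ℂ) : ℂ :=
  iteratedDeriv j (fun w => g (Function.update x k w)) 0 / (j.factorial : ℂ)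

end Crest.Agent.N207.O
end
private theorem rz_27597c3681 : type_of% @_root_.Crest.Agent.N207.O.Tw.D.eq_def := @_root_.Crest.Agent.N207.O.Tw.D.eq_def -- L64
private theorem rz_c2743cede7 : type_of% @_root_.Crest.Agent.N207.O.Tw.D.eq_1 := @_root_.Crest.Agent.N207.O.Tw.D.eq_1 -- L64
private theorem rz_705b2862c9 : type_of% @_root_.Crest.Agent.N207.O.Tw.lv.eq_def := @_root_.Crest.Agent.N207.O.Tw.lv.eq_def -- L36
private theorem rz_fbdd86aa57 : type_of% @_root_.Crest.Agent.N207.O.Tw.lv.eq_1 := @_root_.Crest.Agent.N207.O.Tw.lv.eq_1 -- L36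
private theorem rz_0ae671c4d1 : type_of% @_root_.Crest.Agent.N207.O.Tw.lw.eq_1 := @_root_.Crest.Agent.N207.O.Tw.lw.eq_1 -- L41
end

-- ▼ part N207/O/Kit1

/-!
# Row 207, block O (helper81): tower kit, part 1 (T1, T2, T3, T4, T6)
-/

set_option autoImplicit false
set_option linter.unusedSectionVars false

open Set Filter Topology Metric

noncomputable section

namespace Crest.Agent.N207.O

theorem suffix_append_cases {β : Type*} {a : β} {l C : List β} :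
    ∀ {A : List β}, a :: l <:+ A ++ C → a :: l <:+ C ∨ a ∈ A
  | [], h => Or.inl h
  | b :: A, h => by
    rcases List.suffix_cons_iff.1 h with h | h
    · exact Or.inr (by rw [(List.cons.inj h).1]; exact List.mem_cons_self)
    · exact (suffix_append_cases h).imp id (List.mem_cons_of_mem _)

theorem exists_suffix_of_mem {β : Type*} {a : β} {l : List β} (h : a ∈ l) : ∃ l', a :: l' <:+ l := by
  obtain ⟨s, t, rfl⟩ := List.append_of_mem h
  exact ⟨t, List.suffix_append _ _⟩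

theorem suffix_tail {β : Type*} {a : β} {l L : List β} (h : a :: l <:+ L) : l <:+ L :=
  (List.suffix_cons a l).trans h

theorem RC_subset {ι : Type*} {G S : Set (ι → ℂ)} : RC G S ⊆ S := fun _ ⟨y, _, hx⟩ =>
  connectedComponentIn_subset S y hx

theorem mem_RC {ι : Type*} {G S : Set (ι → ℂ)} {y : ι → ℂ} (hG : y ∈ G) (hS : y ∈ S) :
    y ∈ RC G S := ⟨y, hG, mem_connectedComponentIn hS⟩

theorem isOpen_RC {ι : Type*} [Fintype ι] {G S : Set (ι → ℂ)} (hS : IsOpen S) : IsOpen (RC G S) := by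
  have : RC G S = ⋃ y ∈ G, connectedComponentIn S y := by ext x; simp [RC]
  rw [this]
  exact isOpen_biUnion fun y _ => hS.connectedComponentIn

theorem RC_mono {ι : Type*} {G S G' S' : Set (ι → ℂ)} (hS : S ⊆ S')
    (hG : ∀ y ∈ G, y ∈ S → y ∈ G') : RC G S ⊆ RC G' S' := fun _ ⟨y, hy, hx⟩ =>
  ⟨y, hG y hy (connectedComponentIn_nonempty_iff.1 ⟨_, hx⟩), connectedComponentIn_mono y hS hx⟩

theorem isOpen_Om {R : ℝ} (hR : 0 ≤ R) : IsOpen (Om R) := by
  refine isOpen_iff_mem_nhds.2 fun w hw => ?_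
  have h0 : w ≠ 0 := by rintro rfl; exact absurd hw.1 (by simpa using hR)
  have h1 : ContinuousAt (fun w : ℂ => R * (1 + Real.log ‖w‖)) w :=
    continuousAt_const.mul (continuousAt_const.add
      (continuous_norm.continuousAt.log (norm_ne_zero_iff.2 h0)))
  filter_upwards [continuousAt_const.eventually_lt Complex.continuous_re.continuousAt hw.1,
    h1.eventually_lt Complex.continuous_re.continuousAt hw.2] with z h2 h3 using ⟨h2, h3⟩

theorem Om_anti {R R' : ℝ} (h1 : 1 ≤ R') (hR : R ≤ R') : Om R' ⊆ Om R := fun w hw => by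
  have h2 : 0 ≤ Real.log ‖w‖ := Real.log_nonneg (by linarith [hw.1, Complex.re_le_norm w])
  exact ⟨hR.trans_lt hw.1, (mul_le_mul_of_nonneg_right hR (by linarith)).trans_lt hw.2⟩

theorem Fr.Ok.diff_mem {X κ : Type*} [NormedAddCommGroup X] [NormedSpace ℂ X] {F : Fr X κ}
    {l : List κ} (h : F.Ok l) {a : κ} (ha : a ∈ l) : DifferentiableOn ℂ (F.s a) (F.D l) := by
  obtain ⟨l', hl'⟩ := exists_suffix_of_mem ha
  exact (h.suffix hl').diff.mono (h.subset hl')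

/-- restriction of the class to smaller domains -/
theorem Fr.Cl.restr {X κ E : Type*} [NormedAddCommGroup X] [NormedSpace ℂ X] [NormedAddCommGroup E]
    [NormedSpace ℂ E] {F F' : Fr X κ} (hs : F'.s = F.s) :
    ∀ {l : List κ} {b : ℝ} {g : X → E}, (∀ l₀, l₀ <:+ l → F'.D l₀ ⊆ F.D l₀) → F.Cl l b g →
      F'.Cl l b g
  | [], _, _, hD, h => ⟨h.1.mono (hD _ List.suffix_rfl), h.2.mono (hD _ List.suffix_rfl)⟩
  | a :: l, _, _, hD, h => by
    obtain ⟨h1, c, h2, h3, h4⟩ := h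
    refine ⟨h1.mono (hD _ List.suffix_rfl), c, fun t => Fr.Cl.restr hs
      (fun l₀ h₀ => hD l₀ (h₀.trans (List.suffix_cons a l))) (h2 t), h3, fun K => ?_⟩
    obtain ⟨S, C, h5, h6⟩ := h4 K
    refine ⟨S, C, h5, fun x hx => ?_⟩
    simp only [Fr.ex, hs]
    exact h6 x (hD _ List.suffix_rfl hx)

variable {ι : Type} [Fintype ι] [DecidableEq ι] {α : Type} {U : Ultrafilter α} {T : Tw ι}
  {p : α → ι → ℂ} {l : List (ι ⊕ ℕ)} {W : Finset ι} {k : ι} {g : (ι → ℂ) → ℂ} {a : ι ⊕ ℕ}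

namespace Tw

theorem inr_suffix {j : ℕ} : ∀ {n : ℕ}, Sum.inr j :: l <:+ T.lv n → j < n ∧ l = T.lv j
  | 0, h => by
    have := h.subset List.mem_cons_self
    simp [lv] at this
  | n + 1, h => by
    rcases suffix_append_cases h with h | h
    · rcases List.suffix_cons_iff.1 h with h | h
      · obtain ⟨h1, h2⟩ := List.cons.inj h
        obtain rfl : j = n := Sum.inr.inj h1
        exact ⟨Nat.lt_succ_self _, h2⟩
      · exact ⟨(inr_suffix h).1.trans (Nat.lt_succ_self _), (inr_suffix h).2⟩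
    · simp at h

theorem inr_lv_suffix {j : ℕ} : ∀ {n : ℕ}, j < n → Sum.inr j :: T.lv j <:+ T.lv n
  | 0, h => absurd h (Nat.not_lt_zero _)
  | n + 1, h => by
    rcases Nat.lt_succ_iff_lt_or_eq.1 h with h | rfl
    · exact ((inr_lv_suffix h).trans (List.suffix_cons _ _)).trans (List.suffix_append _ _)
    · exact List.suffix_append _ _

theorem lv_suffix {j n : ℕ} (h : j ≤ n) : T.lv j <:+ T.lv n := by
  rcases h.lt_or_eq with h | rfl
  · exact suffix_tail (inr_lv_suffix h)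
  · exact List.suffix_rfl

theorem lv_top {j : ℕ} (h : j ≤ T.p) : T.lv j <:+ T.top := lv_suffix h

theorem inr_mem_lv {j n : ℕ} : Sum.inr j ∈ T.lv n ↔ j < n :=
  ⟨fun h => by obtain ⟨l, hl⟩ := exists_suffix_of_mem h; exact (inr_suffix hl).1,
    fun h => (inr_lv_suffix h).subset List.mem_cons_self⟩

theorem D_cons_sub : T.D (a :: l) ⊆ T.D l := fun _ hx => (RC_subset hx).1

theorem D_cons_cst {x : ι → ℂ} (hx : x ∈ T.D (a :: l)) : T.cst a x := (RC_subset hx).2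

theorem D_suffix {l₀ : List (ι ⊕ ℕ)} : ∀ {l : List (ι ⊕ ℕ)}, l₀ <:+ l → T.D l ⊆ T.D l₀
  | [], h => by rw [List.suffix_nil.1 h]
  | _ :: _, h => by
    rcases List.suffix_cons_iff.1 h with h | h
    · rw [h]
    · exact D_cons_sub.trans (D_suffix h)

theorem D_cst {x : ι → ℂ} (hx : x ∈ T.D l) (ha : a ∈ l) : T.cst a x := by
  obtain ⟨l', hl'⟩ := exists_suffix_of_mem ha
  exact D_cons_cst (D_suffix hl' hx)

theorem D_nil {x : ι → ℂ} (hx : x ∈ T.D l) (hk : k ∈ T.Fv) : ‖x k‖ < T.r k :=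
  D_suffix List.nil_suffix hx k hk

theorem lin_cons (ha : a ∉ l) (γ : ι ⊕ ℕ → ℝ) (x : ι → ℂ) :
    T.lin (a :: l) γ x = γ a * T.s a x + T.lin l γ x := by
  unfold lin
  rw [List.toFinset_cons, Finset.sum_insert (by simpa using ha)]

theorem lin_nil (γ : ι ⊕ ℕ → ℝ) (x : ι → ℂ) : T.lin [] γ x = 0 := by simp [lin]

theorem diff_lin {S : Set (ι → ℂ)} (h : ∀ a ∈ l, DifferentiableOn ℂ (T.s a) S) (γ : ι ⊕ ℕ → ℝ) :
    DifferentiableOn ℂ (T.lin l γ) S :=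
  DifferentiableOn.fun_sum fun a ha => (h a (List.mem_toFinset.1 ha)).const_mul _

theorem im_lin {x : ι → ℂ} (h : ∀ a ∈ l, (T.s a x).im = 0) (γ : ι ⊕ ℕ → ℝ) :
    (T.lin l γ x).im = 0 := by
  unfold lin
  rw [Complex.im_sum]
  exact Finset.sum_eq_zero fun a ha => by simp [h a (List.mem_toFinset.1 ha)]

theorem re_lin (γ : ι ⊕ ℕ → ℝ) (x : ι → ℂ) :
    (T.lin l γ x).re = ∑ a ∈ l.toFinset, γ a * (T.s a x).re := by
  unfold lin
  rw [Complex.re_sum]
  exact Finset.sum_congr rfl fun a _ => by simp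

theorem ind_lin (h : ∀ a ∈ l, Ind k (T.s a)) (γ : ι ⊕ ℕ → ℝ) : Ind k (T.lin l γ) := fun x w =>
  Finset.sum_congr rfl fun a ha => by rw [h a (List.mem_toFinset.1 ha)]

theorem WF.not_mem (h : T.WF) (hl : a :: l <:+ T.top) : a ∉ l :=
  (List.nodup_cons.1 (hl.sublist.nodup h.nd)).1

theorem WF.diff_E (h : T.WF) {j : ℕ} (hj : j < T.p) (hO : T.fr.Ok (T.lv j)) :
    DifferentiableOn ℂ (T.E j) (T.D (T.lv j)) :=
  (diff_lin (fun _ ha => hO.diff_mem ha) _).add (A1_diff (h.uA j hj))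

theorem WF.diff_s (h : T.WF) (hl : a :: l <:+ T.top) (hO : T.fr.Ok l) :
    DifferentiableOn ℂ (T.s a) (T.D l) := by
  rcases a with k | j
  · exact (differentiableOn_apply k _).congr fun x _ => h.sN k x
  · obtain ⟨hj, rfl⟩ := inr_suffix hl
    exact (((h.diff_E hj hO).cexp).sub (diff_lin (fun _ ha => hO.diff_mem ha) _)).congr
      fun x hx => h.sL j hj x hx

theorem WF.isOpen_S (h : T.WF) (hl : a :: l <:+ T.top) (hO : T.fr.Ok l) :
    IsOpen {x | x ∈ T.D l ∧ T.cst a x} := by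
  have h1 : IsOpen (T.D l ∩ T.s a ⁻¹' Om T.R) :=
    (h.diff_s hl hO).continuousOn.isOpen_inter_preimage hO.isOpen
      (isOpen_Om (by linarith [h.R1]))
  rcases a with k | j
  · convert h1 using 1
    ext x; simp [cst]
  · obtain ⟨hj, rfl⟩ := inr_suffix hl
    have h2 : IsOpen (T.D (T.lv j) ∩ T.E j ⁻¹' {w | |w.im| < Real.pi / 2}) :=
      (h.diff_E hj hO).continuousOn.isOpen_inter_preimage hO.isOpen
        (isOpen_lt (by fun_prop) continuous_const)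
    convert h1.inter h2 using 1
    ext x; simp [cst]

theorem isOpen_D_nil (T : Tw ι) : IsOpen (T.D []) := by
  have : T.D [] = ⋂ k ∈ T.Fv, {x : ι → ℂ | ‖x k‖ < T.r k} := by ext x; simp [D]
  rw [this]
  exact isOpen_biInter_finset fun k _ => isOpen_lt (by fun_prop) continuous_const

theorem convex_D_nil (T : Tw ι) : Convex ℝ (T.D []) := by
  have : T.D [] = ⋂ k ∈ T.Fv, (LinearMap.proj k : (ι → ℂ) →ₗ[ℝ] ℂ) ⁻¹' ball 0 (T.r k) := by
    ext x; simp [D]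
  rw [this]
  exact convex_iInter₂ fun k _ => (convex_ball _ _).linear_preimage _

end Tw

open Tw

theorem T1_ok (h : T.WF) : ∀ {l : List (ι ⊕ ℕ)}, l <:+ T.top → T.fr.Ok l
  | [], _ => T.isOpen_D_nil
  | _ :: _, hl => by
    have hO := T1_ok h (suffix_tail hl)
    exact ⟨hO, isOpen_RC (h.isOpen_S hl hO), D_cons_sub, (h.diff_s hl hO).mono D_cons_sub,
      fun x hx => (zero_le_one.trans h.R1).trans (D_cons_cst (T := T) hx).1.1.le⟩

theorem Tw.WF.isOpen_D (h : T.WF) (hl : l <:+ T.top) : IsOpen (T.D l) := (T1_ok h hl).isOpen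

/-- the scales of `l` ignore a coordinate that is free for `l` -/
theorem Tw.WF.ind_s (h : T.WF) (hl : l <:+ T.top) (hk : Sum.inl k ∉ l)
    (hf : k ∈ T.Fv → T.Free l k) (ha : a ∈ l) :
    Ind k (T.s a) ∧ ∀ j, a = Sum.inr j → Ind k (T.u j) := by
  rcases a with k' | j
  · have : k' ≠ k := by rintro rfl; exact hk ha
    exact ⟨fun x w => by rw [h.sN, h.sN, Function.update_of_ne this], fun _ e => by cases e⟩
  · obtain ⟨l', hl'⟩ := exists_suffix_of_mem ha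
    obtain ⟨hj, rfl⟩ := inr_suffix (hl'.trans hl)
    have := h.ind j hj k (fun hc => hk ((suffix_tail hl').subset hc))
      (by by_cases hF : k ∈ T.Fv; exacts [Or.inr (hf hF j ha), Or.inl hF])
    exact ⟨this.1, fun _ e => by cases e; exact this.2⟩

theorem Tw.WF.ind_E (h : T.WF) (hl : l <:+ T.top) (hk : Sum.inl k ∉ l)
    (hf : k ∈ T.Fv → T.Free l k) {j : ℕ} (ha : Sum.inr j ∈ l) : Ind k (T.E j) := by
  obtain ⟨l', hl'⟩ := exists_suffix_of_mem ha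
  obtain ⟨-, rfl⟩ := inr_suffix (hl'.trans hl)
  intro x w
  unfold E
  rw [(h.ind_s hl hk hf ha).2 j rfl,
    ind_lin (fun b hb => (h.ind_s hl hk hf ((suffix_tail hl').subset hb)).1)]

theorem Tw.WF.cst_upd (h : T.WF) (hl : l <:+ T.top) (hk : Sum.inl k ∉ l)
    (hf : k ∈ T.Fv → T.Free l k) (ha : a ∈ l) {x : ι → ℂ} (hx : T.cst a x) (w : ℂ) :
    T.cst a (Function.update x k w) :=
  ⟨by rw [(h.ind_s hl hk hf ha).1]; exact hx.1, fun j e => by
    subst e; rw [h.ind_E hl hk hf ha]; exact hx.2 j rfl⟩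

theorem T2_upd (h : T.WF) : ∀ {l : List (ι ⊕ ℕ)}, l <:+ T.top → Sum.inl k ∉ l →
    (k ∈ T.Fv → T.Free l k) → ∀ {x : ι → ℂ}, x ∈ T.D l → ∀ {w : ℂ}, (k ∈ T.Fv → ‖w‖ < T.r k) →
    Function.update x k w ∈ T.D l
  | [], _, _, _, x, hx, w, hw => fun k' hk' => by
    by_cases e : k' = k
    · subst e; rw [Function.update_self]; exact hw hk'
    · rw [Function.update_of_ne e]; exact hx k' hk'
  | a :: l, hl, hk, hf, x, hx, w, hw => by
    have key : ∀ z ∈ {x | x ∈ T.D l ∧ T.cst a x}, ∀ v : ℂ, (k ∈ T.Fv → ‖v‖ < T.r k) →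
        Function.update z k v ∈ {x | x ∈ T.D l ∧ T.cst a x} := fun z hz v hv =>
      ⟨T2_upd h (suffix_tail hl) (fun hc => hk (List.mem_cons_of_mem _ hc))
        (fun hF j hj => hf hF j (List.mem_cons_of_mem _ hj)) hz.1 hv,
        h.cst_upd hl hk hf List.mem_cons_self hz.2 v⟩
    obtain ⟨y, hy, hxy⟩ := hx
    have hyS := connectedComponentIn_nonempty_iff.1 ⟨_, hxy⟩
    have hc : Continuous fun z : ι → ℂ => Function.update z k w :=
      continuous_id.update k continuous_const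
    have h0 : (fun z : ι → ℂ => Function.update z k w) '' {x | x ∈ T.D l ∧ T.cst a x} ⊆
        {x | x ∈ T.D l ∧ T.cst a x} := by rintro _ ⟨z, hz, rfl⟩; exact key z hz w hw
    have h1 := connectedComponentIn_mono _ h0
      (hc.continuousOn.mapsTo_connectedComponentIn hyS hxy)
    have hV : Convex ℝ {v : ℂ | k ∈ T.Fv → ‖v‖ < T.r k} := by
      by_cases hF : k ∈ T.Fv
      · rw [show {v : ℂ | k ∈ T.Fv → ‖v‖ < T.r k} = ball 0 (T.r k) by ext v; simp [hF]]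
        exact convex_ball _ _
      · rw [show {v : ℂ | k ∈ T.Fv → ‖v‖ < T.r k} = univ by ext v; simp [hF]]
        exact convex_univ
    have h2 := (hV.isPreconnected.image (fun v => Function.update y k v)
      (continuous_const.update k continuous_id).continuousOn).subset_connectedComponentIn
      (x := y) ⟨y k, fun hF => D_nil hyS.1 hF, Function.update_eq_self k y⟩
      (F := {x | x ∈ T.D l ∧ T.cst a x}) (by rintro _ ⟨v, hv, rfl⟩; exact key y hyS v hv)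
      ⟨w, hw, rfl⟩
    exact ⟨y, hy, by rw [connectedComponentIn_eq h2]; exact h1⟩

theorem T3_liou' {E : Type*} [NormedAddCommGroup E] [NormedSpace ℂ E] {g : (ι → ℂ) → E}
    (h : T.WF) (hl : l <:+ T.top) (hk : Sum.inl k ∉ l) (hf : k ∉ T.Fv)
    (hg : DifferentiableOn ℂ g (T.D l)) (hb : Bd (T.D l) g) {x : ι → ℂ} (hx : x ∈ T.D l) (w : ℂ) :
    g (Function.update x k w) = g x := by
  have hm : ∀ v, Function.update x k v ∈ T.D l := fun v =>
    T2_upd h hl hk (fun hF => absurd hF hf) hx fun hF => absurd hF hf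
  have hd : Differentiable ℂ fun v => g (Function.update x k v) := fun v =>
    (hg.differentiableAt ((h.isOpen_D hl).mem_nhds (hm v))).comp v
      (hasDerivAt_update x k v).differentiableAt
  obtain ⟨C, hC⟩ := hb
  have := hd.apply_eq_apply_of_bounded (isBounded_iff_forall_norm_le.2
    ⟨C, by rintro _ ⟨v, rfl⟩; exact hC _ (hm v)⟩) w (x k)
  rwa [Function.update_eq_self] at this

theorem T3_liou (h : T.WF) (hl : l <:+ T.top) (hk : Sum.inl k ∉ l) (hf : k ∉ T.Fv)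
    (hg : DifferentiableOn ℂ g (T.D l)) (hb : Bd (T.D l) g) {x : ι → ℂ} (hx : x ∈ T.D l) (w : ℂ) :
    g (Function.update x k w) = g x := T3_liou' h hl hk hf hg hb hx w

theorem Tw.shr_lv (T : Tw ι) (R : ℝ) (r : ι → ℝ) : ∀ j, (T.shr R r).lv j = T.lv j
  | 0 => rfl
  | j + 1 => by simp only [lv, Tw.shr_lv T R r j]; rfl

theorem Tw.shr_top (T : Tw ι) (R : ℝ) (r : ι → ℝ) : (T.shr R r).top = T.top := T.shr_lv R r _

theorem Tw.shr_E (T : Tw ι) (R : ℝ) (r : ι → ℝ) (j : ℕ) : (T.shr R r).E j = T.E j := by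
  funext x; simp only [E, T.shr_lv]; rfl

theorem Tw.shr_D (T : Tw ι) {R : ℝ} (h1 : 1 ≤ R) (hR : T.R ≤ R) {r : ι → ℝ}
    (hr : ∀ k ∈ T.Fv, r k ≤ T.r k) : ∀ l, (T.shr R r).D l ⊆ T.D l
  | [] => fun _ hx k hk => (hx k hk).trans_le (hr k hk)
  | a :: l => by
    refine RC_mono (fun x hx => ⟨T.shr_D h1 hR hr l hx.1, Om_anti h1 hR hx.2.1, fun j e => ?_⟩)
      fun y hy hS => ⟨hy.1, hy.2.imp_of_mem fun {b c} _ hc hbc => lt_of_le_of_lt ?_ hbc⟩
    · rw [← T.shr_E R r]; exact hx.2.2 j e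
    · have : (T.shr R r).cst c y := by
        rcases List.mem_cons.1 hc with rfl | hc
        exacts [hS.2, D_cst hS.1 hc]
      exact mul_le_mul_of_nonneg_right hR (by linarith [show R < (T.s c y).re from this.1.1])

theorem T4_shr (h : T.WF) {R : ℝ} (hR : T.R ≤ R) {r : ι → ℝ}
    (hr : ∀ k ∈ T.Fv, 0 < r k ∧ r k ≤ T.r k) :
    (T.shr R r).WF ∧ (∀ l, (T.shr R r).D l ⊆ T.D l) ∧
      ∀ l, l <:+ T.top → (T.shr R r).fr.Sub T.fr R l := by
  have h1 : 1 ≤ R := h.R1.trans hR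
  have hD := T.shr_D h1 hR fun k hk => (hr k hk).2
  refine ⟨⟨h1, fun k hk => (hr k hk).1, ?_, ?_, h.lab, h.sN, fun j hj x hx => ?_, fun j hj => ?_,
    fun j hj => ?_, fun j hj k hk => ?_, h.ρ0, h.c0, fun j hj a ha => ?_, fun j hj => ?_,
    fun j j' h2 h3 => ?_⟩, hD, fun l _ => ?_⟩
  · rw [T.shr_top]; exact h.nd
  · rw [T.shr_top]; exact h.dj
  · rw [T.shr_lv] at hx ⊢
    rw [T.shr_E]; exact h.sL j hj x (hD _ hx)
  · rw [T.shr_lv]; exact Fr.Cl.restr (F := T.fr) (F' := (T.shr R r).fr) rfl (fun l₀ _ => hD l₀) (h.uA j hj)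
  · rw [T.shr_lv]; exact fun x hx => h.uR j hj x (hD _ hx)
  · rw [T.shr_lv] at hk; exact h.ind j hj k hk
  · rw [T.shr_lv] at ha; exact h.ρs j hj a ha
  · rw [T.shr_lv]; exact h.ρp j hj
  · rw [T.shr_lv]; exact h.ρm j j' h2 h3
  · induction l with
    | nil => exact hD []
    | cons a l ih =>
      exact ⟨ih (suffix_tail ‹_›), hD _, rfl, fun x hx => (D_cons_cst (T := T.shr R r) hx).1.1.le⟩

theorem Tw.WF.real_head (h : T.WF) (hl : a :: l <:+ T.top) (ih : ∀ b ∈ l, RR (T.D l) (T.s b)) :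
    RR (T.D l) (T.s a) ∧ ∀ j, a = Sum.inr j → RR (T.D l) (T.E j) := by
  rcases a with k | j
  · exact ⟨fun x _ hx => by rw [h.sN]; exact hx k, fun _ e => by cases e⟩
  · obtain ⟨hj, rfl⟩ := inr_suffix hl
    have hE : RR (T.D (T.lv j)) (T.E j) := fun x hx hr => by
      unfold E
      rw [Complex.add_im, im_lin fun b hb => ih b hb x hx hr, h.uR j hj x hx hr, add_zero]
    refine ⟨fun x hx hr => ?_, fun _ e => by cases e; exact hE⟩
    rw [h.sL j hj x hx, Complex.sub_im, im_lin fun b hb => ih b hb x hx hr, Complex.exp_im,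
      hE x hx hr]
    simp

theorem T6_real (h : T.WF) : ∀ {l : List (ι ⊕ ℕ)}, l <:+ T.top → ∀ a ∈ l, RR (T.D l) (T.s a)
  | [], _, _, ha => by simp at ha
  | b :: l, hl, a, ha => by
    have ih := T6_real h (suffix_tail hl)
    rcases List.mem_cons.1 ha with rfl | ha
    · exact fun x hx => (h.real_head hl ih).1 x (D_cons_sub hx)
    · exact fun x hx => ih a ha x (D_cons_sub hx)

end Crest.Agent.N207.O
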