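import Crest.Agent.N207.O.Sec2
import Crest.Agent.N207.O.Brg1
import Mathlib
import Crest.Agent.N207.O.El1
import Crest.Agent.N207.O.Kit1
import Crest.Agent.N207.O.Kit2
import Crest.Agent.N207.O.El2

-- ▼ part N207/O/Sec2b
section

/-! Row 207, block O (helper76): the ray from an ordered deep point. -/

set_option autoImplicit false

namespace Crest.Agent.N207.O.Q

open Set Filter Finset
open scoped Topology

variable {J : ℕ} {td : ℕ → Prop} {ρ cc : ℕ → ℕ → ℝ} {γ C R τ T R1 : ℝ} {p : ℕ → ℝ}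
  {σ u : ℕ → ℂ → ℂ} {Z : ℕ → Set ℂ}

/-- numerical conditions on the depth `R1` -/
structure Num (J : ℕ) (γ C R τ T R1 : ℝ) : Prop where
  γ0 : 0 ≤ γ
  one : 1 ≤ R1
  pw : ∀ o, R1 ≤ o → (2 * R + 1) * (1 + √o) < o
  ex : ∀ o, R1 ≤ o →
    J * (2 * C * Real.exp γ * (Real.exp (-γ * o) * (Kd J T C * o) ^ J)) ≤ τ / 8
  Q : 4 * (J * T + 1) ≤ τ * Real.exp (τ * R1 - 2 * C)

theorem ev_pw (R0 : ℝ) : ∀ᶠ o : ℝ in atTop, R0 * (1 + √o) < o := by
  filter_upwards [eventually_ge_atTop 1, eventually_gt_atTop ((2 * |R0|) ^ 2)] with o h1 h2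
  have h3 : 2 * |R0| < √o := Real.lt_sqrt_of_sq_lt h2
  have h4 : 1 ≤ √o := Real.one_le_sqrt.2 h1
  have h5 : √o * √o = o := Real.mul_self_sqrt (by linarith)
  have := le_abs_self R0
  have := abs_nonneg R0
  nlinarith

theorem tendsto_exp_pow (hγ : 0 < γ) (K : ℝ) (N : ℕ) :
    Tendsto (fun o : ℝ => Real.exp (-γ * o) * (K * o) ^ N) atTop (𝓝 0) := by
  have h := (tendsto_rpow_mul_exp_neg_mul_atTop_nhds_zero N γ hγ).const_mul (K ^ N)
  rw [mul_zero] at h
  refine h.congr fun o => ?_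
  rw [Real.rpow_natCast, mul_pow]; ring

theorem num_exists (J : ℕ) (hγ : 0 < γ) (C R : ℝ) (hτ : 0 < τ) (T : ℝ) :
    ∃ R0, ∀ R1, R0 ≤ R1 → Num J γ C R τ T R1 := by
  have e2 : ∀ᶠ o : ℝ in atTop,
      J * (2 * C * Real.exp γ * (Real.exp (-γ * o) * (Kd J T C * o) ^ J)) ≤ τ / 8 := by
    have h := ((tendsto_exp_pow hγ (Kd J T C) J).const_mul (2 * C * Real.exp γ)).const_mul (J : ℝ)
    exact h.eventually (ge_mem_nhds (by simpa using hτ))
  have e3 : ∀ᶠ R : ℝ in atTop, 4 * (J * T + 1) ≤ τ * Real.exp (τ * R - 2 * C) :=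
    (Tendsto.const_mul_atTop hτ (Real.tendsto_exp_atTop.comp (tendsto_atTop_add_const_right _
      (-(2 * C)) (tendsto_id.const_mul_atTop hτ)))).eventually (eventually_ge_atTop _)
  obtain ⟨R1, h⟩ := eventually_atTop.1
    ((((ev_pw (2 * R + 1)).and e2).and e3).and (eventually_ge_atTop (1 : ℝ)))
  exact ⟨R1, fun R hR => ⟨hγ.le, (h R hR).2, fun o ho => (h o (by linarith)).1.1.1,
    fun o ho => (h o (by linarith)).1.1.2, (h R hR).1.2⟩⟩

theorem real_pw {R0 : ℝ} {w : ℂ} (h : w.im = 0) (h0 : 0 ≤ w.re) (h1 : R0 * (1 + √w.re) < w.re) :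
    w ∈ Pw R0 := by
  simp only [Pw, mem_setOf_eq, norm_of_im h h0]; exact h1

theorem om_up {R' : ℝ} (hR : 0 ≤ R') {w w' : ℂ} (hw : w ∈ Om R') (h : w.im = 0) (h' : w'.im = 0)
    (hle : w.re ≤ w'.re) : w' ∈ Om R' := by
  obtain ⟨h1, h2⟩ := hw
  have h0 : 0 < w.re := hR.trans_lt h1
  rw [norm_of_im h h0.le] at h2
  refine ⟨by linarith, ?_⟩
  rw [norm_of_im h' (by linarith)]
  have h3 := Real.log_le_sub_one_of_pos (div_pos (h0.trans_le hle) h0)
  rw [Real.log_div (by linarith) h0.ne'] at h3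
  have h4 : w'.re / w.re - 1 = (w'.re - w.re) / w.re := by field_simp
  have h5 : R' * ((w'.re - w.re) / w.re) ≤ w'.re - w.re := by
    rw [mul_div_assoc', div_le_iff₀ h0]; nlinarith
  nlinarith

/-- `u'` is small at an ordered deep real point -/
theorem Dec.der_real (hE : Ex J td ρ cc) (hS : Sec J td ρ cc γ C R p σ u Z) (hK : Cn J ρ cc τ T)
    (hN : Num J γ C R τ T R1) {a : ℕ} (ha : a ≤ J) {x : ℝ} (hx : (x : ℂ) ∈ Z a)
    (big : ∀ b < a, R1 ≤ oo σ b x) (ord : ∀ b < a, ∀ i ≤ b, oo σ i x ≤ oo σ b x) {g : ℂ → ℂ}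
    (hg : Dec γ C σ Z a g) : ‖deriv g x‖ ≤ τ / 8 := by
  have im : ∀ b < a, (σ b x).im = 0 := fun b hb =>
    hS.im_zero b (by omega) x (hS.anti hb.le ha hx)
  have one := hN.one
  refine (hg.der hE hS hK.T0 hK.k1 ha hx (M := fun b => oo σ b x)
    (fun b hb => real_pw (im b hb) (by have := big b hb; unfold oo at this; linarith)
      (hN.pw _ (big b hb))) (fun b hb => by linarith [big b hb]) (fun b hb i hi => ?_)
    hN.γ0 hS.C0).trans ?_
  · rw [norm_of_im (im i (by omega)) (by have := big i (by omega); unfold oo at this; linarith)]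
    exact ord b hb i hi
  · rcases Nat.eq_zero_or_pos a with rfl | h0
    · simp; linarith [hK.τ0]
    have hJ : (0 : ℝ) < J := by exact_mod_cast (by omega : 0 < J)
    calc _ ≤ ∑ b ∈ range a, τ / 8 / J := sum_le_sum fun b hb => by
            rw [le_div_iff₀ hJ, mul_comm]; exact hN.ex _ (big b (by simpa using hb))
      _ ≤ _ := by
        rw [sum_const, card_range, nsmul_eq_mul, mul_div_assoc', div_le_iff₀ hJ, mul_comm]
        exact mul_le_mul_of_nonneg_left (by exact_mod_cast ha) (by linarith [hK.τ0])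

/-- free levels above the lowest one track their lower neighbour -/
def Trk (J : ℕ) (td : ℕ → Prop) (p : ℕ → ℝ) (σ : ℕ → ℂ → ℂ) (Z : ℕ → Set ℂ) : Prop :=
  ∀ m, m + 1 < J → ¬ td (m + 1) → 0 ≤ p (m + 1) ∧ ∀ s ∈ Z (m + 1), σ (m + 1) s = p (m + 1) + σ m s

/-- facts on the ray -/
structure Ry (td : ℕ → Prop) (ρ cc : ℕ → ℕ → ℝ) (τ : ℝ) (σ u : ℕ → ℂ → ℂ) (Z : ℕ → Set ℂ) (a : ℕ)
    (x : ℝ) : Prop extends Lv td ρ cc τ σ u a x where
  mem : (x : ℂ) ∈ Z (a + 1)
  grow : oo σ a 0 + x ≤ oo σ a x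
  ord : ∀ b ≤ a, oo σ b x ≤ oo σ a x ∧ dd σ b x ≤ dd σ a x
  nc : td a → WW ρ σ u a x ≤ 2 * oo σ a x

theorem ray_conn : IsPreconnected ((fun x : ℝ => (x : ℂ)) '' Ici 0) :=
  isPreconnected_Ici.image _ Complex.continuous_ofReal.continuousOn

theorem ray (hE : Ex J td ρ cc) (hS : Sec J td ρ cc γ C R p σ u Z) (hK : Cn J ρ cc τ T)
    (hN : Num J γ C R τ T R1) (htr : Trk J td p σ Z) (s0 : (0 : ℂ) ∈ Z J)
    (s1 : ∀ a < J, R1 ≤ oo σ a 0) (s2 : ∀ a < J, td a → fo (cc a) a σ 0 ≤ oo σ a 0)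
    (s3 : ∀ a < J, td a → ∀ b < a, oo σ b 0 ≤ oo σ a 0) :
    ∀ a < J, ∀ x, 0 ≤ x → Ry td ρ cc τ σ u Z a x := by
  intro a
  induction a using Nat.strong_induction_on with
  | _ a ih =>
  intro ha
  have ih' : ∀ b < a, ∀ x, 0 ≤ x → Ry td ρ cc τ σ u Z b x := fun b hb => ih b hb (by omega)
  have one := hN.one
  have mem : ∀ x : ℝ, 0 ≤ x → (x : ℂ) ∈ Z a := fun x hx => by
    rcases a with _ | m
    · simp [hS.Z0]
    · exact (ih' m (by omega) x hx).mem
  have big : ∀ x : ℝ, 0 ≤ x → ∀ b < a, R1 ≤ oo σ b x := fun x hx b hb => by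
    linarith [(ih' b hb x hx).grow, s1 b (by omega)]
  have L : ∀ x : ℝ, 0 ≤ x → Lv td ρ cc τ σ u a x := fun x hx =>
    pt_step hE hS hK (by linarith) hN.Q ha (mem x hx)
      (fun hta => (hS.dec a ha hta).der_real hE hS hK hN ha.le (mem x hx) (big x hx)
        fun b hb i hi => ((ih' b hb x hx).ord i hi).1)
      (big x hx) (fun b hb => (ih' b hb x hx).toLv)
      fun y hy b hb => hS.im_zero b (by omega) y (hS.anti hb.le ha.le hy)
  have der : ∀ b ≤ a, ∀ x : ℝ, 0 ≤ x → HasDerivAt (oo σ b) (dd σ b x) x := fun b hb x hx =>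
    hasDerivAt_re (hS.dAt hb (by omega) ha.le (mem x hx)).hasDerivAt
  have grow : ∀ x : ℝ, 0 ≤ x → oo σ a 0 + x ≤ oo σ a x := fun x hx => by
    simpa using ray_grow (der a le_rfl) (fun y hy => (L y hy).d1) hx
  have mem' : (fun x : ℝ => (x : ℂ)) '' Ici 0 ⊆ Z (a + 1) := by
    refine hS.Zp a ha _ ray_conn (by rintro _ ⟨x, hx, rfl⟩; exact mem x hx) ?_
      ⟨0, ⟨0, mem_Ici.2 le_rfl, by simp⟩, hS.anti (by omega) le_rfl s0⟩
    rintro _ ⟨x, hx, rfl⟩
    have h1 : R1 ≤ oo σ a x := by linarith [grow x hx, s1 a ha, mem_Ici.1 hx]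
    refine ⟨pw_margin hS.R0 (real_pw (L x hx).im (by unfold oo at h1; linarith) (hN.pw _ h1))
      (by simp), fun hta => ?_⟩
    rw [((L x hx).tied hta).2.2.2.2.2.2.2, abs_zero]; positivity
  intro x hx
  refine ⟨L x hx, mem' ⟨x, hx, rfl⟩, grow x hx, fun b hb => ?_, fun hta => ?_⟩
  · rcases hb.eq_or_lt with rfl | hb
    · exact ⟨le_rfl, le_rfl⟩
    by_cases hta : td a
    · refine ⟨?_, ((L x hx).tied hta).2.2.2.2.1 b hb⟩
      have := ray_grow (f := fun x => oo σ a x - oo σ b x) (m := 0)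
        (fun y hy => (der a le_rfl y hy).sub (der b hb.le y hy))
        (fun y hy => sub_nonneg.2 (((L y hy).tied hta).2.2.2.2.1 b hb)) hx
      linarith [s3 a ha hta b hb]
    · obtain ⟨m, rfl⟩ : ∃ m, a = m + 1 := ⟨a - 1, by omega⟩
      obtain ⟨h1, h2⟩ := htr m ha hta
      have h3 := (ih' m (by omega) x hx).ord b (by omega)
      refine ⟨?_, by rw [dd, dd, hS.free_deriv2 ha (mem x hx) h2]; exact h3.2⟩
      have : oo σ (m + 1) x = p (m + 1) + oo σ m x := by simp [oo, h2 x (mem x hx)]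
      linarith [h3.1]
  · have := ray_grow (f := fun x => oo σ a x - fo (cc a) a σ x) (m := 0)
      (f' := fun x => dd σ a x - fd (cc a) a σ x) (fun y hy => (der a le_rfl y hy).sub
        (HasDerivAt.fun_sum fun i hi => (der i (by simp at hi; omega) y hy).const_mul _))
      (fun y hy => by
        obtain ⟨-, h1, -, -, -, h2, -⟩ := (L y hy).tied hta
        linarith) hx
    linarith [s2 a ha hta, ((L x hx).tied hta).2.2.1]

/-- the ray stays in a second family of domains -/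
theorem ray_mem {R' : ℝ} {Z' : ℕ → Set ℂ} (hZ : Zs J td ρ σ u R' Z') (s0 : (0 : ℂ) ∈ Z' J)
    (h : ∀ a < J, ∀ x, 0 ≤ x → Ry td ρ cc τ σ u Z a x) :
    ∀ a ≤ J, ∀ x : ℝ, 0 ≤ x → (x : ℂ) ∈ Z' a := by
  intro a
  induction a with
  | zero => intro _ x _; simp [hZ.Z0]
  | succ a ih =>
    intro ha x hx
    have s0' := hZ.anti ha le_rfl s0
    refine hZ.Zp a ha _ ray_conn (by rintro _ ⟨x, hx, rfl⟩; exact ih (by omega) x hx) ?_
      ⟨0, ⟨0, mem_Ici.2 le_rfl, by simp⟩, s0'⟩ ⟨x, hx, rfl⟩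
    rintro _ ⟨x, hx, rfl⟩
    have L := h a ha x hx
    refine ⟨om_up hZ.R0 (hZ.Zc a ha 0 s0').1 (by simpa using (h a ha 0 le_rfl).im) L.im ?_,
      fun hta => ?_⟩
    · have := L.grow
      simp only [oo, Complex.ofReal_zero] at this
      linarith [mem_Ici.1 hx]
    · rw [(L.tied hta).2.2.2.2.2.2.2, abs_zero]; positivity

end Crest.Agent.N207.O.Q
end

-- ▼ part N207/O/Brg2
section

/-!
# Row 207, block O (helper88): bridge from towers to one variable sections, part 2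
-/

set_option autoImplicit false
set_option linter.unusedSectionVars false

open Set Filter Topology Metric Function

noncomputable section

namespace Crest.Agent.N207.O.Br

open El Fr

variable {ι : Type} [Fintype ι] [DecidableEq ι] {T : Tw ι} {L : List (ι ⊕ ℕ)} {n m i j J : ℕ}
  {k : ι} {b : Bool} {y : ι → ℂ} {p : ℕ → ℝ} {s : ℂ}



variable (h : T.WF) (hL : L = T.top)
include h hL

theorem sg_re (hn : n < L.length) (hs : s ∈ ZZ L T b y p (n + 1)) : 0 ≤ (sg L T.s b y p n s).re :=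
  (show (0 : ℝ) ≤ T.R by linarith [h.R1]).trans (s_om hs (ix_mem n.lt_succ_self hn)).1.le

/-- **class functions along the curve**, with constants that do not depend on the curve -/
theorem dec (hn : n ≤ L.length) {g : (ι → ℂ) → ℂ} (hg : T.fr.A (sf L n) g) :
    ∃ γ0 C0 : ℝ, 0 < γ0 ∧ 0 ≤ C0 ∧ ∀ γ ≤ γ0, ∀ C ≥ C0, ∀ (b : Bool) (y : ι → ℂ) (p : ℕ → ℝ),
      y ∈ T.D [] → Q.Dec γ C (sg L T.s b y p) (ZZ L T b y p) n fun s => g (cv L T.s b y p n s) := by
  induction n generalizing g with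
  | zero =>
    exact ⟨1, 0, one_pos, le_rfl, fun γ _ C _ b y p _ =>
      ⟨g y, 0, fun s _ => by simp [cv], fun _ hb => absurd hb (Nat.not_lt_zero _)⟩⟩
  | succ n ih =>
    have hF : T.fr.Ok (ix L n :: sf L n) := T1_ok h (cst h hL hn)
    rw [sf_succ hn] at hg
    obtain ⟨c, g1, γ1, h1, h2, h3, h4⟩ := hg.proj hF
    obtain ⟨γ0, C0, k1, k2, k3⟩ := ih (by omega) h2
    obtain ⟨C1, hC1, k4⟩ := (A1_bd hF le_rfl h3).pos
    refine ⟨min γ0 γ1, max C0 C1, lt_min k1 h1, le_max_of_le_left k2, fun γ hγ C hC b y p hy => ?_⟩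
    obtain ⟨κ, v, k5, k6⟩ := k3 γ (hγ.trans (min_le_left _ _)) C (le_trans (le_max_left _ _) hC)
      b y p hy
    have hm : ∀ s ∈ ZZ L T b y p (n + 1), cv L T.s b y p (n + 1) s ∈ T.fr.D (ix L n :: sf L n) :=
      fun s hs => by rw [← sf_succ hn]; exact hs
    refine ⟨κ, update v n fun s => T.fr.ex (ix L n) γ1 (cv L T.s b y p (n + 1) s) •
      g1 (cv L T.s b y p (n + 1) s), fun s hs => ?_, fun i hi => ?_⟩
    · have e := k5 s (ZZ_sub h hL hn hs)
      dsimp only at e ⊢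
      rw [h4, g_cv h hL h2 n.le_succ hn (ZZ_sub h hL hn hs), e, Finset.sum_range_succ, update_self,
        add_assoc]
      congr 2
      exact Finset.sum_congr rfl fun i hi => by rw [update_of_ne (Finset.mem_range.1 hi).ne]
    · rcases Nat.lt_succ_iff_lt_or_eq.1 hi with hi | rfl
      · rw [update_of_ne hi.ne]; exact k6 i hi
      · rw [update_self]
        refine ⟨((hF.diff_ex γ1).smul (A1_diff h3)).comp (open_dif h hL hy hn).2 hm,
          fun s hs => ?_⟩
        have h5 := sg_re h hL hn hs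
        have h6 : γ ≤ γ1 := hγ.trans (min_le_right _ _)
        rw [norm_smul, norm_ex, mul_comm]
        refine mul_le_mul ((k4 _ (hm s hs)).trans ((le_max_right _ _).trans hC))
          (Real.exp_le_exp.2 ?_) (Real.exp_pos _).le (k2.trans ((le_max_left _ _).trans hC))
        change -(γ1 * (sg L T.s b y p i s).re) ≤ _
        nlinarith

/-- the curve is real at real times -/
theorem cv_real (hy : y ∈ Rp ι) (hn : n ≤ L.length) {x : ℝ}
    (hx : ∀ m < n, (x : ℂ) ∈ ZZ L T b y p m) : cv L T.s b y p n x ∈ Rp ι := by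
  induction n with
  | zero => exact hy
  | succ n ih =>
    have h1 := ih (by omega) fun m hm => hx m (by omega)
    rcases e : ix L n with k | j
    · rw [cv_inl e]
      refine update_real h1 ?_
      split_ifs with hb
      · simpa using T6_real h (sft h hL) _ (ix_mem (by omega) (by omega : n ≤ L.length)) _
          (hx n n.lt_succ_self) h1
      · simp
    · rwa [cv_inr e]

theorem ZZ_anti (hm : m ≤ n) (hn : n ≤ L.length) : ZZ L T b y p n ⊆ ZZ L T b y p m := fun _ hs =>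
  (mem_cv h hL hm hn).1 (D_suffix (sf_mono hm) hs)

theorem cv_real' (hy : y ∈ Rp ι) (hn : n ≤ L.length) {x : ℝ} (hx : (x : ℂ) ∈ ZZ L T b y p n) :
    cv L T.s b y p n x ∈ Rp ι := cv_real h hL hy hn fun _ hm => ZZ_anti h hL hm.le hn hx

theorem sg_free (e : ix L n = Sum.inl k) (hn : n < L.length) : sg L T.s b y p n s =
    p n + if b = true ∧ n ≠ 0 then sg L T.s b y p (n - 1) s else s := by
  rw [sg, e, h.sN, cv_inl e, update_self]
  split_ifs with hb
  · rw [sg_eq h hL (by omega : n - 1 < n) hn.le]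
  · rfl

/-- **the section of a tower** -/
theorem sec : ∃ γ0 C0 : ℝ, 0 < γ0 ∧ 0 ≤ C0 ∧ ∀ γ ≤ γ0, ∀ C ≥ C0, ∀ J ≤ L.length,
    ∀ (b : Bool) (y : ι → ℂ) (p : ℕ → ℝ), y ∈ T.D [] → y ∈ Rp ι →
      (b = true → ∀ m, m + 1 < J → ¬ td L (m + 1) → 0 ≤ p (m + 1)) →
      Q.Sec J (td L) (nm L T.ρ) (nm L T.c) γ C T.R p (sg L T.s b y p) (uu L T.s T.u b y p)
        (ZZ L T b y p) := by
  have key : ∀ n, ∃ γ0 C0 : ℝ, 0 < γ0 ∧ 0 ≤ C0 ∧ ∀ γ ≤ γ0, ∀ C ≥ C0, n < L.length → td L n →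
      ∀ (b : Bool) (y : ι → ℂ) (p : ℕ → ℝ), y ∈ T.D [] →
        Q.Dec γ C (sg L T.s b y p) (ZZ L T b y p) n (uu L T.s T.u b y p n) ∧
          ∀ s ∈ ZZ L T b y p n, ‖uu L T.s T.u b y p n s‖ ≤ C := by
    intro n
    by_cases hn : n < L.length ∧ td L n
    · obtain ⟨hn, j, e⟩ := hn
      obtain ⟨e1, hj⟩ := tied_lv h hL hn e
      have hu : T.fr.A (sf L n) (T.u j) := e1 ▸ h.uA j hj
      obtain ⟨γ0, C0, h1, h2, h3⟩ := dec h hL hn.le hu
      obtain ⟨C1, h4⟩ := A1_bd (T1_ok h (sft h hL)) le_rfl hu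
      refine ⟨γ0, max C0 C1, h1, le_max_of_le_left h2, fun γ hγ C hC _ _ b y p hy => ?_⟩
      have e2 : uu L T.s T.u b y p n = fun s => T.u j (cv L T.s b y p n s) := by
        funext s; rw [uu, e]; rfl
      rw [e2]
      exact ⟨h3 γ hγ C (le_trans (le_max_left _ _) hC) b y p hy,
        fun s hs => (h4 _ hs).trans (le_trans (le_max_right _ _) hC)⟩
    · exact ⟨1, 0, one_pos, le_rfl, fun _ _ _ _ h1 h2 => absurd ⟨h1, h2⟩ hn⟩
  choose γ0 C0 h1 h2 h3 using key
  obtain ⟨n1, -, h4⟩ := (Finset.range (L.length + 1)).exists_min_image γ0 ⟨0, by simp⟩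
  obtain ⟨n2, -, h5⟩ := (Finset.range (L.length + 1)).exists_max_image C0 ⟨0, by simp⟩
  refine ⟨γ0 n1, C0 n2, h1 _, h2 _, fun γ hγ C hC J hJ b y p hy hr hp => ?_⟩
  have h6 := fun n (hn : n < J) ht => h3 n γ (hγ.trans (h4 n (by simp; omega))) C
    (le_trans (h5 n (by simp; omega)) hC) (hn.trans_le hJ) ht b y p hy
  refine ⟨zs h hL hy hJ, (h2 _).trans hC, fun n hn ht => ?_, ?_, fun n hn ht => (h6 n hn ht).1,
    fun n hn ht => (h6 n hn ht).2, ?_⟩
  · obtain ⟨k, e⟩ := not_td ht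
    by_cases hb : b = true ∧ n ≠ 0
    · obtain ⟨m, rfl⟩ := Nat.exists_eq_succ_of_ne_zero hb.2
      exact Or.inr ⟨m, rfl, hp hb.1 m hn ht, fun s _ => by
        rw [sg_free h hL e (hn.trans_le hJ), if_pos hb]; rfl⟩
    · exact Or.inl fun s _ => by rw [sg_free h hL e (hn.trans_le hJ), if_neg hb]
  · rintro n hn ⟨j, e⟩ s hs
    obtain ⟨e1, hj⟩ := tied_lv h hL (hn.trans_le hJ) e
    rw [ph_eq h hL (hn.trans_le hJ) e, lf_nm h hL (hn.trans_le hJ) e, sg, cv_inr e, e]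
    exact h.sL j hj _ (e1 ▸ hs)
  · rintro n hn ⟨j, e⟩ x hx
    obtain ⟨e1, hj⟩ := tied_lv h hL (hn.trans_le hJ) e
    rw [uu, e]
    exact h.uR j hj _ (e1 ▸ hx) (cv_real' h hL hr (hn.trans_le hJ).le hx)

theorem trk (hJ : J ≤ L.length) (hp : ∀ m, m + 1 < J → ¬ td L (m + 1) → 0 ≤ p (m + 1))
    (Z : ℕ → Set ℂ) : Q.Trk J (td L) p (sg L T.s true y p) Z := fun m hm ht => by
  obtain ⟨k, e⟩ := not_td ht
  exact ⟨hp m hm ht, fun s _ => by rw [sg_free h hL e (hm.trans_le hJ)]; simp⟩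

omit h hL in
/-- the offsets of the curve through `y` -/
def pp (L : List (ι ⊕ ℕ)) (S : ι ⊕ ℕ → (ι → ℂ) → ℂ) (b : Bool) (y : ι → ℂ) (n : ℕ) : ℝ :=
  (S (ix L n) y).re - if b = true ∧ n ≠ 0 then (S (ix L (n - 1)) y).re else 0

/-- the curve starts at `y` -/
theorem cv_zero (hJ : J ≤ L.length) (hy : y ∈ T.D (sf L J)) (hr : y ∈ Rp ι) (hn : n ≤ J) :
    cv L T.s b y (pp L T.s b y) n 0 = y := by
  induction n with
  | zero => rfl
  | succ n ih =>
    rcases e : ix L n with k | j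
    · rw [cv_inl e, ih (by omega), pp, e, h.sN]
      convert update_eq_self k y
      have h1 : ((y k).re : ℂ) = y k := Complex.conj_eq_iff_re.1 (Complex.conj_eq_iff_im.2 (hr k))
      split_ifs with hb
      · have h2 := T6_real h (sft h hL) _ (ix_mem (by omega : n - 1 < J) hJ) _ hy hr
        push_cast
        rw [h1, Complex.conj_eq_iff_re.1 (Complex.conj_eq_iff_im.2 h2), sub_add_cancel]
      · simp [h1]
    · rw [cv_inr e, ih (by omega)]

theorem zero_mem (hJ : J ≤ L.length) (hy : y ∈ T.D (sf L J)) (hr : y ∈ Rp ι) :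
    (0 : ℂ) ∈ ZZ L T b y (pp L T.s b y) J := by
  rw [ZZ, mem_ofPred_eq, cv_zero h hL hJ hy hr le_rfl]; exact hy

theorem sg_zero (hJ : J ≤ L.length) (hy : y ∈ T.D (sf L J)) (hr : y ∈ Rp ι) (hn : n < J) :
    sg L T.s b y (pp L T.s b y) n 0 = T.s (ix L n) y := by
  rw [sg, cv_zero h hL hJ hy hr hn]

omit h hL in
theorem pw_ix {r : ι ⊕ ℕ → ι ⊕ ℕ → Prop} (hJ : J ≤ L.length) (hy : (sf L J).Pairwise r) (hn : n < J)
    (hm : m < n) : r (ix L n) (ix L m) := by
  have h1 := hy.sublist (sf_mono (L := L) (show n + 1 ≤ J from hn)).sublist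
  rw [sf_succ (hn.trans_le hJ), List.pairwise_cons] at h1
  exact h1.1 _ (ix_mem hm (hn.trans_le hJ).le)

theorem pp_nn (hJ : J ≤ L.length) (hy : y ∈ T.D (sf L J)) (hs : y ∈ T.Sd (sf L J)) :
    ∀ m, m + 1 < J → 0 ≤ pp L T.s true y (m + 1) := fun m hm => by
  have h1 := pw_ix hJ hs.2 hm m.lt_succ_self
  have h2 := (s_om hy (ix_mem (by omega : m < J) hJ)).1
  have h3 := h.R1
  simp only [pp, ne_eq, Nat.add_eq_zero_iff, one_ne_zero, and_false, not_false_eq_true, and_self,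
    if_true, Nat.add_sub_cancel]
  nlinarith





section shr

variable {R : ℝ} {r : ι → ℝ} (hR : T.R ≤ R) (hr : ∀ k ∈ T.Fv, 0 < r k ∧ r k ≤ T.r k)
include hR hr

theorem zs_shr (hy : y ∈ (T.shr R r).D []) (hJ : J ≤ L.length) :
    Q.Zs J (td L) (nm L T.ρ) (sg L T.s b y p) (uu L T.s T.u b y p) R (ZZ L (T.shr R r) b y p) :=
  zs (T4_shr h hR hr).1 (hL.trans (T.shr_top R r).symm) hy hJ

theorem ZZ_shr : ZZ L (T.shr R r) b y p n ⊆ ZZ L T b y p n := fun _ hs => (T4_shr h hR hr).2.1 _ hs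

theorem zero_mem_shr (hJ : J ≤ L.length) (hy : y ∈ (T.shr R r).D (sf L J)) (hy' : y ∈ Rp ι) :
    (0 : ℂ) ∈ ZZ L (T.shr R r) b y (pp L T.s b y) J :=
  zero_mem (T4_shr h hR hr).1 (hL.trans (T.shr_top R r).symm) hJ hy hy'

/-- the facts at the starting seed -/
theorem start (hJ : J ≤ L.length) (hy : y ∈ (T.shr R r).D (sf L J))
    (hs : y ∈ (T.shr R r).Sd (sf L J)) {Tm : ℝ} (hT : ∀ a < J, ∀ i < J, nm L T.c a i ≤ Tm)
    (hTR : Tm * J ≤ R) :
    (∀ a < J, R ≤ Q.oo (sg L T.s b y (pp L T.s b y)) a 0) ∧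
    (∀ a < J, Q.fo (nm L T.c a) a (sg L T.s b y (pp L T.s b y)) 0 ≤
      Q.oo (sg L T.s b y (pp L T.s b y)) a 0) ∧
    ∀ a < J, ∀ i < a, R * Q.oo (sg L T.s b y (pp L T.s b y)) i 0 ≤
      Q.oo (sg L T.s b y (pp L T.s b y)) a 0 ∧ Q.oo (sg L T.s b y (pp L T.s b y)) i 0 ≤
      Q.oo (sg L T.s b y (pp L T.s b y)) a 0 := by
  have R1 := h.R1
  have e : ∀ a < J, Q.oo (sg L T.s b y (pp L T.s b y)) a 0 = (T.s (ix L a) y).re := fun a ha => by
    rw [Q.oo, Complex.ofReal_zero, sg_zero h hL hJ ((T4_shr h hR hr).2.1 _ hy) hs.1 ha]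
  have h1 : ∀ a < J, R ≤ Q.oo (sg L T.s b y (pp L T.s b y)) a 0 := fun a ha =>
    e a ha ▸ (s_om hy (ix_mem ha hJ)).1.le
  have h2 : ∀ a < J, ∀ i < a, R * Q.oo (sg L T.s b y (pp L T.s b y)) i 0 ≤
      Q.oo (sg L T.s b y (pp L T.s b y)) a 0 := fun a ha i hi => by
    rw [e a ha, e i (hi.trans ha)]; exact (pw_ix hJ hs.2 ha hi).le
  refine ⟨h1, fun a ha => ?_, fun a ha i hi => ⟨h2 a ha i hi, ?_⟩⟩
  · have h3 := h1 a ha
    have T0 : 0 ≤ Tm := (nm_nn h.c0 a a).trans (hT a ha a ha)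
    have h4 : R * Q.fo (nm L T.c a) a (sg L T.s b y (pp L T.s b y)) 0 ≤
        ∑ _i ∈ Finset.range a, Tm * Q.oo (sg L T.s b y (pp L T.s b y)) a 0 := by
      rw [Q.fo, Finset.mul_sum]
      refine Finset.sum_le_sum fun i hi => ?_
      have hi := Finset.mem_range.1 hi
      rw [mul_left_comm]
      exact mul_le_mul (hT a ha i (hi.trans ha)) (h2 a ha i hi)
        (mul_nonneg (by linarith) (by linarith [h1 i (hi.trans ha)])) T0
    rw [Finset.sum_const, Finset.card_range, nsmul_eq_mul, ← mul_assoc] at h4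
    have h5 : (a : ℝ) * Tm ≤ R := by
      have : (a : ℝ) ≤ J := by exact_mod_cast ha.le
      nlinarith
    refine le_of_mul_le_mul_left (h4.trans ?_) (by linarith : 0 < R)
    exact mul_le_mul_of_nonneg_right h5 (by linarith)
  · have := h2 a ha i hi
    have := h1 i (hi.trans ha)
    nlinarith

end shr

end Crest.Agent.N207.O.Br
end
end

-- ▼ part N207/O/PL
section

/-! Phragmén–Lindelöf with a comparison function (row 207, block O). -/

namespace Crest.Agent.N207.O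

open Set Metric

/-- Maximum principle for a bounded scalar holomorphic function on an unbounded set whose
closure stays away from a point. -/
theorem max_unbdd_pos {G : Set ℂ} {s0 : ℂ} {d : ℝ} (hd : 0 < d)
    (hs0 : ∀ s ∈ closure G, d ≤ ‖s - s0‖) {F : ℂ → ℂ} (hF : DiffContOnCl ℂ F G) {B C : ℝ}
    (hB0 : 0 < B) (hB : ∀ s ∈ frontier G, ‖F s‖ ≤ B) (hC : ∀ s ∈ G, ‖F s‖ ≤ C) {s : ℂ}
    (hs : s ∈ G) : ‖F s‖ ≤ B := by
  have hCc : ∀ z ∈ closure G, ‖F z‖ ≤ C := fun z hz =>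
    le_on_closure (f := fun z => ‖F z‖) (g := fun _ => C) hC hF.continuousOn.norm
      continuousOn_const hz
  have key : ∀ n : ℕ, ‖F s‖ ^ n ≤ B ^ n / d * ‖s - s0‖ := by
    intro n
    set R : ℝ := ‖s - s0‖ + 1 + |C| ^ n / (B ^ n / d) with hR
    have hq : 0 < B ^ n / d := by positivity
    have hq2 : 0 ≤ |C| ^ n / (B ^ n / d) := by positivity
    have hR0 : 0 < R := by have := norm_nonneg (s - s0); linarith
    have hne : ∀ z ∈ closure G, z - s0 ≠ 0 := fun z hz h => by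
      have := hs0 z hz; rw [h, norm_zero] at this; linarith
    have hD : DiffContOnCl ℂ (fun z => F z ^ n / (z - s0)) (G ∩ ball s0 R) := by
      refine ⟨?_, ?_⟩
      · refine DifferentiableOn.div ((hF.differentiableOn.mono inter_subset_left).pow n)
          (by fun_prop) fun z hz => hne z (subset_closure hz.1)
      · refine ContinuousOn.div
          ((hF.continuousOn.mono (closure_mono inter_subset_left)).pow n) (by fun_prop)
          fun z hz => hne z (closure_mono inter_subset_left hz)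
    have hsU : s ∈ G ∩ ball s0 R := ⟨hs, by rw [mem_ball, dist_eq_norm]; linarith⟩
    have h1 := Complex.norm_le_of_forall_mem_frontier_norm_le
      (isBounded_ball.subset inter_subset_right) hD (C := B ^ n / d) ?_ (subset_closure hsU)
    · have h2 : 0 < ‖s - s0‖ := lt_of_lt_of_le hd (hs0 s (subset_closure hs))
      simp only [norm_div, norm_pow] at h1
      rwa [div_le_iff₀ h2] at h1
    · intro z hz
      rcases frontier_inter_subset G (ball s0 R) hz with h | h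
      · have hz1 : z ∈ closure G := frontier_subset_closure h.1
        simp only [norm_div, norm_pow]
        exact div_le_div₀ (by positivity) (pow_le_pow_left₀ (norm_nonneg _) (hB z h.1) n) hd
          (hs0 z hz1)
      · have hzR : ‖z - s0‖ = R := by
          have := h.2; rw [frontier_ball s0 hR0.ne', mem_sphere, dist_eq_norm] at this
          exact this
        simp only [norm_div, norm_pow, hzR]
        rw [div_le_iff₀ hR0]
        have h3 : ‖F z‖ ^ n ≤ |C| ^ n :=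
          pow_le_pow_left₀ (norm_nonneg _) ((hCc z h.1).trans (le_abs_self C)) n
        have h4 : |C| ^ n = B ^ n / d * (|C| ^ n / (B ^ n / d)) := by field_simp
        have h5 : B ^ n / d * (|C| ^ n / (B ^ n / d)) ≤ B ^ n / d * R := by
          apply mul_le_mul_of_nonneg_left _ hq.le
          have := norm_nonneg (s - s0); linarith
        linarith
  by_contra hlt
  push Not at hlt
  have h1 : 1 < ‖F s‖ / B := by rwa [one_lt_div hB0]
  obtain ⟨n, hn⟩ := pow_unbounded_of_one_lt (‖s - s0‖ / d) h1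
  have h2 := key n
  rw [div_pow, lt_div_iff₀ (by positivity)] at hn
  have : B ^ n / d * ‖s - s0‖ = ‖s - s0‖ / d * B ^ n := by ring
  linarith

/-- **PL with a comparison function.** `g` is bounded on the frontier of `G`, where `Re h ≤ M`,
and `g = O(exp (-N Re h))` on `G` for every `N` (constants may depend on `N`).
Then `g` vanishes wherever `Re h > M`. -/
theorem pl_zero {E : Type*} [NormedAddCommGroup E] [NormedSpace ℂ E] {G : Set ℂ} {s0 : ℂ}
    {d : ℝ} (hd : 0 < d) (hs0 : ∀ s ∈ closure G, d ≤ ‖s - s0‖) {g : ℂ → E} {h : ℂ → ℂ}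
    (hg : DiffContOnCl ℂ g G) (hh : DiffContOnCl ℂ h G) {B M : ℝ}
    (hB : ∀ s ∈ frontier G, ‖g s‖ ≤ B) (hM : ∀ s ∈ frontier G, (h s).re ≤ M)
    (hflat : ∀ N : ℕ, ∃ C : ℝ, ∀ s ∈ G, ‖g s‖ * Real.exp (N * (h s).re) ≤ C)
    {s : ℂ} (hs : s ∈ G) (hsM : M < (h s).re) : g s = 0 := by
  obtain ⟨φ, hφ1, hφ⟩ := exists_dual_vector'' ℂ (g s)
  have hφle : ∀ z, ‖φ (g z)‖ ≤ ‖g z‖ := fun z =>
    (φ.le_opNorm _).trans (mul_le_of_le_one_left (norm_nonneg _) hφ1)
  have key : ∀ N : ℕ, ‖g s‖ * Real.exp (N * (h s).re) ≤ (|B| + 1) * Real.exp (N * M) := by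
    intro N
    obtain ⟨C, hC⟩ := hflat N
    have hn : ∀ z, ‖φ (g z) * Complex.exp (N * h z)‖ = ‖φ (g z)‖ * Real.exp (N * (h z).re) := by
      intro z; rw [norm_mul, Complex.norm_exp]; simp
    have hF : DiffContOnCl ℂ (fun z => φ (g z) * Complex.exp (N * h z)) G := by
      refine ⟨?_, ?_⟩
      · exact (φ.differentiable.comp_differentiableOn hg.differentiableOn).mul
          ((hh.differentiableOn.const_mul _).cexp)
      · exact (φ.continuous.comp_continuousOn hg.continuousOn).mul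
          ((continuousOn_const.mul hh.continuousOn).cexp)
    have := max_unbdd_pos hd hs0 hF (B := (|B| + 1) * Real.exp (N * M)) (C := C)
      (by positivity) ?_ ?_ hs
    · rw [hn, hφ] at this; simpa using this
    · intro z hz
      rw [hn]
      refine mul_le_mul (((hφle z).trans (hB z hz)).trans ?_) ?_ (by positivity) (by positivity)
      · linarith [le_abs_self B]
      · exact Real.exp_le_exp.2 (mul_le_mul_of_nonneg_left (hM z hz) (Nat.cast_nonneg N))
    · intro z hz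
      rw [hn]
      exact (mul_le_mul_of_nonneg_right (hφle z) (by positivity)).trans (hC z hz)
  by_contra hne
  have hp : 0 < ‖g s‖ := norm_pos_iff.2 hne
  have h1 : 1 < Real.exp ((h s).re - M) := Real.one_lt_exp_iff.2 (by linarith)
  obtain ⟨n, hn⟩ := pow_unbounded_of_one_lt ((|B| + 1) / ‖g s‖) h1
  have h2 := key n
  rw [← Real.exp_nat_mul, div_lt_iff₀ hp] at hn
  have h3 : Real.exp (n * (h s).re) = Real.exp (n * ((h s).re - M)) * Real.exp (n * M) := by
    rw [← Real.exp_add]; ring_nf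
  rw [h3, ← mul_assoc] at h2
  have h4 := le_of_mul_le_mul_right h2 (Real.exp_pos _)
  linarith [mul_comm ‖g s‖ (Real.exp (n * ((h s).re - M)))]

end Crest.Agent.N207.O
end

-- ▼ part N207/O/Qf
section

/-!
# Row 207, block O (helper88): quasi-analyticity of a free level
-/

set_option autoImplicit false
set_option linter.unusedSectionVars false

open Set Filter Topology Metric Function

noncomputable section

namespace Crest.Agent.N207.O

open El

theorem Om_re {R : ℝ} (hR : 1 ≤ R) {w : ℂ} (hw : w ∈ Om R) {t : ℝ} (ht : |t| ≤ |w.im|) :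
    (w.re : ℂ) + t * Complex.I ∈ Om R := by
  have h1 := hw.1
  refine ⟨by simpa using h1, ?_⟩
  have h2 : ‖(w.re : ℂ) + t * Complex.I‖ ≤ ‖w‖ := by
    rw [← sq_le_sq₀ (norm_nonneg _) (norm_nonneg _), Complex.sq_norm, Complex.sq_norm,
      Complex.normSq_add_mul_I, Complex.normSq_apply]
    have := sq_le_sq.2 ht
    nlinarith
  have h3 : w.re ≤ ‖(w.re : ℂ) + t * Complex.I‖ := by
    simpa using Complex.re_le_norm ((w.re : ℂ) + t * Complex.I)
  have h4 := Real.log_le_log (by linarith) h2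
  have h5 := hw.2
  simp only [Complex.add_re, Complex.ofReal_re, Complex.mul_re, Complex.I_re, mul_zero,
    Complex.ofReal_im, Complex.I_im, sub_self, add_zero, zero_mul]
  nlinarith

theorem Om_joined {R : ℝ} (hR : 1 ≤ R) {w : ℂ} (hw : w ∈ Om R) : JoinedIn (Om R) w w.re := by
  refine JoinedIn.ofLine (f := fun t : ℝ => (w.re : ℂ) + ((1 - t) * w.im : ℝ) * Complex.I)
    (by fun_prop) (by simp) (by simp) ?_
  rintro _ ⟨t, ht, rfl⟩
  refine Om_re hR hw ?_
  rw [abs_mul, abs_of_nonneg (by linarith [ht.2])]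
  exact mul_le_of_le_one_left (abs_nonneg _) (by linarith [ht.1])

theorem isPreconnected_Om {R : ℝ} (hR : 1 ≤ R) : IsPreconnected (Om R) := by
  have key : ∀ x y : ℝ, (x : ℂ) ∈ Om R → x ≤ y → JoinedIn (Om R) x y := fun x y hx h => by
    refine JoinedIn.ofLine (f := fun t : ℝ => ((x + t * (y - x) : ℝ) : ℂ))
      (by fun_prop) (by simp) (by simp) ?_
    rintro _ ⟨t, ht, rfl⟩
    refine Q.om_up (by linarith) hx (by simp) (by simp) ?_
    have := mul_nonneg ht.1 (sub_nonneg.2 h)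
    simpa using this
  refine isPreconnected_of_forall_pair fun w hw w' hw' => ?_
  have h1 := Om_joined hR hw
  have h2 := Om_joined hR hw'
  have h3 : JoinedIn (Om R) w w' := by
    rcases le_total w.re w'.re with h | h
    · exact (h1.trans (key _ _ h1.target_mem h)).trans h2.symm
    · exact (h1.trans (key _ _ h2.target_mem h).symm).trans h2.symm
  obtain ⟨γ, hγ⟩ := h3
  exact ⟨range γ, range_subset_iff.2 hγ, γ.source_mem_range, γ.target_mem_range,
    isPreconnected_range γ.continuous⟩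

theorem closure_Om {R : ℝ} (hR : 1 ≤ R) {w : ℂ} (hw : w ∈ closure (Om R)) :
    R ≤ w.re ∧ R * (1 + Real.log ‖w‖) ≤ w.re := by
  have h1 : R ≤ w.re := closure_minimal (fun _ h => h.1.le)
    (isClosed_le continuous_const Complex.continuous_re) hw
  have h0 : ‖w‖ ≠ 0 := by have := Complex.re_le_norm w; intro h; linarith
  refine ⟨h1, ?_⟩
  have hc : ContinuousAt (fun w : ℂ => R * (1 + Real.log ‖w‖)) w :=
    continuousAt_const.mul (continuousAt_const.add (continuous_norm.continuousAt.log h0))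
  exact ContinuousWithinAt.closure_le hw hc.continuousWithinAt
    Complex.continuous_re.continuousWithinAt fun _ h => h.2.le

/-- a flat holomorphic function on `Om R` vanishes -/
theorem flat_Om {E : Type*} [NormedAddCommGroup E] [NormedSpace ℂ E] {R : ℝ} (hR : 1 ≤ R)
    {f : ℂ → E} (hf : DifferentiableOn ℂ f (Om R))
    (hK : ∀ K : ℝ, ∃ C : ℝ, ∀ w ∈ Om R, ‖f w‖ ≤ C * Real.exp (-(K * w.re))) {w : ℂ}
    (hw : w ∈ Om R) : f w = 0 := by
  obtain ⟨R', hR', hw'⟩ : ∃ R', R < R' ∧ w ∈ Om R' := by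
    have c : ContinuousAt (fun R' : ℝ => R' * (1 + Real.log ‖w‖)) R := by fun_prop
    obtain ⟨R', h1, h2⟩ := (((eventually_lt_nhds hw.1).and (c.eventually_lt continuousAt_const
      hw.2)).filter_mono (nhdsWithin_le_nhds (s := Ioi R))).and self_mem_nhdsWithin |>.exists
    exact ⟨R', h2, h1⟩
  have lg : ∀ z ∈ closure (Om R'), 0 ≤ Real.log ‖z‖ := fun z hz => Real.log_nonneg (by
    linarith [(closure_Om (by linarith) hz).1, Complex.re_le_norm z])
  have cl : closure (Om R') ⊆ Om R := fun z hz => by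
    have := closure_Om (by linarith) hz
    have := lg z hz
    exact ⟨by linarith, by nlinarith⟩
  obtain ⟨B, hB⟩ := hK 0
  have re : ∀ z : ℂ, (z - R' * Complex.log z).re = z.re - R' * Real.log ‖z‖ := fun z => by
    simp [Complex.log_re]
  refine pl_zero (G := Om R') (s0 := 0) (d := 1) (h := fun z => z - R' * Complex.log z) (B := B)
    (M := R') one_pos (fun z hz => ?_) (hf.mono cl).diffContOnCl
    (DifferentiableOn.diffContOnCl fun z hz => ?_)
    (fun z hz => by simpa using hB z (cl (frontier_subset_closure hz))) (fun z hz => ?_)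
    (fun N => ?_) hw' (by rw [re]; linarith [hw'.2])
  · rw [sub_zero]; linarith [(cl hz).1, Complex.re_le_norm z]
  · exact (differentiableAt_id.sub ((differentiableAt_id.clog
      (Or.inl (by simpa using (by linarith [(cl hz).1] : 0 < z.re)))).const_mul _)
      ).differentiableWithinAt
  · have h1 := lg z (frontier_subset_closure hz)
    have h2 : z ∉ Om R' := by
      rw [(El.isOpen_Om (by linarith)).frontier_eq] at hz; exact hz.2
    rw [re]
    by_contra h3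
    exact h2 ⟨by nlinarith, by linarith⟩
  · obtain ⟨C, hC⟩ := hK N
    refine ⟨max C 0, fun z hz => ?_⟩
    have h1 := lg z (subset_closure hz)
    have h2 := (hC z (cl (subset_closure hz))).trans
      (mul_le_mul_of_nonneg_right (le_max_left C 0) (Real.exp_pos _).le)
    calc _ ≤ max C 0 * Real.exp (-(N * z.re)) * Real.exp (N * z.re) := by
          refine mul_le_mul h2 (Real.exp_le_exp.2 (mul_le_mul_of_nonneg_left ?_ N.cast_nonneg))
            (Real.exp_pos _).le (by positivity)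
          rw [re]; nlinarith
      _ = _ := by rw [mul_assoc, ← Real.exp_add]; simp

variable {ι : Type} [Fintype ι] [DecidableEq ι] {T : Tw ι} {l : List (ι ⊕ ℕ)} {k : ι}

theorem upd_top (h : T.WF) (hl : Sum.inl k :: l <:+ T.top) {x : ι → ℂ}
    (hx : x ∈ T.D (Sum.inl k :: l)) {w : ℂ} (hw : w ∈ Om T.R) :
    update x k w ∈ T.D (Sum.inl k :: l) := by
  have hF : k ∉ T.Fv := fun h' => h.dj k h' (hl.subset List.mem_cons_self)
  obtain ⟨hx1, hx2⟩ := D_cons hx
  obtain ⟨z, hz, h5⟩ := hx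
  refine ⟨z, hz, ?_⟩
  rw [connectedComponentIn_eq h5]
  refine ((isPreconnected_Om h.R1).image (update x k)
    (continuous_const.update k continuous_id).continuousOn).subset_connectedComponentIn
    ⟨x k, by simpa only [h.sN] using hx2.1, update_eq_self k x⟩ ?_ (mem_image_of_mem _ hw)
  rintro _ ⟨v, hv, rfl⟩
  exact ⟨T2_upd h (suffix_tail hl) (h.not_mem hl) (fun h' => absurd h' hF) hx1
    fun h' => absurd h' hF, by rwa [h.sN, update_self], fun _ e => by cases e⟩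

/-- **quasi-analyticity of a free level** -/
theorem qa_free (h : T.WF) (hl : Sum.inl k :: l <:+ T.top) : T.fr.QA1 (Sum.inl k) l := by
  intro g hg hK x hx
  have := flat_Om h.R1 (f := fun w => g (update x k w))
    (hg.comp (dif_update (differentiableOn_const x) differentiableOn_id)
      fun w hw => upd_top h hl hx hw)
    (fun K => (hK K).imp fun C hC w hw => by
      simpa only [Tw.fr, h.sN, update_self] using hC _ (upd_top h hl hx hw))
    (w := x k) (by simpa only [h.sN] using (D_cons hx).2.1)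
  simpa using this

end Crest.Agent.N207.O
end
end

-- ▼ part N207/O/Sec3
section

/-! Row 207, block O (helper76): asymptotics on vertically star shaped sets. -/

set_option autoImplicit false

namespace Crest.Agent.N207.O.Q

open Set Filter Finset Asymptotics
open scoped Topology

variable {J : ℕ} {td : ℕ → Prop} {ρ cc : ℕ → ℕ → ℝ} {γ C R τ T R1 : ℝ} {p : ℕ → ℝ}
  {σ u : ℕ → ℂ → ℂ} {Z : ℕ → Set ℂ} {S : Set ℂ}

/-- vertical segment -/
noncomputable def vs (s : ℂ) (t : ℝ) : ℂ := s.re + t * s.im * Complex.I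

@[simp] theorem vs_re (s : ℂ) (t : ℝ) : (vs s t).re = s.re := by simp [vs]
@[simp] theorem vs_im (s : ℂ) (t : ℝ) : (vs s t).im = t * s.im := by simp [vs]
@[simp] theorem vs_zero (s : ℂ) : vs s 0 = s.re := by simp [vs]
@[simp] theorem vs_one (s : ℂ) : vs s 1 = s := by simp [vs]

/-- vertically star shaped -/
def Star (S : Set ℂ) : Prop := ∀ s ∈ S, ∀ t ∈ Icc (0 : ℝ) 1, vs s t ∈ S

/-- far right in `S` -/
def FS (S : Set ℂ) : Filter ℂ := comap Complex.re atTop ⊓ 𝓟 S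

theorem ev_FS {P : ℂ → Prop} : (∀ᶠ s in FS S, P s) ↔ ∃ X : ℝ, ∀ s ∈ S, X ≤ s.re → P s := by
  rw [FS, eventually_inf_principal, eventually_comap, eventually_atTop]
  exact ⟨fun ⟨X, h⟩ => ⟨X, fun s hs hX => h _ hX s rfl hs⟩,
    fun ⟨X, h⟩ => ⟨X, fun b hb s e hs => h s hs (e ▸ hb)⟩⟩

theorem re_FS : Tendsto Complex.re (FS S) atTop := tendsto_comap.mono_left inf_le_left

theorem mem_FS : ∀ᶠ s in FS S, s ∈ S := ev_FS.2 ⟨0, fun _ h _ => h⟩

theorem FS_mono {S' : Set ℂ} (h : S ⊆ S') : FS S ≤ FS S' := inf_le_inf_left _ (principal_mono.2 h)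

theorem Star.ev (h : Star S) {P : ℂ → Prop} (hP : ∀ᶠ s in FS S, P s) :
    ∀ᶠ s in FS S, ∀ t ∈ Icc (0 : ℝ) 1, P (vs s t) := by
  obtain ⟨X, hX⟩ := ev_FS.1 hP
  exact ev_FS.2 ⟨X, fun s hs h' t ht => hX _ (h s hs t ht) (by simpa using h')⟩

theorem pos_FS : ∀ᶠ s in FS S, 0 ≤ s.re := re_FS.eventually (eventually_ge_atTop 0)

/-- everything known about the ray -/
structure Sit (J : ℕ) (td : ℕ → Prop) (ρ cc : ℕ → ℕ → ℝ) (γ C R τ T : ℝ) (p : ℕ → ℝ)
    (σ u : ℕ → ℂ → ℂ) (Z : ℕ → Set ℂ) : Prop where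
  hE : Ex J td ρ cc
  hS : Sec J td ρ cc γ C R p σ u Z
  hK : Cn J ρ cc τ T
  γ0 : 0 < γ
  s0 : (0 : ℂ) ∈ Z J
  ry : ∀ a < J, ∀ x, 0 ≤ x → Ry td ρ cc τ σ u Z a x

/-- level `b` is good on `S` -/
structure Gd (td : ℕ → Prop) (ρ : ℕ → ℕ → ℝ) (σ u : ℕ → ℂ → ℂ) (S : Set ℂ) (b : ℕ) : Prop where
  lo : ∀ r : ℝ, ∀ᶠ s in FS S, r * √(oo σ b s.re) ≤ (σ b s).re
  nb : ∃ B : ℝ, 1 ≤ B ∧ ∀ᶠ s in FS S, ‖σ b s‖ ≤ B * oo σ b s.re
  arg : td b → ∀ᶠ s in FS S, |(ph ρ σ u b s).im| < Real.pi / 2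

theorem Gd.mono {b : ℕ} {S' : Set ℂ} (g : Gd td ρ σ u S' b) (h : S ⊆ S') : Gd td ρ σ u S b :=
  ⟨fun r => (g.lo r).filter_mono (FS_mono h),
    g.nb.imp fun _ hB => ⟨hB.1, hB.2.filter_mono (FS_mono h)⟩,
    fun ht => (g.arg ht).filter_mono (FS_mono h)⟩

namespace Sit

variable (H : Sit J td ρ cc γ C R τ T p σ u Z)
include H

theorem oo_top {a : ℕ} (ha : a < J) : Tendsto (oo σ a) atTop atTop :=
  tendsto_atTop_mono' _ ((eventually_ge_atTop 0).mono fun x hx => (H.ry a ha x hx).grow)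
    (tendsto_atTop_add_const_left _ _ tendsto_id)

theorem oo_pos {a : ℕ} (ha : a < J) {x : ℝ} (hx : 0 ≤ x) : 0 < oo σ a x :=
  H.hS.re_pos (Nat.lt_succ_self a) ha (H.ry a ha x hx).mem

theorem dle {a : ℕ} (ha : a < J) : ∀ᶠ x in atTop, dd σ a x ≤ (Kd J T C * oo σ a x) ^ J := by
  have e : ∀ᶠ x in atTop, ∀ i ∈ range (a + 1), (2 * R + 1) * (1 + √(oo σ i x)) < oo σ i x :=
    (eventually_all_finset _).2 fun i hi =>
      (H.oo_top (by simp at hi; omega)).eventually (ev_pw _)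
  filter_upwards [e, eventually_ge_atTop 0, (H.oo_top ha).eventually (eventually_ge_atTop 1)]
    with x h1 hx h2
  refine (Complex.re_le_norm _).trans (sig_der H.hE H.hS H.hK.T0 H.hK.k1 ha (H.ry a ha x hx).mem
    (fun i hi => real_pw (H.ry i (by omega) x hx).im (H.oo_pos (by omega) hx).le
      (h1 i (by simp; omega))) h2 fun i hi => ?_)
  rw [norm_of_im (H.ry i (by omega) x hx).im (H.oo_pos (by omega) hx).le]
  exact ((H.ry a ha x hx).ord i hi).1

theorem fo_ge {β : ℕ → ℝ} (hβ : ∀ i, 0 ≤ β i) {n i : ℕ} (hn : n ≤ J) (hi : i < n) {x : ℝ}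
    (hx : 0 ≤ x) : β i * oo σ i x ≤ fo β n σ x :=
  single_le_sum (f := fun j => β j * oo σ j x) (fun j hj => mul_nonneg (hβ j)
    (H.oo_pos (by simp at hj; omega) hx).le) (by simpa)

theorem fd_ge {β : ℕ → ℝ} (hβ : ∀ i, 0 ≤ β i) {n i : ℕ} (hn : n ≤ J) (hi : i < n) {x : ℝ}
    (hx : 0 ≤ x) : β i * dd σ i x ≤ fd β n σ x :=
  single_le_sum (f := fun j => β j * dd σ j x) (fun j hj => mul_nonneg (hβ j)
    (by linarith [(H.ry j (by simp at hj; omega) x hx).d1])) (by simpa)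

theorem fo_top {β : ℕ → ℝ} (hβ : ∀ i, 0 ≤ β i) {n i : ℕ} (hn : n ≤ J) (hi : i < n)
    (h0 : 0 < β i) : Tendsto (fo β n σ) atTop atTop :=
  tendsto_atTop_mono' _ ((eventually_ge_atTop 0).mono fun _ hx => H.fo_ge hβ hn hi hx)
    ((H.oo_top (by omega)).const_mul_atTop h0)

theorem grow {β : ℕ → ℝ} (hβ : ∀ i, 0 ≤ β i) {n i : ℕ} (hn : n ≤ J) (hi : i < n) (h0 : 0 < β i) :
    Tendsto (fun x => (1 + fd β n σ x) * Real.exp (-(fo β n σ x / 2))) atTop (𝓝 0) := by
  have h1 : Tendsto (fun x => Real.exp (-(fo β n σ x / 2))) atTop (𝓝 0) :=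
    Real.tendsto_exp_neg_atTop_nhds_zero.comp ((H.fo_top hβ hn hi h0).atTop_div_const two_pos)
  have h2 : ∀ j ∈ range n,
      Tendsto (fun x => β j * dd σ j x * Real.exp (-(fo β n σ x / 2))) atTop (𝓝 0) := by
    intro j hj
    have hj : j < n := by simpa using hj
    rcases (hβ j).eq_or_lt with h | h
    · simp [← h]
    have h3 := ((tendsto_exp_pow (half_pos h) (Kd J T C) J).comp (H.oo_top (a := j)
      (by omega))).const_mul (β j)
    rw [mul_zero] at h3
    refine squeeze_zero' ?_ ?_ h3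
    · filter_upwards [eventually_ge_atTop 0] with x hx
      have := (H.ry j (by omega) x hx).d1
      positivity
    · filter_upwards [eventually_ge_atTop 0, H.dle (a := j) (by omega)] with x hx h4
      have h5 := H.fo_ge hβ hn hj hx
      rw [mul_assoc, mul_comm (dd σ j x)]
      exact mul_le_mul_of_nonneg_left (mul_le_mul (Real.exp_le_exp.2 (by linarith)) h4
        (by linarith [(H.ry j (by omega) x hx).d1]) (Real.exp_pos _).le) h.le
  have h4 := h1.add (tendsto_finset_sum _ h2)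
  simp only [sum_const_zero, add_zero] at h4
  refine h4.congr fun x => ?_
  rw [← sum_mul, add_mul, one_mul, fd]

theorem pw_of_gd {b : ℕ} (hb : b < J) (g : Gd td ρ σ u S b) (r : ℝ) :
    ∀ᶠ s in FS S, σ b s ∈ Pw r := by
  obtain ⟨B, hB, h⟩ := g.nb
  filter_upwards [h, g.lo (|r| * (1 + √B) + 1),
    re_FS.eventually ((H.oo_top hb).eventually (eventually_ge_atTop 1))] with s h1 h2 h3
  have h4 : √‖σ b s‖ ≤ √B * √(oo σ b s.re) := by
    rw [← Real.sqrt_mul (by linarith)]; exact Real.sqrt_le_sqrt h1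
  have h5 : 1 ≤ √(oo σ b s.re) := Real.one_le_sqrt.2 h3
  have h6 := Real.sqrt_nonneg ‖σ b s‖
  have h7 := le_abs_self r
  have h8 := abs_nonneg r
  show r * (1 + √‖σ b s‖) < _
  nlinarith

theorem mem_of_gd (hS : Star S) {R' : ℝ} {Z' : ℕ → Set ℂ} (hZ : Zs J td ρ σ u R' Z')
    (s0 : (0 : ℂ) ∈ Z' J) : ∀ n ≤ J, (∀ b < n, Gd td ρ σ u S b) → ∀ᶠ s in FS S, s ∈ Z' n := by
  intro n
  induction n with
  | zero => intro _ _; simp [hZ.Z0]
  | succ n ih =>
    intro hn g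
    have e : ∀ᶠ s in FS S, cs td ρ σ u R' n s := by
      have h1 := H.pw_of_gd hn (g n (by omega)) (2 * R' + 1)
      by_cases ht : td n
      · filter_upwards [h1, (g n (by omega)).arg ht] with s a1 a2
        exact ⟨pw_margin hZ.R0 a1 (by simp), fun _ => a2⟩
      · filter_upwards [h1] with s a1
        exact ⟨pw_margin hZ.R0 a1 (by simp), fun h => absurd h ht⟩
    filter_upwards [hS.ev (ih (by omega) fun b hb => g b (by omega)), hS.ev e, pos_FS]
      with s h1 h2 h3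
    refine hZ.Zp n hn (vs s '' Icc 0 1) (isPreconnected_Icc.image _ (by unfold vs; fun_prop))
      (by rintro _ ⟨t, ht, rfl⟩; exact h1 t ht) (by rintro _ ⟨t, ht, rfl⟩; exact h2 t ht)
      ⟨_, ⟨0, by simp, rfl⟩, ?_⟩ ⟨1, by simp, by simp⟩
    rw [vs_zero]; exact ray_mem hZ s0 H.ry _ hn _ h3

theorem mem (hS : Star S) {n : ℕ} (hn : n ≤ J) (g : ∀ b < n, Gd td ρ σ u S b) :
    ∀ᶠ s in FS S, s ∈ Z n := H.mem_of_gd hS H.hS.toZs H.s0 n hn g

theorem ud_zero (hS : Star S) {a : ℕ} (ha : a < J) (hta : td a) (g : ∀ b < a, Gd td ρ σ u S b) :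
    Tendsto (deriv (u a)) (FS S) (𝓝 0) := by
  have hB : ∀ᶠ B : ℝ in atTop, ∀ i ∈ range a, ∀ᶠ s in FS S, ‖σ i s‖ ≤ B * oo σ i s.re := by
    refine (eventually_all_finset _).2 fun i hi => ?_
    have hi : i < a := by simpa using hi
    obtain ⟨B, -, h⟩ := (g i hi).nb
    filter_upwards [eventually_ge_atTop B] with B' hB'
    filter_upwards [h, pos_FS] with s h1 h2
    exact h1.trans (mul_le_mul_of_nonneg_right hB' (H.oo_pos (by omega) h2).le)
  obtain ⟨B, hB, B1⟩ := (hB.and (eventually_ge_atTop 1)).exists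
  have hC := H.hS.C0
  have hK := Kd_ge (J := J) H.hK.T0 hC
  have t1 : ∀ b ∈ range a, Tendsto (fun s : ℂ => 2 * C * Real.exp γ *
      (Real.exp (-γ * (σ b s).re) * (Kd J T C * (B * oo σ b s.re)) ^ J)) (FS S) (𝓝 0) := by
    intro b hb
    have hb : b < a := by simpa using hb
    have h1 := ((tendsto_exp_pow H.γ0 (√(Kd J T C * B)) (2 * J)).comp
      (Real.tendsto_sqrt_atTop.comp ((H.oo_top (a := b) (by omega)).comp
        (re_FS (S := S))))).const_mul (2 * C * Real.exp γ)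
    rw [mul_zero] at h1
    refine squeeze_zero' ?_ ?_ h1
    · filter_upwards [pos_FS] with s hs
      have := H.oo_pos (a := b) (by omega) hs
      positivity
    · filter_upwards [pos_FS, (g b hb).lo 1] with s hs h2
      have := H.oo_pos (a := b) (by omega) hs
      simp only [Function.comp]
      rw [pow_mul, mul_pow (√_), Real.sq_sqrt (by positivity), Real.sq_sqrt this.le, mul_assoc _ B]
      refine mul_le_mul_of_nonneg_left (mul_le_mul_of_nonneg_right (Real.exp_le_exp.2 ?_)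
        (by positivity)) (by positivity)
      nlinarith [H.γ0]
  have t2 := tendsto_finset_sum _ t1
  rw [sum_const_zero] at t2
  refine squeeze_zero_norm' ?_ t2
  filter_upwards [H.mem hS ha.le g, (eventually_all_finset _).2 hB, pos_FS,
    (eventually_all_finset (range a)).2 fun b hb =>
      H.pw_of_gd (by simp at hb; omega) (g b (by simpa using hb)) (2 * R + 1),
    (eventually_all_finset (range a)).2 fun b hb => re_FS.eventually
      ((H.oo_top (a := b) (by simp at hb; omega)).eventually (eventually_ge_atTop 1))]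
    with s h1 h2 h3 h4 h5
  refine (H.hS.dec a ha hta).der H.hE H.hS H.hK.T0 H.hK.k1 ha.le h1
    (M := fun b => B * oo σ b s.re) (fun b hb => h4 b (by simpa))
    (fun b hb => by nlinarith [h5 b (by simpa)]) (fun b hb i hi => ?_) H.γ0.le hC
  exact (h2 i (by simp; omega)).trans (mul_le_mul_of_nonneg_left
    ((H.ry b (by omega) _ h3).ord i hi).1 (by linarith))

/-- upper bound of the real part of a scale -/
theorem re_up : ∀ b < J, ∃ P : ℝ, (∀ s ∈ Z b, (σ b s).re ≤ P + s.re) ∨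
    ∃ i ≤ b, td i ∧ ∀ s ∈ Z b, (σ b s).re ≤ P + (Complex.exp (ph ρ σ u i s)).re := by
  intro b
  induction b using Nat.strong_induction_on with
  | _ b ih =>
  intro hb
  by_cases ht : td b
  · refine ⟨0, Or.inr ⟨b, le_rfl, ht, fun s hs => ?_⟩⟩
    rw [H.hS.tied b hb ht s hs, Complex.sub_re, lf_re]
    have : 0 ≤ ∑ i ∈ range b, cc b i * (σ i s).re := sum_nonneg fun i hi =>
      mul_nonneg (H.hE.cc_nn b i) (H.hS.re_pos (by simpa using hi) hb.le hs).le
    linarith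
  · rcases H.hS.free b hb ht with h1 | ⟨m, rfl, -, h1⟩
    · exact ⟨p b, Or.inl fun s hs => by simp [h1 s hs]⟩
    · obtain ⟨P, h | ⟨i, hi, hti, h⟩⟩ := ih m (by omega) (by omega)
      · refine ⟨p (m + 1) + P, Or.inl fun s hs => ?_⟩
        have := h s (H.hS.Zm m (by omega) hs)
        simp [h1 s hs]; linarith
      · refine ⟨p (m + 1) + P, Or.inr ⟨i, by omega, hti, fun s hs => ?_⟩⟩
        have := h s (H.hS.Zm m (by omega) hs)
        simp only [h1 s hs, Complex.add_re, Complex.ofReal_re]; linarith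

end Sit

end Crest.Agent.N207.O.Q
end

-- ▼ part N207/O/Sec3b
section

/-! Row 207, block O (helper76): a tied level on a star shaped set. -/

set_option autoImplicit false

namespace Crest.Agent.N207.O.Q

open Set Filter Finset Asymptotics
open scoped Topology

variable {J : ℕ} {td : ℕ → Prop} {ρ cc : ℕ → ℕ → ℝ} {γ C R τ T R1 : ℝ} {p : ℕ → ℝ}
  {σ u : ℕ → ℂ → ℂ} {Z : ℕ → Set ℂ} {S : Set ℂ}

/-- the derivative of the scale is almost constant on vertical segments -/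
def Eq1 (σ : ℕ → ℂ → ℂ) (S : Set ℂ) (b : ℕ) : Prop :=
  ∀ ε : ℝ, 0 < ε → ∀ᶠ s in FS S, ‖deriv (σ b) s - dd σ b s.re‖ ≤ ε * dd σ b s.re

theorem Eq1.mono {b : ℕ} {S' : Set ℂ} (g : Eq1 σ S' b) (h : S ⊆ S') : Eq1 σ S b :=
  fun ε hε => (g ε hε).filter_mono (FS_mono h)

theorem lf_ext' {β : ℕ → ℝ} {m n : ℕ} (h1 : ∀ i, m ≤ i → β i = 0) (h2 : ∀ i, n ≤ i → β i = 0) :
    lf β m σ = lf β n σ := by
  rw [← lf_ext h1 (le_max_left m n), lf_ext h2 (le_max_right m n)]

theorem fd_ext' {β : ℕ → ℝ} {m n : ℕ} (h1 : ∀ i, m ≤ i → β i = 0) (h2 : ∀ i, n ≤ i → β i = 0)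
    (x : ℝ) : fd β m σ x = fd β n σ x := by
  rw [fd, fd, ← wsum_ext h1 (le_max_left m n), wsum_ext h2 (le_max_right m n)]

theorem lfe {β : ℕ → ℝ} (hβ : ∀ i, 0 ≤ β i) {n : ℕ} (hE : ∀ b < n, Eq1 σ S b) {ε : ℝ} (hε : 0 < ε) :
    ∀ᶠ s in FS S, ‖∑ i ∈ range n, (β i : ℂ) * deriv (σ i) s - fd β n σ s.re‖ ≤
      ε * fd β n σ s.re := by
  filter_upwards [(eventually_all_finset (range n)).2 fun b hb => hE b (by simpa using hb) ε hε]
    with s h
  rw [fd, Complex.ofReal_sum, ← sum_sub_distrib, mul_sum]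
  refine norm_sum_le_of_le _ fun i hi => ?_
  rw [Complex.ofReal_mul, ← mul_sub, norm_mul, Complex.norm_real, Real.norm_eq_abs,
    abs_of_nonneg (hβ i), mul_left_comm]
  exact mul_le_mul_of_nonneg_left (h i hi) (hβ i)

theorem im_le_of {w : ℂ} {y f e : ℝ} (h : ‖w - y * Complex.I * f‖ ≤ e) :
    |w.im - y * f| ≤ e ∧ |w.re| ≤ e := by
  have h1 := (Complex.abs_im_le_norm _).trans h
  have h2 := (Complex.abs_re_le_norm _).trans h
  constructor
  · simpa using h1
  · simpa using h2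

namespace Sit

variable (H : Sit J td ρ cc γ C R τ T p σ u Z)
include H

theorem mva (hS : Star S) {β : ℕ → ℝ} (hβ : ∀ i, 0 ≤ β i) {n i : ℕ} (hn : n ≤ J) (hi : i < n)
    (hτ : τ ≤ β i) (hE : ∀ b < n, Eq1 σ S b) (g : ∀ b < n, Gd td ρ σ u S b) {v : ℂ → ℂ}
    (hv : ∀ᶠ s in FS S, DifferentiableAt ℂ v s) (hv0 : Tendsto (deriv v) (FS S) (𝓝 0)) {ε : ℝ}
    (hε : 0 < ε) : ∀ᶠ s in FS S, ‖lf β n σ s + v s - (lf β n σ s.re + v s.re) -
      s.im * Complex.I * fd β n σ s.re‖ ≤ ε * fd β n σ s.re * |s.im| := by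
  have τ0 := H.hK.τ0
  have e : ∀ᶠ s in FS S, DifferentiableAt ℂ (fun s => lf β n σ s + v s) s ∧
      ‖deriv (fun s => lf β n σ s + v s) s - fd β n σ s.re‖ ≤ ε * fd β n σ s.re := by
    filter_upwards [H.mem hS hn g, hv, lfe hβ hE (half_pos hε), pos_FS,
      (tendsto_zero_iff_norm_tendsto_zero.1 hv0).eventually
        (ge_mem_nhds (by positivity : 0 < ε / 2 * τ))] with s h1 h2 h3 h4 h5
    have d := (lf_hasDerivAt (ρ := β) fun b hb => H.hS.dAt hb.le (by omega) hn h1).add h2.hasDerivAt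
    refine ⟨d.differentiableAt, ?_⟩
    rw [show deriv (fun s => lf β n σ s + v s) s = _ from d.deriv, add_sub_right_comm]
    have h6 := H.fd_ge hβ hn hi h4
    have h7 := (H.ry i (by omega) _ h4).d1
    have h8 : τ ≤ fd β n σ s.re := by nlinarith
    exact (norm_add_le _ _).trans (by nlinarith)
  filter_upwards [hS.ev e] with s h
  exact vert_mv (f := fun s => lf β n σ s + v s) fun t ht => by simpa [vs] using h t ht

theorem le_top {a i : ℕ} (ha : a < J) (hta : td a) (hi : i ≤ a) (hti : td i) (j : ℕ) :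
    ρ i j ≤ ρ a j := by
  rcases hi.eq_or_lt with rfl | h
  · exact le_rfl
  · exact (H.hE.inc i a h ha hti hta).1 j

theorem u_dif (hS : Star S) {a : ℕ} (ha : a < J) (hta : td a) (g : ∀ b < a, Gd td ρ σ u S b) :
    ∀ᶠ s in FS S, DifferentiableAt ℂ (u a) s :=
  (H.mem hS ha.le g).mono fun _ hs => H.hS.uAt ha hta hs

theorem ph_mv (hS : Star S) {a n : ℕ} (ha : a < J) (hta : td a) (hn : n ≤ J)
    (hs : ∀ j, n ≤ j → ρ a j = 0) (hE : ∀ b < n, Eq1 σ S b) (g : ∀ b < n, Gd td ρ σ u S b)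
    (g' : ∀ b < a, Gd td ρ σ u S b) {ε : ℝ} (hε : 0 < ε) : ∀ᶠ s in FS S,
      |(ph ρ σ u a s).im - s.im * fd (ρ a) a σ s.re| ≤ ε * fd (ρ a) a σ s.re * |s.im| ∧
      |(ph ρ σ u a s).re - (ph ρ σ u a s.re).re| ≤ ε * fd (ρ a) a σ s.re * |s.im| := by
  obtain ⟨i, hi⟩ := H.hE.pos a ha hta
  have hin : i < n := by by_contra hc; rw [hs i (by omega)] at hi; exact lt_irrefl _ hi
  filter_upwards [H.mva hS (H.hE.rho_nn a) hn hin (H.hK.k2 a ha i hi) hE g (H.u_dif hS ha hta g')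
    (H.ud_zero hS ha hta g') hε, pos_FS] with s h h0
  rw [← lf_ext' (H.hE.supp a) hs, ← fd_ext' (H.hE.supp a) hs] at h
  have h1 := im_le_of h
  have h2 := ((H.ry a ha _ h0).tied hta).2.2.2.2.2.2.2
  simp only [ph] at h2 ⊢
  rwa [Complex.sub_im, Complex.sub_re, h2, sub_zero] at h1

theorem dif_mv (hS : Star S) {a i n : ℕ} (ha : a < J) (hta : td a) (hi : i < a) (hti : td i)
    (hn : n ≤ J) (hs : ∀ j, n ≤ j → ρ a j = 0) (hE : ∀ b < n, Eq1 σ S b)
    (g : ∀ b < n, Gd td ρ σ u S b) (g' : ∀ b < i, Gd td ρ σ u S b) {v : ℂ → ℂ}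
    (hv : ∀ᶠ s in FS S, DifferentiableAt ℂ v s) (hv0 : Tendsto (deriv v) (FS S) (𝓝 0))
    (hr : ∀ x : ℝ, 0 ≤ x → (lf (ρ a) a σ x + v x).im = 0) {ε : ℝ} (hε : 0 < ε) : ∀ᶠ s in FS S,
      |(lf (ρ a) a σ s + v s).im - (ph ρ σ u i s).im - s.im * fd (ρ a - ρ i) a σ s.re| ≤
        ε * fd (ρ a - ρ i) a σ s.re * |s.im| ∧ τ ≤ fd (ρ a - ρ i) a σ s.re := by
  obtain ⟨m1, k, hk⟩ := H.hE.inc i a hi ha hti hta
  have hβ : ∀ j, 0 ≤ (ρ a - ρ i) j := fun j => sub_nonneg.2 (m1 j)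
  have hk0 := (H.hE.rho_nn i k).trans_lt hk
  have hkn : k < n := by by_contra hc; rw [hs k (by omega)] at hk0; exact lt_irrefl _ hk0
  have hs' : ∀ j, n ≤ j → ρ i j = 0 := fun j hj =>
    le_antisymm (hs j hj ▸ m1 j) (H.hE.rho_nn i j)
  have ui := H.u_dif hS (by omega) hti g'
  have t0 : Tendsto (deriv fun s => v s - u i s) (FS S) (𝓝 0) := by
    have := hv0.sub (H.ud_zero hS (by omega) hti g')
    rw [sub_zero] at this
    refine this.congr' ?_
    filter_upwards [hv, ui] with s h1 h2 using (deriv_fun_sub h1 h2).symm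
  have hτ : τ ≤ (ρ a - ρ i) k := H.hK.k3 i (by omega) a ha k hk
  filter_upwards [H.mva hS hβ hn hkn hτ hE g ((hv.and ui).mono fun s h => h.1.sub h.2) t0 hε,
    pos_FS] with s h h0
  rw [← fd_ext' (m := a) (fun j hj => by simp [H.hE.supp a j hj, H.hE.supp i j (by omega)])
    (fun j hj => by simp [hs j hj, hs' j hj]), lf_sub, lf_sub, ← lf_ext' (H.hE.supp a) hs,
    ← lf_ext' (H.hE.supp i) hs'] at h
  have h1 := (im_le_of h).1
  have h2 := ((H.ry i (by omega) _ h0).tied hti).2.2.2.2.2.2.2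
  have h3 := hr _ h0
  have h4 := H.fd_ge hβ ha.le (H.hE.lt_of_pos hk0) h0
  have h5 := (H.ry k (by omega) _ h0).d1
  refine ⟨?_, by nlinarith [H.hK.τ0]⟩
  simp only [ph, Complex.add_im, Complex.sub_im, Pi.sub_apply] at h1 h2 h3 ⊢
  convert h1 using 2
  linarith

theorem fd_tau {a : ℕ} (ha : a < J) (hta : td a) {x : ℝ} (hx : 0 ≤ x) : τ ≤ fd (ρ a) a σ x := by
  simpa [fd] using H.hE.gap0 H.hK ha hta zero_le_one fun i hi => (H.ry i (by omega) x hx).d1

theorem fd_mono {a i : ℕ} (ha : a < J) (hta : td a) (hi : i ≤ a) (hti : td i) {x : ℝ}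
    (hx : 0 ≤ x) : fd (ρ i) i σ x ≤ fd (ρ a) a σ x := by
  rcases hi.eq_or_lt with rfl | h
  · exact le_rfl
  · have := H.hE.gap H.hK h ha hti hta zero_le_one fun i hi => (H.ry i (by omega) x hx).d1
    unfold fd; linarith [H.hK.τ0]

theorem WW_ge {a : ℕ} (ha : a < J) (hta : td a) {x : ℝ} (hx : 0 ≤ x) :
    Real.exp (fo (ρ a) a σ x - C) ≤ WW ρ σ u a x ∧ WW ρ σ u a x ≤ Real.exp (fo (ρ a) a σ x + C) := by
  have := abs_le.1 ((Complex.abs_re_le_norm _).trans
    (H.hS.bd a ha hta x (H.hS.Zm a ha (H.ry a ha x hx).mem)))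
  exact ⟨Real.exp_le_exp.2 (by linarith), Real.exp_le_exp.2 (by linarith)⟩

/-- `β ≪ √W` -/
theorem beta_small {a : ℕ} (ha : a < J) (hta : td a) {ε : ℝ} (hε : 0 < ε) :
    ∀ᶠ x in atTop, 1 + fd (ρ a) a σ x ≤ ε * √(WW ρ σ u a x) := by
  obtain ⟨i, hi⟩ := H.hE.pos a ha hta
  filter_upwards [(H.grow (H.hE.rho_nn a) ha.le (H.hE.lt_of_pos hi) hi).eventually
    (ge_mem_nhds (by positivity : 0 < ε * Real.exp (-(C / 2)))), eventually_ge_atTop 0]
    with x h hx
  have h1 : Real.exp (fo (ρ a) a σ x / 2) * Real.exp (-(C / 2)) ≤ √(WW ρ σ u a x) := by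
    refine Real.le_sqrt_of_sq_le (le_trans (le_of_eq ?_) (H.WW_ge ha hta hx).1)
    rw [← Real.exp_add, ← Real.exp_nat_mul]; congr 1; push_cast; ring
  rw [Real.exp_neg, ← div_eq_mul_inv, div_le_iff₀ (Real.exp_pos _)] at h
  nlinarith

/-- `x ≪ √W` -/
theorem x_small {a : ℕ} (ha : a < J) (hta : td a) (P : ℝ) :
    ∀ᶠ x in atTop, P + x ≤ √(WW ρ σ u a x) := by
  obtain ⟨i, hi⟩ := H.hE.pos a ha hta
  have τ0 := H.hK.τ0
  have h := (isLittleO_pow_exp_pos_mul_atTop 2 τ0).bound (c := Real.exp (-C) / 4)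
    (by positivity)
  filter_upwards [h, eventually_ge_atTop |P|] with x h1 h2
  have hx := (abs_nonneg P).trans h2
  have h3 := H.hE.gap0 H.hK ha hta hx (f := fun i => oo σ i x) fun i hi => by
    linarith [(H.ry i (by omega) x hx).grow, H.oo_pos (a := i) (by omega) le_rfl]
  refine Real.le_sqrt_of_sq_le (le_trans ?_ (H.WW_ge ha hta hx).1)
  rw [Real.norm_eq_abs, Real.norm_eq_abs, abs_of_nonneg (by positivity),
    abs_of_pos (Real.exp_pos _)] at h1
  have h4 : Real.exp (-C) * Real.exp (τ * x) ≤ Real.exp (fo (ρ a) a σ x - C) := by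
    rw [← Real.exp_add]; exact Real.exp_le_exp.2 (by unfold fo; linarith)
  have := abs_le.1 h2
  nlinarith

theorem ratio_small {a i : ℕ} (ha : a < J) (hta : td a) (hi : i < a) (hti : td i) {ε : ℝ}
    (hε : 0 < ε) :
    ∀ᶠ x in atTop, WW ρ σ u i x * (1 + fd (ρ a - ρ i) a σ x) ≤ ε * WW ρ σ u a x := by
  obtain ⟨m1, k, hk⟩ := H.hE.inc i a hi ha hti hta
  have hβ : ∀ j, 0 ≤ (ρ a - ρ i) j := fun j => sub_nonneg.2 (m1 j)
  have hka := H.hE.lt_of_pos ((H.hE.rho_nn i k).trans_lt hk)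
  filter_upwards [(H.grow hβ ha.le hka (sub_pos.2 hk)).eventually
    (ge_mem_nhds (by positivity : 0 < ε * Real.exp (-(2 * C)))), eventually_ge_atTop 0,
    (H.fo_top hβ ha.le hka (sub_pos.2 hk)).eventually (eventually_ge_atTop 0)] with x h hx h0
  have e : fo (ρ a - ρ i) a σ x = fo (ρ a) a σ x - fo (ρ i) i σ x := by
    simp only [fo, Pi.sub_apply, sub_mul, sum_sub_distrib, wsum_ext (H.hE.supp i) hi.le]
  rw [Real.exp_neg, ← div_eq_mul_inv, div_le_iff₀ (Real.exp_pos _), mul_assoc,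
    ← Real.exp_add] at h
  have h1 : Real.exp (fo (ρ i) i σ x + C) * Real.exp (-(2 * C) + fo (ρ a - ρ i) a σ x / 2) ≤
      WW ρ σ u a x := by
    rw [← Real.exp_add]
    exact (Real.exp_le_exp.2 (by linarith)).trans (H.WW_ge ha hta hx).1
  have h2 : 0 ≤ 1 + fd (ρ a - ρ i) a σ x := by
    have := H.fd_ge hβ ha.le hka hx
    have := mul_nonneg (hβ k) (zero_le_one.trans (H.ry k (by omega) x hx).d1)
    linarith
  calc _ ≤ Real.exp (fo (ρ i) i σ x + C) *
        (ε * Real.exp (-(2 * C) + fo (ρ a - ρ i) a σ x / 2)) :=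
        mul_le_mul (H.WW_ge (by omega) hti hx).2 h h2 (Real.exp_pos _).le
    _ ≤ _ := by rw [mul_left_comm]; exact mul_le_mul_of_nonneg_left h1 hε.le

end Sit

end Crest.Agent.N207.O.Q
end

-- ▼ part N207/O/Sec3c
section

/-! Row 207, block O (helper76): a tied level with an angle deficit is good. -/

set_option autoImplicit false

namespace Crest.Agent.N207.O.Q

open Set Filter Finset Asymptotics
open scoped Topology

variable {J : ℕ} {td : ℕ → Prop} {ρ cc : ℕ → ℕ → ℝ} {γ C R τ T R1 : ℝ} {p : ℕ → ℝ}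
  {σ u : ℕ → ℂ → ℂ} {Z : ℕ → Set ℂ} {S : Set ℂ}

theorem WW_eq (a : ℕ) (x : ℝ) : WW ρ σ u a x = Real.exp (ph ρ σ u a x).re := by
  simp [WW, ph, lf_re, fo, oo]

theorem WW_pos (a : ℕ) (x : ℝ) : 0 < WW ρ σ u a x := Real.exp_pos _

theorem cos_le_abs (θ : ℝ) : Real.cos θ ≤ |Real.pi / 2 - abs θ| := by
  rw [← Real.cos_abs, ← Real.sin_pi_div_two_sub]
  exact (le_abs_self _).trans Real.abs_sin_le_abs

theorem half_le_cos {θ : ℝ} (h : |θ| ≤ Real.pi / 2) : (Real.pi / 2 - |θ|) / 2 ≤ Real.cos θ := by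
  rw [← Real.cos_abs, ← Real.sin_pi_div_two_sub]
  have h1 := Real.mul_le_sin (x := Real.pi / 2 - |θ|) (by linarith) (by linarith [abs_nonneg θ])
  have h2 : 1 / 2 ≤ 2 / Real.pi := by
    rw [div_le_div_iff₀ two_pos Real.pi_pos]; linarith [Real.pi_le_four]
  nlinarith

namespace Sit

variable (H : Sit J td ρ cc γ C R τ T p σ u Z)
include H

theorem WW_top {a : ℕ} (ha : a < J) (hta : td a) : Tendsto (WW ρ σ u a) atTop atTop := by
  refine tendsto_atTop_mono' _ ((eventually_ge_atTop 0).mono fun x hx => ?_) (H.oo_top ha)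
  have : 0 ≤ fo (cc a) a σ x := sum_nonneg fun i hi => mul_nonneg (H.hE.cc_nn a i)
    (H.oo_pos (by simp at hi; omega) hx).le
  linarith [((H.ry a ha x hx).tied hta).2.2.1]

theorem oo_le_WW {a : ℕ} (ha : a < J) (hta : td a) {x : ℝ} (hx : 0 ≤ x) :
    oo σ a x ≤ WW ρ σ u a x := by
  have : 0 ≤ fo (cc a) a σ x := sum_nonneg fun i hi => mul_nonneg (H.hE.cc_nn a i)
    (H.oo_pos (by simp at hi; omega) hx).le
  linarith [((H.ry a ha x hx).tied hta).2.2.1]

theorem fd_sub_nn {a i : ℕ} (ha : a < J) (hta : td a) (hi : i ≤ a) (hti : td i) {x : ℝ}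
    (hx : 0 ≤ x) : 0 ≤ fd (ρ a - ρ i) a σ x :=
  sum_nonneg fun j hj => mul_nonneg (sub_nonneg.2 (H.le_top ha hta hi hti j))
    (zero_le_one.trans (H.ry j (by simp at hj; omega) x hx).d1)

theorem oo_small {a b : ℕ} (ha : a < J) (hta : td a) (hb : b < a) {ε : ℝ} (hε : 0 < ε) :
    ∀ᶠ x in atTop, oo σ b x ≤ ε * WW ρ σ u a x := by
  have e : ∀ᶠ x in atTop, √(WW ρ σ u a x) ≤ ε / 2 * WW ρ σ u a x := by
    filter_upwards [(Real.tendsto_sqrt_atTop.comp (H.WW_top ha hta)).eventually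
      (eventually_ge_atTop (2 / ε))] with x h
    have h1 := Real.mul_self_sqrt (WW_pos (ρ := ρ) (σ := σ) (u := u) a x).le
    simp only [Function.comp] at h
    rw [div_le_iff₀ hε] at h
    nlinarith [Real.sqrt_nonneg (WW ρ σ u a x)]
  have m : ∀ x : ℝ, 0 ≤ x → (x : ℂ) ∈ Z b := fun x hx =>
    H.hS.Zm b (by omega) (H.ry b (by omega) x hx).mem
  obtain ⟨P, h | ⟨i, hi, hti, h⟩⟩ := H.re_up b (by omega)
  · filter_upwards [e, H.x_small ha hta P, eventually_ge_atTop 0] with x h1 h2 hx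
    have := h x (m x hx)
    simp only [Complex.ofReal_re] at this
    unfold oo; nlinarith [WW_pos (ρ := ρ) (σ := σ) (u := u) a x]
  · filter_upwards [e, H.x_small ha hta P, eventually_ge_atTop 0,
      H.ratio_small ha hta (by omega : i < a) hti (half_pos hε)] with x h1 h2 hx h3
    have := h x (m x hx)
    rw [((H.ry i (by omega) x hx).tied hti).2.2.2.2.2.2.1, Complex.ofReal_re] at this
    have := H.fd_sub_nn ha hta (by omega : i ≤ a) hti hx
    unfold oo; nlinarith [WW_pos (ρ := ρ) (σ := σ) (u := u) i x]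

theorem cc_small {a : ℕ} (ha : a < J) (hta : td a) (g : ∀ b < a, Gd td ρ σ u S b) :
    ∀ᶠ s in FS S, ‖lf (cc a) a σ s‖ ≤ Real.exp (-4) * WW ρ σ u a s.re := by
  have T0 := H.hK.T0
  have e : ∀ b ∈ range a, ∀ᶠ s in FS S,
      ‖σ b s‖ ≤ Real.exp (-4) / (T * J + 1) * WW ρ σ u a s.re := by
    intro b hb
    have hb : b < a := by simpa using hb
    obtain ⟨B, B1, h⟩ := (g b hb).nb
    filter_upwards [h, re_FS.eventually (H.oo_small ha hta hb
      (by positivity : 0 < Real.exp (-4) / (T * J + 1) / B))] with s h1 h2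
    refine h1.trans ((mul_le_mul_of_nonneg_left h2 (by linarith)).trans (le_of_eq ?_))
    field_simp
  filter_upwards [(eventually_all_finset _).2 e] with s h
  have W0 := WW_pos (ρ := ρ) (σ := σ) (u := u) a s.re
  refine (lf_sub_le ha.le T0 (H.hE.cc_nn a) (fun i hi => (H.hK.k1 a ha i (by omega)).2)
    (by positivity) fun i hi => h i (by simpa)).trans ?_
  rw [div_mul_eq_mul_div, mul_div_assoc', div_le_iff₀ (by positivity)]
  nlinarith [mul_pos (Real.exp_pos (-4)) W0]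

theorem ph_bd (hS : Star S) {a i n : ℕ} (ha : a < J) (hta : td a) (hi : i ≤ a) (hti : td i)
    (hn : n ≤ J) (hs : ∀ j, n ≤ j → ρ a j = 0) (hE : ∀ b < n, Eq1 σ S b)
    (g : ∀ b < n, Gd td ρ σ u S b) (g' : ∀ b < a, Gd td ρ σ u S b)
    (hY : ∀ᶠ s in FS S, |s.im| * fd (ρ a) a σ s.re ≤ 4) : ∀ᶠ s in FS S,
      |(ph ρ σ u i s).im| ≤ 2 * (|s.im| * fd (ρ i) i σ s.re) ∧
      Real.exp (-4) * WW ρ σ u i s.re ≤ Real.exp (ph ρ σ u i s).re ∧
      Real.exp (ph ρ σ u i s).re ≤ Real.exp 4 * WW ρ σ u i s.re := by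
  filter_upwards [H.ph_mv hS (by omega) hti hn (fun j hj => le_antisymm
    (hs j hj ▸ H.le_top ha hta hi hti j) (H.hE.rho_nn i j)) hE g (fun b hb => g' b (by omega))
    one_pos, hY, pos_FS] with s h1 h2 h0
  have h3 := mul_le_mul_of_nonneg_left (H.fd_mono ha hta hi hti h0) (abs_nonneg s.im)
  have h4 := (H.hK.τ0.trans_le (H.fd_tau (by omega) hti h0)).le
  have h5 := abs_le.1 h1.2
  rw [WW_eq, ← Real.exp_add, ← Real.exp_add]
  refine ⟨?_, Real.exp_le_exp.2 (by linarith), Real.exp_le_exp.2 (by linarith)⟩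
  have := abs_sub_abs_le_abs_sub (ph ρ σ u i s).im (s.im * fd (ρ i) i σ s.re)
  rw [abs_mul, abs_of_nonneg h4] at this
  linarith [h1.1]

theorem good_tied (hS : Star S) {a n : ℕ} (ha : a < J) (hta : td a) (hn : n ≤ J)
    (hs : ∀ j, n ≤ j → ρ a j = 0) (hE : ∀ b < n, Eq1 σ S b) (g : ∀ b < n, Gd td ρ σ u S b)
    (g' : ∀ b < a, Gd td ρ σ u S b) (hY : ∀ᶠ s in FS S, |s.im| * fd (ρ a) a σ s.re ≤ 4)
    {g0 : ℝ} (hg0 : 0 < g0)
    (hdef : ∀ᶠ s in FS S, g0 * |s.im| ≤ Real.pi / 2 - |(ph ρ σ u a s).im|) :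
    Gd td ρ σ u S a := by
  have τ0 := H.hK.τ0
  have T0 := H.hK.T0
  have pb := H.ph_bd hS ha hta le_rfl hta hn hs hE g g' hY
  have K0 : ∀ᶠ s in FS S, min τ g0 / 2 ≤ (Real.pi / 2 - |(ph ρ σ u a s).im|) * fd (ρ a) a σ s.re ∧
      0 < Real.pi / 2 - |(ph ρ σ u a s).im| := by
    filter_upwards [pb, hdef, pos_FS] with s h1 h2 h0
    have h3 := H.fd_tau ha hta h0
    have m1 := min_le_left τ g0
    have m2 := min_le_right τ g0
    have h4 : min τ g0 / 2 ≤ (Real.pi / 2 - |(ph ρ σ u a s).im|) * fd (ρ a) a σ s.re := by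
      rcases le_total (|s.im| * fd (ρ a) a σ s.re) (1 / 2) with h | h
      · nlinarith [Real.pi_gt_three, h1.1]
      · nlinarith
    exact ⟨h4, (pos_iff_pos_of_mul_pos ((half_pos (lt_min τ0 hg0)).trans_le h4)).2 (by linarith)⟩
  have K1 : ∀ ε : ℝ, 0 < ε → ∀ᶠ s in FS S, √(WW ρ σ u a s.re) ≤
      ε * ((Real.pi / 2 - |(ph ρ σ u a s).im|) * WW ρ σ u a s.re) := by
    intro ε hε
    have m0 := lt_min τ0 hg0
    filter_upwards [K0, re_FS.eventually (H.beta_small ha hta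
      (by positivity : 0 < min τ g0 / 2 * ε))] with s h1 h2
    have h3 := Real.mul_self_sqrt (WW_pos (ρ := ρ) (σ := σ) (u := u) a s.re).le
    have h4 := Real.sqrt_nonneg (WW ρ σ u a s.re)
    have h5 : min τ g0 / 2 * 1 ≤ min τ g0 / 2 *
        (ε * ((Real.pi / 2 - |(ph ρ σ u a s).im|) * √(WW ρ σ u a s.re))) := by nlinarith [h1.1, h1.2]
    have h6 := mul_le_mul_of_nonneg_right (le_of_mul_le_mul_left h5 (by positivity)) h4
    rwa [one_mul, mul_assoc, mul_assoc, h3] at h6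
  have K2 : ∀ ε : ℝ, 0 < ε → ∀ b ∈ range a, ∀ᶠ s in FS S, (σ b s).re ≤
      ε * ((Real.pi / 2 - |(ph ρ σ u a s).im|) * WW ρ σ u a s.re) := by
    intro ε hε b hb
    have hb : b < a := by simpa using hb
    have m := H.mem hS (n := b) (by omega) fun i hi => g' i (by omega)
    obtain ⟨P, h | ⟨i, hi, hti, h⟩⟩ := H.re_up b (by omega)
    · filter_upwards [m, K1 ε hε, re_FS.eventually (H.x_small ha hta P)] with s h1 h2 h3
      linarith [h s h1]
    · filter_upwards [m, K1 _ (half_pos hε), re_FS.eventually (H.x_small ha hta P), pos_FS, K0,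
        hdef, H.ph_bd hS ha hta (by omega : i ≤ a) hti hn hs hE g g' hY,
        H.dif_mv hS ha hta (by omega : i < a) hti hn hs hE g (fun b hb => g' b (by omega))
          (H.u_dif hS ha hta g') (H.ud_zero hS ha hta g')
          (fun x hx => ((H.ry a ha x hx).tied hta).2.2.2.2.2.2.2) one_pos,
        re_FS.eventually (H.ratio_small ha hta (by omega : i < a) hti
          (by positivity : 0 < ε / 2 / (Real.exp 4 * (1 + 2 / g0))))]
        with s h1 h2 h3 h0 h4 h5 h6 h7 h8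
      set δ := Real.pi / 2 - |(ph ρ σ u a s).im| with hδ
      set α := fd (ρ a - ρ i) a σ s.re with hα
      have α0 : 0 ≤ α := τ0.le.trans h7.2
      have c1 : |(ph ρ σ u a s).im - (ph ρ σ u i s).im| ≤ 2 * (α * |s.im|) := by
        have := abs_sub_abs_le_abs_sub ((ph ρ σ u a s).im - (ph ρ σ u i s).im) (s.im * α)
        rw [abs_mul, abs_of_nonneg α0] at this
        have h9 : |(ph ρ σ u a s).im - (ph ρ σ u i s).im - s.im * α| ≤ 1 * α * |s.im| := h7.1
        linarith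
      have c2 : |s.im| ≤ δ / g0 := by rw [le_div_iff₀ hg0]; linarith
      have c3 : Real.cos (ph ρ σ u i s).im ≤ (1 + 2 / g0) * δ * (1 + α) := by
        refine (cos_le_abs _).trans ?_
        have d1 := abs_abs_sub_abs_le_abs_sub (ph ρ σ u a s).im (ph ρ σ u i s).im
        have d2 := abs_add_le δ (|(ph ρ σ u a s).im| - |(ph ρ σ u i s).im|)
        rw [abs_of_pos h4.2, hδ, sub_add_sub_cancel, ← hδ] at d2
        have d3 := mul_le_mul_of_nonneg_left c2 α0
        have d4 : (1 + 2 / g0) * δ * (1 + α) = δ + 2 * (α * (δ / g0)) + (δ * α + 2 * (δ / g0)) := by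
          ring
        have d5 : 0 ≤ δ * α + 2 * (δ / g0) := by have := h4.2; positivity
        linarith
      have c4 : (Complex.exp (ph ρ σ u i s)).re ≤
          Real.exp 4 * WW ρ σ u i s.re * ((1 + 2 / g0) * δ * (1 + α)) := by
        rw [Complex.exp_re]
        exact (mul_le_mul_of_nonneg_left c3 (Real.exp_pos _).le).trans
          (mul_le_mul_of_nonneg_right h6.2.2 (by have := h4.2; positivity))
      have c5 := mul_le_mul_of_nonneg_left h8
        (by have := h4.2; positivity : 0 ≤ Real.exp 4 * (1 + 2 / g0) * δ)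
      have c6 : Real.exp 4 * (1 + 2 / g0) * δ * (ε / 2 / (Real.exp 4 * (1 + 2 / g0)) *
          WW ρ σ u a s.re) = ε / 2 * (δ * WW ρ σ u a s.re) := by field_simp
      have := h s h1
      linarith
  have K3 : ∀ᶠ s in FS S, Real.exp (-4) / 4 *
      ((Real.pi / 2 - |(ph ρ σ u a s).im|) * WW ρ σ u a s.re) ≤ (σ a s).re := by
    filter_upwards [H.mem hS ha.le g', K0, pb, (eventually_all_finset _).2
      (K2 _ (by positivity : 0 < Real.exp (-4) / 4 / (T * J + 1)))] with s h1 h2 h3 h4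
    set D := (Real.pi / 2 - |(ph ρ σ u a s).im|) * WW ρ σ u a s.re with hD
    have D0 : 0 < D := mul_pos h2.2 (WW_pos _ _)
    rw [H.hS.tied a ha hta s h1, Complex.sub_re, Complex.exp_re]
    have c1 := mul_le_mul h3.2.1 (half_le_cos (θ := (ph ρ σ u a s).im) (by linarith [h2.2]))
      (by linarith [h2.2])
      (Real.exp_pos _).le
    have c2 := ((Complex.re_le_norm _).trans (lf_sub_le (f := fun i => ((σ i s).re : ℂ)) ha.le T0
      (H.hE.cc_nn a) (fun i hi => (H.hK.k1 a ha i (by omega)).2)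
      (M := Real.exp (-4) / 4 / (T * J + 1) * D) (by positivity) fun i hi => by
        rw [Complex.norm_real, Real.norm_eq_abs, abs_of_pos (H.hS.re_pos hi ha.le h1)]
        exact h4 i (by simpa)))
    have c3 : T * J * (Real.exp (-4) / 4 / (T * J + 1) * D) ≤ Real.exp (-4) / 4 * D := by
      rw [div_mul_eq_mul_div _ _ D, mul_div_assoc', div_le_iff₀ (by positivity)]
      nlinarith [mul_pos (Real.exp_pos (-4)) D0]
    have c4 : (lf (cc a) a σ s).re = (∑ i ∈ range a, (cc a i : ℂ) * ((σ i s).re : ℂ)).re := by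
      simp [lf_re]
    have c5 : Real.exp (-4) * WW ρ σ u a s.re * ((Real.pi / 2 - |(ph ρ σ u a s).im|) / 2) =
        Real.exp (-4) / 2 * D := by rw [hD]; ring
    rw [c4]
    linarith
  refine ⟨fun r => ?_, ⟨2 * (Real.exp 4 + 1), by linarith [Real.exp_pos 4], ?_⟩,
    fun _ => K0.mono fun s h => by linarith [h.2]⟩
  · filter_upwards [K3, K1 _ (by positivity : 0 < Real.exp (-4) / 4 / (|r| + 1)), pos_FS]
      with s h1 h2 h0
    have c1 := Real.sqrt_le_sqrt (H.oo_le_WW ha hta h0)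
    have c2 := mul_le_mul_of_nonneg_left h2 (by positivity : 0 ≤ |r| + 1)
    rw [← mul_assoc, mul_div_cancel₀ _ (by positivity)] at c2
    nlinarith [Real.sqrt_nonneg (oo σ a s.re), le_abs_self r, abs_nonneg r]
  · filter_upwards [H.mem hS ha.le g', pb, H.cc_small ha hta g', pos_FS] with s h1 h2 h3 h0
    rw [H.hS.tied a ha hta s h1]
    refine (norm_sub_le _ _).trans ?_
    rw [Complex.norm_exp]
    have c1 := (H.ry a ha _ h0).nc hta
    have c2 : Real.exp (-4) ≤ 1 := Real.exp_le_one_iff.2 (by norm_num)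
    nlinarith [WW_pos (ρ := ρ) (σ := σ) (u := u) a s.re, Real.exp_pos 4, h2.2.2]

end Sit

end Crest.Agent.N207.O.Q
end

-- ▼ part N207/O/Sec4
section

/-! Row 207, block O (helper76): the region of the Phragmén–Lindelöf argument. -/

set_option autoImplicit false

namespace Crest.Agent.N207.O.Q

open Set Filter Finset Asymptotics
open scoped Topology

variable {J : ℕ} {td : ℕ → Prop} {ρ cc : ℕ → ℕ → ℝ} {γ C R τ T R1 : ℝ} {p : ℕ → ℝ}
  {σ u : ℕ → ℂ → ℂ} {Z : ℕ → Set ℂ} {S : Set ℂ}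

/-- the strip on which the top argument turns by at most `4` -/
def VV (ρ : ℕ → ℕ → ℝ) (σ : ℕ → ℂ → ℂ) (j : ℕ) : Set ℂ := {s | |s.im| * fd (ρ j) j σ s.re ≤ 4}

theorem star_VV (j : ℕ) : Star (VV ρ σ j) := by
  intro s hs t ht
  have hs : |s.im| * fd (ρ j) j σ s.re ≤ 4 := hs
  show |(vs s t).im| * fd (ρ j) j σ (vs s t).re ≤ 4
  rw [vs_im, vs_re, abs_mul, abs_of_nonneg ht.1, mul_assoc]
  nlinarith [ht.1, ht.2]

/-- the closed region -/
def SS (ρ : ℕ → ℕ → ℝ) (σ : ℕ → ℂ → ℂ) (j : ℕ) (τ X : ℝ) : Set ℂ :=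
  {s | s ∈ VV ρ σ j ∧ X ≤ s.re ∧ |(lf (ρ j) j σ s).im| ≤ Real.pi / 2 + τ / 16 * |s.im|}

namespace Sit

variable (H : Sit J td ρ cc γ C R τ T p σ u Z)
include H

theorem good_free (hS : Star S) (htr : Trk J td p σ Z) {a : ℕ} (ha : a < J) (hta : ¬ td a)
    (g : ∀ b < a, Gd td ρ σ u S b) {B0 : ℝ} (hb : ∀ᶠ s in FS S, |s.im| ≤ B0) :
    Gd td ρ σ u S a ∧ ((∀ b < a, Eq1 σ S b) → Eq1 σ S a) := by
  rcases a with _ | m
  · have h1 : ∀ s ∈ Z 0, σ 0 s = p 0 + s := by
      rcases H.hS.free 0 ha hta with h | ⟨m, hm, -⟩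
      · exact h
      · omega
    have h2 : ∀ s, s ∈ Z 0 := fun s => by simp [H.hS.Z0]
    have h3 : ∀ s : ℂ, oo σ 0 s.re = (σ 0 s).re := fun s => by simp [oo, h1 _ (h2 _)]
    refine ⟨⟨fun r => ?_, ⟨2, one_le_two, ?_⟩, fun h => absurd h hta⟩, fun _ ε hε => ?_⟩
    · filter_upwards [re_FS.eventually ((H.oo_top ha).eventually (ev_pw |r|))] with s h
      rw [← h3]
      nlinarith [Real.sqrt_nonneg (oo σ 0 s.re), le_abs_self r, abs_nonneg r]
    · filter_upwards [hb, re_FS.eventually ((H.oo_top ha).eventually (eventually_ge_atTop B0)),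
        pos_FS] with s b1 b2 b3
      have := Complex.norm_le_abs_re_add_abs_im (σ 0 s)
      rw [← h3, abs_of_pos (H.oo_pos ha b3)] at this
      have e : (σ 0 s).im = s.im := by simp [h1 _ (h2 _)]
      rw [e] at this; linarith
    · refine Eventually.of_forall fun s => ?_
      simp [dd, H.hS.free_deriv1 ha (h2 _) h1, hε.le]
  · obtain ⟨p0, h1⟩ := htr m ha hta
    have m0 : ∀ x : ℝ, 0 ≤ x → (x : ℂ) ∈ Z (m + 1) := fun x hx => (H.ry m (by omega) x hx).mem
    have h3 : ∀ x : ℝ, 0 ≤ x → oo σ (m + 1) x = p (m + 1) + oo σ m x := fun x hx => by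
      simp [oo, h1 _ (m0 x hx)]
    have mem := H.mem hS ha.le g
    refine ⟨⟨fun r => ?_, ?_, fun h => absurd h hta⟩, fun E ε hε => ?_⟩
    · filter_upwards [mem, pos_FS, (g m (by omega)).lo (2 * |r|), re_FS.eventually
        ((H.oo_top (a := m) (by omega)).eventually (eventually_ge_atTop (p (m + 1))))]
        with s b1 b2 b3 b4
      have b5 : √(oo σ (m + 1) s.re) ≤ 2 * √(oo σ m s.re) := by
        rw [h3 _ b2]
        refine Real.sqrt_le_iff.2 ⟨by positivity, ?_⟩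
        rw [mul_pow, Real.sq_sqrt (by linarith)]; linarith
      rw [h1 s b1, Complex.add_re, Complex.ofReal_re]
      nlinarith [Real.sqrt_nonneg (oo σ (m + 1) s.re), le_abs_self r, abs_nonneg r]
    · obtain ⟨B, B1, hB⟩ := (g m (by omega)).nb
      refine ⟨B, B1, ?_⟩
      filter_upwards [mem, pos_FS, hB] with s b1 b2 b3
      rw [h1 s b1, h3 _ b2]
      refine (norm_add_le _ _).trans ?_
      rw [Complex.norm_real, Real.norm_eq_abs, abs_of_nonneg p0]
      nlinarith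
    · filter_upwards [mem, pos_FS, E m (by omega) ε hε] with s b1 b2 b3
      rwa [dd, H.hS.free_deriv2 ha b1 h1, H.hS.free_deriv2 ha (m0 _ b2) h1]

theorem eq1_tied (hS : Star S) {a : ℕ} (ha : a < J) (hta : td a) (g : ∀ b < a, Gd td ρ σ u S b)
    (hE : ∀ b < a, Eq1 σ S b)
    (h0 : Tendsto (fun s : ℂ => |s.im| * fd (ρ a) a σ s.re) (FS S) (𝓝 0)) : Eq1 σ S a := by
  intro ε hε
  have τ0 := H.hK.τ0
  set e := min ε 1 / 41 with he
  have e0 : 0 < e := by positivity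
  have e1 : e ≤ 1 / 41 := by linarith [min_le_right ε 1]
  have e2 : 41 * e ≤ ε := by linarith [min_le_left ε 1]
  have ud := (tendsto_zero_iff_norm_tendsto_zero.1 (H.ud_zero hS ha hta g)).eventually
    (ge_mem_nhds (mul_pos e0 τ0))
  filter_upwards [H.mem hS ha.le g, pos_FS, ud, hS.ev ud, lfe (H.hE.rho_nn a) hE e0,
    lfe (H.hE.cc_nn a) hE e0, H.ph_mv hS ha hta ha.le (H.hE.supp a) hE g g one_pos,
    h0.eventually (ge_mem_nhds (by positivity : 0 < e / 3))] with s b1 b2 b3 b4 b5 b6 b7 b8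
  have b4 := b4 0 (by simp)
  rw [vs_zero] at b4
  obtain ⟨t1, t2, -, t3, -, t4, t5, t6⟩ := (H.ry a ha _ b2).tied hta
  have fτ := H.fd_tau ha hta b2
  set W := WW ρ σ u a s.re
  set b := bb ρ σ u a s.re with hb
  set β := fd (ρ a) a σ s.re
  have W0 : 0 < W := WW_pos _ _
  have c0 := abs_le.1 ((Complex.abs_re_le_norm _).trans t1)
  have c1 : β ≤ 2 * b := by rw [hb, bb] at t3 ⊢; linarith
  set φ' := ∑ i ∈ range a, (ρ a i : ℂ) * deriv (σ i) s + deriv (u a) s with hφ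
  have c2 : ‖φ' - b‖ ≤ 6 * e * b := by
    have : φ' - b = (∑ i ∈ range a, (ρ a i : ℂ) * deriv (σ i) s - β) + deriv (u a) s -
        ((deriv (u a) s.re).re : ℝ) := by rw [hφ, hb, bb]; push_cast; ring
    rw [this]
    refine (norm_sub_le _ _).trans ((add_le_add (norm_add_le _ _) le_rfl).trans ?_)
    rw [Complex.norm_real, Real.norm_eq_abs]
    nlinarith [(Complex.abs_re_le_norm _).trans b4]
  have c3 : ‖φ'‖ ≤ 7 * b := by
    have := norm_le_insert' φ' b
    rw [Complex.norm_real, Real.norm_eq_abs, abs_of_pos (by linarith)] at this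
    nlinarith
  have c4 : ‖ph ρ σ u a s - ph ρ σ u a s.re‖ ≤ e := by
    refine (Complex.norm_le_abs_re_add_abs_im _).trans ?_
    rw [Complex.sub_re, Complex.sub_im, t6, sub_zero]
    have := abs_sub_abs_le_abs_sub (ph ρ σ u a s).im (s.im * β)
    rw [abs_mul, abs_of_nonneg (by linarith : 0 ≤ β)] at this
    linarith [b7.1, b7.2]
  have c5 : ‖Complex.exp (ph ρ σ u a s) - W‖ ≤ W * (2 * e) := by
    have : Complex.exp (ph ρ σ u a s) - W =
        W * (Complex.exp (ph ρ σ u a s - ph ρ σ u a s.re) - 1) := by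
      rw [← t5, mul_sub, ← Complex.exp_add]; simp
    rw [this, norm_mul, Complex.norm_real, Real.norm_eq_abs, abs_of_pos W0]
    exact mul_le_mul_of_nonneg_left ((Complex.norm_exp_sub_one_le (by linarith)).trans
      (by linarith)) W0.le
  have c6 : deriv (σ a) s - dd σ a s.re = (Complex.exp (ph ρ σ u a s) - W) * φ' + W * (φ' - b) -
      (∑ i ∈ range a, (cc a i : ℂ) * deriv (σ i) s - fd (cc a) a σ s.re) := by
    rw [H.hS.tied_deriv ha hta b1, t2]; push_cast; ring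
  rw [c6]
  refine (norm_sub_le _ _).trans ((add_le_add (norm_add_le _ _) le_rfl).trans ?_)
  rw [norm_mul, norm_mul, Complex.norm_real, Real.norm_eq_abs, abs_of_pos W0]
  have c7 := mul_le_mul c5 c3 (norm_nonneg _) (by positivity)
  have c8 := mul_le_mul_of_nonneg_left c2 W0.le
  have c9 : W * b ≤ 2 * dd σ a s.re := by linarith
  have d1 := (H.ry a ha _ b2).d1
  have d2 : fd (cc a) a σ s.re ≤ dd σ a s.re := by linarith
  nlinarith [mul_le_mul_of_nonneg_left c9 e0.le, mul_le_mul_of_nonneg_left d2 e0.le]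

theorem im_bd {j : ℕ} (hj : j < J) (htj : td j) (h : S ⊆ VV ρ σ j) :
    ∀ᶠ s in FS S, |s.im| ≤ 4 / τ := by
  filter_upwards [mem_FS, pos_FS] with s h1 h2
  have h3 : |s.im| * fd (ρ j) j σ s.re ≤ 4 := h h1
  rw [le_div_iff₀ H.hK.τ0]
  nlinarith [H.fd_tau hj htj h2, abs_nonneg s.im]

theorem hY {j a : ℕ} (hj : j < J) (htj : td j) (ha : a ≤ j) (hta : td a) (h : S ⊆ VV ρ σ j) :
    ∀ᶠ s in FS S, |s.im| * fd (ρ a) a σ s.re ≤ 4 := by
  filter_upwards [mem_FS, pos_FS] with s h1 h2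
  exact (mul_le_mul_of_nonneg_left (H.fd_mono hj htj ha hta h2) (abs_nonneg _)).trans (h h1)

theorem low (htr : Trk J td p σ Z) {j κ : ℕ} (hj : j < J) (htj : td j) (hκ : 0 < ρ j κ) :
    ∀ a ≤ κ, Gd td ρ σ u (VV ρ σ j) a ∧ Eq1 σ (VV ρ σ j) a := by
  have κj := H.hE.lt_of_pos hκ
  have τ0 := H.hK.τ0
  have hS := star_VV (ρ := ρ) (σ := σ) j
  intro a
  induction a using Nat.strong_induction_on with
  | _ a ih =>
  intro ha
  have g := fun b (hb : b < a) => (ih b hb (by omega)).1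
  have hE := fun b (hb : b < a) => (ih b hb (by omega)).2
  by_cases hta : td a
  swap
  · have := H.good_free hS htr (by omega) hta g (H.im_bd hj htj Subset.rfl)
    exact ⟨this.1, this.2 hE⟩
  have aJ : a < J := by omega
  have hY := H.hY hj htj (by omega : a ≤ j) hta Subset.rfl
  have h0 : Tendsto (fun s : ℂ => |s.im| * fd (ρ a) a σ s.re) (FS (VV ρ σ j)) (𝓝 0) := by
    have t := (tendsto_inv_atTop_zero.comp ((H.WW_top aJ hta).comp
      (re_FS (S := VV ρ σ j)))).const_mul (16 / τ)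
    rw [mul_zero] at t
    refine squeeze_zero' ?_ ?_ t
    · filter_upwards [pos_FS] with s hs
      exact mul_nonneg (abs_nonneg _) (τ0.le.trans (H.fd_tau aJ hta hs))
    · filter_upwards [pos_FS, mem_FS] with s hs h1
      have h1 : |s.im| * fd (ρ j) j σ s.re ≤ 4 := h1
      obtain ⟨t1, t2, -, t3, -, t4, -⟩ := (H.ry a aJ _ hs).tied hta
      have W0 : 0 < WW ρ σ u a s.re := WW_pos _ _
      have c0 := abs_le.1 ((Complex.abs_re_le_norm _).trans t1)
      have c1 : fd (ρ a) a σ s.re ≤ 2 * bb ρ σ u a s.re := by rw [bb] at t3 ⊢; linarith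
      have c2 := ((H.ry κ (by omega) _ hs).ord a ha).2
      have c3 := H.fd_ge (H.hE.rho_nn j) hj.le κj hs
      have c4 := H.hK.k2 j hj κ hκ
      have c5 := (H.ry κ (by omega) _ hs).d1
      have c6 : τ * dd σ κ s.re ≤ fd (ρ j) j σ s.re := by nlinarith
      have c7 : fd (ρ a) a σ s.re * WW ρ σ u a s.re ≤ 4 * dd σ κ s.re := by nlinarith
      simp only [Function.comp]
      rw [← div_eq_mul_inv, le_div_iff₀ W0, le_div_iff₀ τ0, mul_assoc]
      nlinarith [abs_nonneg s.im, mul_le_mul_of_nonneg_left c7 (abs_nonneg s.im),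
        mul_le_mul_of_nonneg_left c6 (abs_nonneg s.im)]
  refine ⟨H.good_tied hS aJ hta aJ.le (H.hE.supp a) hE g g hY (by positivity : 0 < τ / 4) ?_,
    H.eq1_tied hS aJ hta g hE h0⟩
  filter_upwards [H.ph_bd hS aJ hta le_rfl hta aJ.le (H.hE.supp a) hE g g hY,
    h0.eventually (ge_mem_nhds (by norm_num : (0 : ℝ) < 1 / 4)), H.im_bd hj htj Subset.rfl]
    with s h1 h2 h3
  rw [le_div_iff₀ τ0] at h3
  linarith [Real.pi_gt_three, h1.1]

theorem region (htr : Trk J td p σ Z) {j : ℕ} (hj : j < J) (htj : td j) : ∃ X : ℝ, 0 ≤ X ∧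
    Star (SS ρ σ j τ X) ∧ (∀ b < j, Gd td ρ σ u (SS ρ σ j τ X) b) ∧
    (∀ s ∈ VV ρ σ j, X ≤ s.re → DifferentiableAt ℂ (lf (ρ j) j σ) s ∧
      |(lf (ρ j) j σ s).im - s.im * fd (ρ j) j σ s.re| ≤ 1 / 8 * fd (ρ j) j σ s.re * |s.im|) ∧
    ∀ᶠ s in FS (SS ρ σ j τ X), Real.exp (-4) * WW ρ σ u j s.re ≤ Real.exp (ph ρ σ u j s).re := by
  have τ0 := H.hK.τ0
  obtain ⟨κ, hκ, hs⟩ : ∃ κ, 0 < ρ j κ ∧ ∀ i, κ + 1 ≤ i → ρ j i = 0 := by
    classical
    obtain ⟨i, hi⟩ := H.hE.pos j hj htj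
    refine ⟨Nat.findGreatest (fun i => 0 < ρ j i) j,
      Nat.findGreatest_spec (P := fun i => 0 < ρ j i) (H.hE.lt_of_pos hi).le hi, fun i h => ?_⟩
    rcases le_total i j with h1 | h1
    · exact le_antisymm (not_lt.1 (Nat.findGreatest_is_greatest (P := fun i => 0 < ρ j i) h h1))
        (H.hE.rho_nn j i)
    · exact H.hE.supp j i h1
  have κj := H.hE.lt_of_pos hκ
  have hV := star_VV (ρ := ρ) (σ := σ) j
  have gV := fun b (hb : b < κ + 1) => (H.low htr hj htj hκ b (by omega)).1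
  have EV := fun b (hb : b < κ + 1) => (H.low htr hj htj hκ b (by omega)).2
  have e1 : lf (ρ j) j σ = lf (ρ j) (κ + 1) σ := lf_ext' (H.hE.supp j) hs
  have e2 : ∀ x, fd (ρ j) j σ x = fd (ρ j) (κ + 1) σ x := fd_ext' (H.hE.supp j) hs
  have im0 : ∀ x : ℝ, 0 ≤ x → (lf (ρ j) j σ x).im = 0 := fun x hx => by
    rw [lf_im]; exact sum_eq_zero fun i hi => by rw [(H.ry i (by simp at hi; omega) x hx).im, mul_zero]
  have ev : ∀ᶠ s in FS (VV ρ σ j), 0 ≤ s.re ∧ DifferentiableAt ℂ (lf (ρ j) j σ) s ∧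
      τ / 2 ≤ (deriv (lf (ρ j) j σ) s).re ∧
      |(lf (ρ j) j σ s).im - s.im * fd (ρ j) j σ s.re| ≤ 1 / 8 * fd (ρ j) j σ s.re * |s.im| := by
    filter_upwards [pos_FS, H.mem hV (n := κ + 1) (by omega) gV, lfe (H.hE.rho_nn j) EV one_half_pos,
      H.mva hV (H.hE.rho_nn j) (n := κ + 1) (by omega) (Nat.lt_succ_self κ) (H.hK.k2 j hj κ hκ) EV gV
        (v := fun _ => 0) (by simp) (by simpa using tendsto_const_nhds) (by norm_num : (0 : ℝ) < 1 / 8)] with s h0 h1 h2 h3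
    have d := lf_hasDerivAt (ρ := ρ j) fun b (hb : b < κ + 1) =>
      H.hS.dAt hb.le (by omega) (by omega) h1
    rw [← e1] at d h3
    rw [← e2] at h2 h3
    refine ⟨h0, d.differentiableAt, ?_, ?_⟩
    · rw [d.deriv]
      have := (abs_le.1 ((Complex.abs_re_le_norm _).trans h2)).1
      rw [Complex.sub_re, Complex.ofReal_re] at this
      linarith [H.fd_tau hj htj h0]
    · have := (im_le_of h3).1
      simpa [im0 _ h0] using this
  obtain ⟨X, hX⟩ := ev_FS.1 ev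
  have hS : Star (SS ρ σ j τ (max X 0)) := by
    rintro s ⟨h1, h2, h3⟩ t ht
    refine ⟨hV s h1 t ht, by simpa using h2, ?_⟩
    have hv := fun r (hr : r ∈ Icc (0 : ℝ) 1) => hX (vs s r) (hV s h1 r hr)
      (by rw [vs_re]; exact (le_max_left _ _).trans h2)
    rcases eq_or_ne s.im 0 with h0 | h0
    · have : vs s t = s := by apply Complex.ext <;> simp [h0]
      rwa [this]
    have sg : ∀ r ∈ Icc (0 : ℝ) 1, s.im * (lf (ρ j) j σ (vs s r)).im =
        |s.im| * |(lf (ρ j) j σ (vs s r)).im| := fun r hr => by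
      rw [← abs_mul, abs_of_nonneg]
      obtain ⟨a1, -, -, a2⟩ := hv r hr
      have a3 := τ0.le.trans (H.fd_tau hj htj a1)
      simp only [vs_re, vs_im, abs_mul, abs_of_nonneg hr.1] at a2 a3
      have a4 := mul_nonneg hr.1 a3
      rcases le_total 0 s.im with h | h
      · rw [abs_of_nonneg h] at a2
        exact mul_nonneg h (by nlinarith [(abs_le.1 a2).1])
      · rw [abs_of_nonpos h] at a2
        exact mul_nonneg_of_nonpos_of_nonpos h (by nlinarith [(abs_le.1 a2).2])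
    have der : ∀ r ∈ Icc (0 : ℝ) 1, HasDerivAt
        (fun r : ℝ => s.im * (lf (ρ j) j σ (vs s r)).im - τ / 16 * s.im ^ 2 * r)
        (s.im ^ 2 * ((deriv (lf (ρ j) j σ) (vs s r)).re - τ / 16)) r := fun r hr => by
      have a1 : HasDerivAt (fun z : ℂ => (s.re : ℂ) + z * s.im * Complex.I) (s.im * Complex.I) r := by
        simpa using (((hasDerivAt_id (r : ℂ)).mul_const (s.im : ℂ)).mul_const Complex.I).const_add
          (s.re : ℂ)
      have a2 := ((hv r hr).2.1.hasDerivAt.comp (r : ℂ) a1).comp_ofReal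
      have a3 : HasDerivAt (fun r : ℝ => (lf (ρ j) j σ (vs s r)).im) _ r :=
        Complex.imCLM.hasFDerivAt.comp_hasDerivAt r a2
      refine ((a3.const_mul s.im).sub ((hasDerivAt_id r).const_mul _)).congr_deriv ?_
      simp; ring
    have mono := monotoneOn_of_deriv_nonneg (convex_Icc (0 : ℝ) 1)
      (fun r hr => (der r hr).continuousAt.continuousWithinAt)
      (fun r hr => (der r (interior_subset hr)).differentiableAt.differentiableWithinAt)
      (fun r hr => by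
        rw [(der r (interior_subset hr)).deriv]
        exact mul_nonneg (sq_nonneg _) (by linarith [(hv r (interior_subset hr)).2.2.1]))
      ht (by simp : (1 : ℝ) ∈ Icc (0 : ℝ) 1) ht.2
    have sg1 := sg 1 (by simp)
    rw [vs_one] at sg1
    simp only [sg t ht, vs_one, sg1] at mono
    rw [vs_im, abs_mul, abs_of_nonneg ht.1]
    rw [← sq_abs s.im] at mono
    have y0 := abs_pos.2 h0
    exact le_of_mul_le_mul_left (by nlinarith) y0
  have sV : SS ρ σ j τ (max X 0) ⊆ VV ρ σ j := fun s hs => hs.1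
  have gS := fun b hb => (gV b hb).mono sV
  have ES := fun b hb => (EV b hb).mono sV
  have all : ∀ b < j, Gd td ρ σ u (SS ρ σ j τ (max X 0)) b := by
    intro i
    induction i using Nat.strong_induction_on with
    | _ i ih =>
    intro hi
    have g := fun b (hb : b < i) => ih b hb (by omega)
    by_cases hti : td i
    swap
    · exact (H.good_free hS htr (by omega) hti g (H.im_bd hj htj sV)).1
    have hs' : ∀ k, κ + 1 ≤ k → ρ i k = 0 := fun k hk =>
      le_antisymm (hs k hk ▸ H.le_top hj htj hi.le hti k) (H.hE.rho_nn i k)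
    refine H.good_tied hS (by omega) hti (by omega) hs' ES gS g (H.hY hj htj hi.le hti sV)
      (by positivity : 0 < τ / 4) ?_
    filter_upwards [mem_FS, pos_FS, H.ph_mv hS (by omega) hti (by omega) hs' ES gS g one_half_pos,
      H.dif_mv hS hj htj hi hti (by omega) hs ES gS g (v := fun _ => 0) (by simp)
        (by simpa using tendsto_const_nhds) (by simpa using im0) one_half_pos] with s h1 h0 h2 h3
    have a1 := h1.2.2
    have a2 := τ0.le.trans (H.fd_tau (by omega) hti h0)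
    have a3 := abs_le.1 h2.1
    have a4 := abs_le.1 h3.1
    have a5 := h3.2
    rw [add_zero] at a4
    rcases le_total 0 s.im with h | h
    · rw [abs_of_nonneg h] at a1 a3 a4 ⊢
      rw [abs_of_nonneg (by nlinarith)]
      nlinarith [le_abs_self (lf (ρ j) j σ s).im]
    · rw [abs_of_nonpos h] at a1 a3 a4 ⊢
      rw [abs_of_nonpos (by nlinarith)]
      nlinarith [neg_abs_le (lf (ρ j) j σ s).im]
  exact ⟨max X 0, le_max_right _ _, hS, all,
    fun s h1 h2 => ⟨(hX s h1 ((le_max_left _ _).trans h2)).2.1,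
      (hX s h1 ((le_max_left _ _).trans h2)).2.2.2⟩,
    (H.ph_bd hS hj htj le_rfl htj (by omega) hs ES gS all
      (H.hY hj htj le_rfl htj sV)).mono fun s h => h.2.1⟩

end Sit

end Crest.Agent.N207.O.Q
end

-- ▼ part N207/O/Sec5
section

/-! Row 207, block O (helper76): quasi-analyticity along the section. -/

set_option autoImplicit false

namespace Crest.Agent.N207.O.Q

open Set Filter Finset Asymptotics Metric
open scoped Topology

variable {J : ℕ} {td : ℕ → Prop} {ρ cc : ℕ → ℕ → ℝ} {γ C R τ T R1 : ℝ} {p : ℕ → ℝ}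
  {σ u : ℕ → ℂ → ℂ} {Z : ℕ → Set ℂ} {S : Set ℂ}

theorem ray_id {g : ℂ → ℂ} {U : Set ℂ} (hU : IsOpen U) (hg : DifferentiableOn ℂ g U)
    (hm : ∀ x : ℝ, 0 ≤ x → (x : ℂ) ∈ U) (h0 : ∀ᶠ x : ℝ in atTop, g x = 0) : g 0 = 0 := by
  obtain ⟨X, hX⟩ := eventually_atTop.1 (h0.and (eventually_ge_atTop 0))
  have ha : AnalyticOnNhd ℂ g ((fun x : ℝ => (x : ℂ)) '' Ici 0) :=
    (hg.analyticOnNhd hU).mono (by rintro _ ⟨x, hx, rfl⟩; exact hm x hx)
  refine ha.eqOn_zero_of_preconnected_of_frequently_eq_zero ray_conn (z₀ := (X : ℂ))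
    ⟨X, (hX X le_rfl).2, rfl⟩ ?_ ⟨0, mem_Ici.2 le_rfl, by simp⟩
  have t : Tendsto (fun x : ℝ => (x : ℂ)) (𝓝[>] X) (𝓝[≠] (X : ℂ)) :=
    tendsto_nhdsWithin_iff.2 ⟨Complex.continuous_ofReal.continuousAt.mono_left nhdsWithin_le_nhds,
      mem_of_superset self_mem_nhdsWithin fun y hy => by simpa using (ne_of_gt hy)⟩
  exact t.frequently (Eventually.frequently
    (mem_of_superset self_mem_nhdsWithin fun y hy => (hX y (le_of_lt hy)).1))

namespace Sit

variable (H : Sit J td ρ cc γ C R τ T p σ u Z)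
include H

theorem fd_cont (β : ℕ → ℝ) {n : ℕ} (hn : n ≤ J) {x : ℝ} (hx : 0 ≤ x) :
    ContinuousAt (fd β n σ) x := by
  refine tendsto_finset_sum _ fun i hi => Tendsto.const_mul _ ?_
  have hi : i < J := by simp at hi; omega
  have := ((H.hS.diffOn' (Nat.le_succ i) hi hi).analyticAt
    ((H.hS.Zo _ hi).mem_nhds (H.ry i hi x hx).mem)).deriv.continuousAt
  exact Complex.continuous_re.continuousAt.comp
    (ContinuousAt.comp this Complex.continuous_ofReal.continuousAt)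

theorem qa (htr : Trk J td p σ Z) {j : ℕ} (hj : j < J) (htj : td j) {R' : ℝ} {Z' : ℕ → Set ℂ}
    (hZ : Zs J td ρ σ u R' Z') (s0 : (0 : ℂ) ∈ Z' J) {g : ℂ → ℂ}
    (hg : DifferentiableOn ℂ g (Z' (j + 1)))
    (hflat : ∀ K : ℝ, ∃ C' : ℝ, ∀ s ∈ Z' (j + 1), ‖g s‖ ≤ C' * Real.exp (-(K * (σ j s).re))) :
    g 0 = 0 := by
  have τ0 := H.hK.τ0
  have R0 := hZ.R0
  obtain ⟨X0, X00, hS, all, hψ, hW⟩ := H.region htr hj htj
  have ud := (H.u_dif hS hj htj all).and ((tendsto_zero_iff_norm_tendsto_zero.1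
    (H.ud_zero hS hj htj all)).eventually (ge_mem_nhds (by positivity : 0 < τ / 16)))
  have f4 : ∀ᶠ s in FS (SS ρ σ j τ X0), |(u j s).im| ≤ τ / 16 * |s.im| := by
    filter_upwards [hS.ev ud, pos_FS] with s h h0
    have := (Complex.abs_im_le_norm _).trans
      (vert_mv (f := u j) (b := 0) (e := τ / 16) (s := s) fun t ht => by simpa [vs] using h t ht)
    simpa [H.hS.re j hj htj _ (H.hS.Zm j hj (H.ry j hj _ h0).mem)] using this
  obtain ⟨X1, hX⟩ := ev_FS.1 ((((H.mem hS hj.le all).and (H.mem_of_gd hS hZ s0 j hj.le all)).and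
    (hW.and (H.cc_small hj htj all))).and (f4.and (H.im_bd hj htj fun s hs => hs.1)))
  set X := max X0 X1 with hXd
  have X0X : X0 ≤ X := le_max_left _ _
  set h : ℂ → ℂ := fun s => σ j s - ((4 * (2 * R' + 1) : ℝ) : ℂ) * Complex.exp (ph ρ σ u j s / 2)
    with hh
  set V1 : Set ℂ := {s ∈ {s : ℂ | X ≤ s.re} | |s.im| * fd (ρ j) j σ s.re ≤ 4} with hV1
  set V2 : Set ℂ := {s ∈ V1 | |(lf (ρ j) j σ s).im| ≤ Real.pi / 2 + τ / 16 * |s.im|} with hV2
  set V3 : Set ℂ := {s ∈ V2 | 2 * R' + 2 ≤ (h s).re} with hV3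
  have F := fun s (hs : s ∈ V2) => hX s ⟨hs.1.2, X0X.trans hs.1.1, hs.2⟩
    ((le_max_right _ _).trans hs.1.1)
  have cA : ∀ s : ℂ, X ≤ s.re → ContinuousAt (fun s : ℂ => |s.im| * fd (ρ j) j σ s.re) s :=
    fun s hs => (by fun_prop : ContinuousAt (fun s : ℂ => |s.im|) s).mul
      (ContinuousAt.comp (g := fd (ρ j) j σ) (f := Complex.re) (H.fd_cont _ hj.le (by linarith))
        Complex.continuous_re.continuousAt)
  have cψ : ∀ s ∈ V1, ContinuousAt (fun s : ℂ => |(lf (ρ j) j σ s).im|) s := fun s hs =>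
    (Complex.continuous_im.continuousAt.comp (hψ s hs.2 (X0X.trans hs.1)).1.continuousAt).abs
  have dφ : ∀ s ∈ V2, DifferentiableAt ℂ (ph ρ σ u j) s := fun s hs =>
    (H.hS.ph_hasDerivAt hj htj (F s hs).1.1.1).differentiableAt
  have dσ : ∀ s ∈ V2, DifferentiableAt ℂ (σ j) s := fun s hs =>
    H.hS.dAt le_rfl hj hj.le (F s hs).1.1.1
  have dh : ∀ s ∈ V2, DifferentiableAt ℂ h s := fun s hs =>
    (dσ s hs).sub (((dφ s hs).div_const 2).cexp.const_mul _)
  have ch : ∀ s ∈ V2, ContinuousAt (fun s => (h s).re) s := fun s hs =>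
    Complex.continuous_re.continuousAt.comp (dh s hs).continuousAt
  have c1 : IsClosed V1 := (isClosed_le continuous_const Complex.continuous_re).isClosed_le
    (fun s hs => (cA s hs).continuousWithinAt) continuousOn_const
  have c2 : IsClosed V2 := c1.isClosed_le (fun s hs => (cψ s hs).continuousWithinAt) (by fun_prop)
  have c3 : IsClosed V3 := c2.isClosed_le continuousOn_const
    (fun s hs => (ch s hs).continuousWithinAt)
  have yb : ∀ s ∈ V2, τ * |s.im| ≤ 4 := fun s hs => by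
    have := (F s hs).2.2; rw [le_div_iff₀ τ0] at this; linarith
  have θb : ∀ s ∈ V2, |(ph ρ σ u j s).im| ≤ Real.pi / 2 + 1 / 2 := fun s hs => by
    have := abs_add_le (lf (ρ j) j σ s).im (u j s).im
    rw [ph, Complex.add_im]
    linarith [hs.2, (F s hs).2.1, yb s hs]
  have hre : ∀ s ∈ V2, (h s).re + 2 * (2 * R' + 1) * Real.exp ((ph ρ σ u j s).re / 2) ≤
      (σ j s).re := fun s hs => by
    have a1 : 1 / 2 ≤ Real.cos ((ph ρ σ u j s).im / 2) := by
      rw [← Real.cos_abs, ← Real.cos_pi_div_three]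
      refine Real.cos_le_cos_of_nonneg_of_le_pi (abs_nonneg _) (by linarith [Real.pi_pos]) ?_
      rw [abs_div, abs_two]; linarith [θb s hs, Real.pi_gt_three]
    simp only [hh, Complex.sub_re, Complex.re_ofReal_mul, Complex.exp_re, Complex.div_ofNat_re,
      Complex.div_ofNat_im]
    nlinarith [mul_le_mul_of_nonneg_left a1 (Real.exp_pos ((ph ρ σ u j s).re / 2)).le]
  have C1 : ∀ s ∈ V3, σ j s ∈ Pw (2 * R' + 1) ∧ |(ph ρ σ u j s).im| < Real.pi / 2 := fun s hs => by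
    have a0 := F s hs.1
    have a1 := hre s hs.1
    have a2 := hs.2
    have e0 := Real.exp_pos ((ph ρ σ u j s).re / 2)
    have a3 : √‖σ j s‖ ≤ 2 * Real.exp ((ph ρ σ u j s).re / 2) := by
      refine Real.sqrt_le_iff.2 ⟨by positivity, ?_⟩
      rw [H.hS.tied j hj htj s a0.1.1.1, mul_pow, ← Real.exp_nat_mul]
      refine (norm_sub_le _ _).trans ?_
      rw [Complex.norm_exp, show ((2 : ℕ) : ℝ) * ((ph ρ σ u j s).re / 2) = (ph ρ σ u j s).re by
        push_cast; ring]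
      linarith [a0.1.2.1, a0.1.2.2, Real.exp_pos (ph ρ σ u j s).re]
    refine ⟨show (2 * R' + 1) * (1 + √‖σ j s‖) < _ by nlinarith,
      abs_lt_of_cos_pos (by linarith [θb s hs.1, Real.pi_gt_three]) ?_⟩
    have b2 := congrArg Complex.re (H.hS.tied j hj htj s a0.1.1.1)
    rw [Complex.sub_re, Complex.exp_re, lf_re] at b2
    have b3 : 0 ≤ ∑ i ∈ range j, cc j i * (σ i s).re := sum_nonneg fun i hi =>
      mul_nonneg (H.hE.cc_nn j i) (H.hS.re_pos (by simpa using hi) hj.le a0.1.1.1).le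
    exact (pos_iff_pos_of_mul_pos (by nlinarith : 0 < Real.exp (ph ρ σ u j s).re *
      Real.cos (ph ρ σ u j s).im)).1 (Real.exp_pos _)
  set G : Set ℂ := V3 ∩ Z' (j + 1) with hG
  have cG : IsClosed G := by
    refine isClosed_of_closure_subset fun s hs => ?_
    have s3 : s ∈ V3 := c3.closure_subset (closure_mono Set.inter_subset_left hs)
    have e : ∀ᶠ z in 𝓝 s, z ∈ Z' j ∧ cs td ρ σ u R' j z := by
      filter_upwards [(hZ.Zo j hj.le).mem_nhds (F s s3.1).1.1.2,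
        (dσ s s3.1).continuousAt.eventually (closedBall_mem_nhds _ one_pos),
        (Complex.continuous_im.continuousAt.comp (dφ s s3.1).continuousAt).abs.eventually
          (gt_mem_nhds (C1 s s3).2)] with z z1 z2 z3
      exact ⟨z1, pw_margin R0 (C1 s s3).1 (by simpa [dist_eq_norm] using z2), fun _ => z3⟩
    obtain ⟨r, r0, hr⟩ := Metric.eventually_nhds_iff_ball.1 e
    obtain ⟨z, z1, z2⟩ := Metric.mem_closure_iff.1 hs r r0
    exact ⟨s3, hZ.Zp j hj (ball s r) (convex_ball _ _).isPreconnected (fun z hz => (hr z hz).1)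
      (fun z hz => (hr z hz).2) ⟨z, mem_ball'.2 z2, z1.2⟩ (mem_ball_self r0)⟩
  have oZ := hZ.Zo (j + 1) hj
  have int : ∀ s ∈ G, X < s.re → 2 * R' + 2 < (h s).re → s ∈ interior G := by
    intro s hs a1 a2
    have a3 : |s.im| * fd (ρ j) j σ s.re < 4 := by
      refine lt_of_le_of_ne hs.1.1.1.2 fun e => ?_
      have b1 := (hψ s hs.1.1.1.2 (X0X.trans a1.le)).2
      have b2 := abs_sub_abs_le_abs_sub (s.im * fd (ρ j) j σ s.re) (lf (ρ j) j σ s).im
      rw [abs_mul, abs_of_nonneg (τ0.le.trans (H.fd_tau hj htj (by linarith))), abs_sub_comm] at b2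
      linarith [hs.1.1.2, yb s hs.1.1, Real.pi_le_four]
    have a4 : |(lf (ρ j) j σ s).im| < Real.pi / 2 + τ / 16 * |s.im| := by
      have b1 := (C1 s hs.1).2
      have b2 := abs_sub (ph ρ σ u j s).im (u j s).im
      rw [ph, Complex.add_im, add_sub_cancel_right, ← Complex.add_im] at b2
      unfold ph at b1
      linarith [(F s hs.1.1).2.1]
    refine mem_interior_iff_mem_nhds.2 ?_
    filter_upwards [oZ.mem_nhds hs.2, Complex.continuous_re.continuousAt.eventually (lt_mem_nhds a1),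
      (cA s a1.le).eventually (gt_mem_nhds a3), (ch s hs.1.1).eventually (lt_mem_nhds a2),
      (cψ s hs.1.1.1).eventually_lt
        (by fun_prop : ContinuousAt (fun s : ℂ => Real.pi / 2 + τ / 16 * |s.im|) s) a4] with z z1 z2 z3 z4 z5
    exact ⟨⟨⟨⟨z2.le, z3.le⟩, z5.le⟩, z4.le⟩, z1⟩
  have cK : IsCompact (G ∩ {s : ℂ | s.re ≤ X}) := by
    refine Metric.isCompact_of_isClosed_isBounded
      (cG.inter (isClosed_le Complex.continuous_re continuous_const))
      ((isBounded_closedBall (x := (0 : ℂ)) (r := X + 4 / τ)).subset fun s hs => ?_)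
    rw [mem_closedBall_zero_iff]
    have := Complex.norm_le_abs_re_add_abs_im s
    rw [abs_of_nonneg (by linarith [show X ≤ s.re from hs.1.1.1.1.1] : 0 ≤ s.re)] at this
    linarith [(F s hs.1.1.1).2.2, show s.re ≤ X from hs.2]
  obtain ⟨M', hM'⟩ := cK.exists_bound_of_continuousOn
    (f := h) fun s hs => (dh s hs.1.1.1).continuousAt.continuousWithinAt
  obtain ⟨B, hB⟩ := hflat 0
  have pl := fun s => pl_zero (G := G) (s0 := ((X - 1 : ℝ) : ℂ)) (g := g) (h := h) one_pos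
    (fun s hs => by
      rw [cG.closure_eq] at hs
      have := Complex.re_le_norm (s - ((X - 1 : ℝ) : ℂ))
      rw [Complex.sub_re, Complex.ofReal_re] at this
      linarith [show X ≤ s.re from hs.1.1.1.1])
    (DifferentiableOn.diffContOnCl (by rw [cG.closure_eq]; exact hg.mono Set.inter_subset_right))
    (DifferentiableOn.diffContOnCl (by
      rw [cG.closure_eq]; exact fun s hs => (dh s hs.1.1).differentiableWithinAt))
    (B := B) (M := max (2 * R' + 2) M')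
    (fun s hs => by simpa using hB s (cG.frontier_subset hs).2)
    (fun s hs => by
      have b1 := cG.frontier_subset hs
      by_contra hc
      rw [not_le, max_lt_iff] at hc
      rcases le_or_gt s.re X with b2 | b2
      · linarith [(Complex.re_le_norm _).trans (hM' s ⟨b1, b2⟩), hc.2]
      · exact hs.2 (int s b1 b2 hc.1))
    (fun N => by
      obtain ⟨C', hC'⟩ := hflat N
      refine ⟨|C'|, fun s hs => ?_⟩
      have b1 := hre s hs.1.1
      have b2 := Real.exp_pos ((ph ρ σ u j s).re / 2)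
      refine (mul_le_mul_of_nonneg_right (hC' s hs.2) (Real.exp_pos _).le).trans ?_
      rw [mul_assoc, ← Real.exp_add]
      have b3 : (h s).re ≤ (σ j s).re := by nlinarith
      have b4 : Real.exp (-(N * (σ j s).re) + N * (h s).re) ≤ 1 :=
        Real.exp_le_one_iff.2 (by nlinarith [Nat.cast_nonneg (α := ℝ) N])
      nlinarith [le_abs_self C', abs_nonneg C', Real.exp_pos (-(N * (σ j s).re) + N * (h s).re)])
    (s := s)
  have rm := ray_mem hZ s0 H.ry (j + 1) hj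
  refine ray_id oZ hg rm ?_
  filter_upwards [eventually_ge_atTop X, (H.WW_top hj htj).eventually
    (ev_pw (2 * (4 * (2 * R' + 1) + |max (2 * R' + 2) M'|)))] with x x1 x2
  have x0 : 0 ≤ x := by linarith
  obtain ⟨-, -, -, -, -, -, t5, t6⟩ := (H.ry j hj x x0).tied htj
  have e1 : (h x).re = oo σ j x - 4 * (2 * R' + 1) * √(WW ρ σ u j x) := by
    simp only [hh, Complex.sub_re, Complex.re_ofReal_mul, Complex.exp_re, Complex.div_ofNat_re,
      Complex.div_ofNat_im, t6, zero_div, Real.cos_zero, mul_one, oo, WW_eq, Real.exp_half]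
  have e2 : max (2 * R' + 2) M' < (h x).re := by
    rw [e1]
    nlinarith [(H.ry j hj x x0).nc htj, le_abs_self (max (2 * R' + 2) M'),
      abs_nonneg (max (2 * R' + 2) M'), Real.sqrt_nonneg (WW ρ σ u j x)]
  have v : (x : ℂ) ∈ VV ρ σ j := by simp [VV]
  refine pl x ⟨⟨⟨⟨x1, v⟩, ?_⟩, (le_max_left _ _).trans e2.le⟩, rm x x0⟩ e2
  have := (hψ x v (X0X.trans x1)).2
  simp only [Complex.ofReal_im, zero_mul, sub_zero, abs_zero, mul_zero, add_zero] at this ⊢
  linarith [Real.pi_pos]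

end Sit

end Crest.Agent.N207.O.Q
end

-- ▼ part N207/O/Qg
section

/-!
# Row 207, block O (helper88): quasi-analyticity of towers from the one variable statement
-/

set_option autoImplicit false
set_option linter.unusedSectionVars false

open Set Filter Topology Metric Function

noncomputable section

namespace Crest.Agent.N207.O

open El Br

/-- the one variable statement -/
def QAStmt : Prop := ∀ (j : ℕ) (td : ℕ → Prop) (ρ cc : ℕ → ℕ → ℝ) (γ C R τ T : ℝ) (p : ℕ → ℝ)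
  (σ u : ℕ → ℂ → ℂ) (Z : ℕ → Set ℂ), Q.Sit (j + 1) td ρ cc γ C R τ T p σ u Z →
  Q.Trk (j + 1) td p σ Z → td j → ∀ (R' : ℝ) (Z' : ℕ → Set ℂ), R ≤ R' → (∀ n, Z' n ⊆ Z n) →
  Q.Zs (j + 1) td ρ σ u R' Z' → (0 : ℂ) ∈ Z' (j + 1) → ∀ g : ℂ → ℂ,
  DifferentiableOn ℂ g (Z' (j + 1)) →
  (∀ K : ℝ, ∃ B : ℝ, ∀ s ∈ Z' (j + 1), ‖g s‖ ≤ B * Real.exp (-(K * (σ j s).re))) → g 0 = 0

theorem qaStmt : QAStmt := fun j _ _ _ _ _ _ _ _ _ _ _ _ H htr htj _ _ _ _ hZ h0 _ hg hK =>
  H.qa htr j.lt_succ_self htj hZ h0 hg hK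

variable {ι : Type} [Fintype ι] [DecidableEq ι] {T : Tw ι} {l : List (ι ⊕ ℕ)} {a : ι ⊕ ℕ}

/-- the situation at a deep seed, with constants that depend only on the tower -/
theorem Br.sit (h : T.WF) : ∃ (γ C R₀ : ℝ) (τ Tm : ℕ → ℝ), T.R ≤ R₀ ∧
    (∀ J ≤ T.top.length, Tm J * J ≤ R₀ ∧ ∀ R ≥ R₀, Q.Num J γ C T.R (τ J) (Tm J) R) ∧
    (∀ J ≤ T.top.length, ∀ (b : Bool) (y : ι → ℂ) (p : ℕ → ℝ), y ∈ T.D [] → y ∈ Rp ι →
      (b = true → ∀ m, m + 1 < J → ¬ td T.top (m + 1) → 0 ≤ p (m + 1)) →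
      Q.Sec J (td T.top) (nm T.top T.ρ) (nm T.top T.c) γ C T.R p (sg T.top T.s b y p)
        (uu T.top T.s T.u b y p) (ZZ T.top T b y p)) ∧
    ∀ R ≥ R₀, ∀ r : ι → ℝ, (∀ k ∈ T.Fv, 0 < r k ∧ r k ≤ T.r k) → ∀ J ≤ T.top.length,
      ∀ y ∈ (T.shr R r).D (sf T.top J), y ∈ (T.shr R r).Sd (sf T.top J) →
        Q.Sit J (td T.top) (nm T.top T.ρ) (nm T.top T.c) γ C T.R (τ J) (Tm J)
          (pp T.top T.s true y) (sg T.top T.s true y (pp T.top T.s true y))
          (uu T.top T.s T.u true y (pp T.top T.s true y))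
          (ZZ T.top T true y (pp T.top T.s true y)) ∧
        ∀ m, m + 1 < J → 0 ≤ pp T.top T.s true y (m + 1) := by
  obtain ⟨γ, C, h1, -, h3⟩ := sec h rfl
  have hK : ∀ J, ∃ τ Tm R0 : ℝ, J ≤ T.top.length → Q.Cn J (nm T.top T.ρ) (nm T.top T.c) τ Tm ∧
      Tm * J ≤ R0 ∧ ∀ R ≥ R0, Q.Num J γ C T.R τ Tm R := fun J => by
    by_cases hJ : J ≤ T.top.length
    · obtain ⟨τ, Tm, hK⟩ := (ex h rfl hJ).cn
      obtain ⟨R0, hR0⟩ := Q.num_exists J h1 C T.R hK.τ0 Tm
      exact ⟨τ, Tm, max R0 (Tm * J), fun _ => ⟨hK, le_max_right _ _,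
        fun R hR => hR0 R (le_trans (le_max_left _ _) hR)⟩⟩
    · exact ⟨0, 0, 0, fun h => absurd h hJ⟩
  choose τ Tm R0 hK using hK
  obtain ⟨n, -, hn⟩ := (Finset.range (T.top.length + 1)).exists_max_image R0 ⟨0, by simp⟩
  have hm : ∀ J ≤ T.top.length, R0 J ≤ max T.R (R0 n) := fun J hJ =>
    (hn J (by simp; omega)).trans (le_max_right _ _)
  refine ⟨γ, C, max T.R (R0 n), τ, Tm, le_max_left _ _, fun J hJ => ⟨(hK J hJ).2.1.trans (hm J hJ),
    fun R hR => (hK J hJ).2.2 R ((hm J hJ).trans hR)⟩, h3 γ le_rfl C le_rfl,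
    fun R hR r hr J hJ y hy hs => ?_⟩
  have hR' : T.R ≤ R := le_trans (le_max_left _ _) hR
  obtain ⟨w, sub, -⟩ := T4_shr h hR' hr
  have hp := pp_nn w (T.shr_top R r).symm hJ hy hs
  have hS := h3 γ le_rfl C le_rfl J hJ true y (pp T.top T.s true y)
    (D_suffix List.nil_suffix (sub _ hy)) hs.1 fun _ m hm _ => hp m hm
  obtain ⟨s1, s2, s3⟩ := start h rfl hR' hr (b := true) hJ hy hs
    (fun a ha i hi => ((hK J hJ).1.k1 a ha i hi).2) ((hK J hJ).2.1.trans ((hm J hJ).trans hR))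
  have s0 := zero_mem h rfl (b := true) hJ (sub _ hy) hs.1
  exact ⟨⟨ex h rfl hJ, hS, (hK J hJ).1, h1, s0, Q.ray (ex h rfl hJ) hS (hK J hJ).1
    ((hK J hJ).2.2 R ((hm J hJ).trans hR)) (trk h rfl hJ (fun m hm _ => hp m hm) _) s0 s1
    (fun a ha _ => s2 a ha) fun a ha _ i hi => (s3 a ha i hi).2⟩, hp⟩

/-- a holomorphic function that vanishes at all seeds vanishes -/
theorem zero_of_seeds (h : T.WF) (hl : a :: l <:+ T.top) {g : (ι → ℂ) → ℂ}
    (hg : DifferentiableOn ℂ g (T.D (a :: l)))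
    (h0 : ∀ y ∈ T.D (a :: l), y ∈ T.Sd (a :: l) → g y = 0) : EqOn g 0 (T.D (a :: l)) := by
  rintro x ⟨y, hy, hx⟩
  have hS := h.isOpen_S hl (T1_ok h (suffix_tail hl))
  have hyS := connectedComponentIn_nonempty_iff.1 ⟨x, hx⟩
  have hyD : y ∈ T.D (a :: l) := mem_RC hy hyS
  have hsub : connectedComponentIn {x | x ∈ T.D l ∧ T.cst a x} y ⊆ T.D (a :: l) :=
    fun z hz => ⟨y, hy, hz⟩
  have hc : ∀ b ∈ a :: l, ContinuousAt (fun z => (T.s b z).re) y := fun b hb =>
    Complex.continuous_re.continuousAt.comp ((dif_mem (T1_ok h hl) hb).continuousOn.continuousAt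
      ((h.isOpen_D hl).mem_nhds hyD))
  have key : ∀ m : List (ι ⊕ ℕ), (∀ b ∈ m, b ∈ a :: l) →
      (m.Pairwise fun a b => T.R * (T.s b y).re < (T.s a y).re) →
      ∀ᶠ z in 𝓝 y, m.Pairwise fun a b => T.R * (T.s b z).re < (T.s a z).re := by
    intro m
    induction m with
    | nil => exact fun _ _ => .of_forall fun _ => List.Pairwise.nil
    | cons c m ih =>
      intro h1 h2
      rw [List.pairwise_cons] at h2
      have h3 : ∀ᶠ z in 𝓝 y, ∀ b ∈ m.toFinset, T.R * (T.s b z).re < (T.s c z).re :=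
        (eventually_all_finset _).2 fun b hb => by
          have hb := List.mem_toFinset.1 hb
          exact (continuousAt_const.mul (hc b (h1 b (List.mem_cons_of_mem _ hb)))).eventually_lt
            (hc c (h1 c List.mem_cons_self)) (h2.1 b hb)
      filter_upwards [h3, ih (fun b hb => h1 b (List.mem_cons_of_mem _ hb)) h2.2] with z h4 h5
      exact List.pairwise_cons.2 ⟨fun b hb => h4 b (List.mem_toFinset.2 hb), h5⟩
  obtain ⟨V, hV1, hV2, hV3⟩ := _root_.eventually_nhds_iff.1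
    ((key _ (fun _ h => h) hy.2).and ((h.isOpen_D hl).mem_nhds hyD))
  have h1 := zero_of_real hV2 (hg.mono fun z hz => (hV1 z hz).2)
    (fun z hz hr => h0 z (hV1 z hz).2 ⟨hr, (hV1 z hz).1⟩) hV3 hy.1
  exact id_thm hS.connectedComponentIn isPreconnected_connectedComponentIn (hg.mono hsub)
    (mem_connectedComponentIn hyS) h1 hx

theorem qa_all (h : T.WF) : ∃ R₀ : ℝ, T.R ≤ R₀ ∧ ∀ R ≥ R₀, ∀ r : ι → ℝ,
    (∀ k ∈ T.Fv, 0 < r k ∧ r k ≤ T.r k) → ∀ a l, a :: l <:+ T.top → (T.shr R r).fr.QA1 a l := by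
  obtain ⟨γ, C, R₀, τ, Tm, h0, -, -, h1⟩ := Br.sit h
  refine ⟨R₀, h0, fun R hR r hr a l hl => ?_⟩
  have hR' : T.R ≤ R := h0.trans hR
  obtain ⟨w, sub, -⟩ := T4_shr h hR' hr
  have hl' : a :: l <:+ (T.shr R r).top := by rwa [T.shr_top]
  rcases a with k | j
  · exact qa_free w hl'
  intro g hg hK
  refine zero_of_seeds w hl' hg fun y hy hs => ?_
  have hn : l.length < T.top.length := hl.length_le
  have e : sf T.top (l.length + 1) = Sum.inr j :: l := sf_of_suffix hl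
  have e1 : ix T.top l.length = Sum.inr j := by
    rw [sf_succ hn] at e; exact (List.cons.inj e).1
  rw [← e] at hy hs hg
  obtain ⟨h2, h3⟩ := h1 R hR r hr _ hn y hy hs
  have hy0 : y ∈ (T.shr R r).D [] := D_suffix List.nil_suffix hy
  have := qaStmt _ _ _ _ _ _ _ _ _ _ _ _ _ h2 (trk h rfl hn (fun m hm _ => h3 m hm) _) ⟨j, e1⟩ R _ hR'
    (fun n => ZZ_shr h rfl hR' hr) (zs_shr h rfl hR' hr hy0 hn)
    (zero_mem_shr h rfl hR' hr hn hy hs.1)
    (fun s => g (cv T.top T.s true y (pp T.top T.s true y) (l.length + 1) s))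
    (hg.comp (open_dif w (T.shr_top R r).symm hy0 hn).2 fun _ hs => hs)
    fun K => (hK K).imp fun B hB s hs => by
      have := hB _ (show _ ∈ (T.shr R r).D (Sum.inr j :: l) by rw [← e]; exact hs)
      rwa [sg, e1]
  rwa [cv_zero h rfl hn (sub _ hy) hs.1 le_rfl] at this

/-- `Q1_good` from connectivity -/
theorem good_of (h : T.WF) (hc : ∃ R₀ : ℝ, ∀ R ≥ R₀, ∀ r : ι → ℝ,
    (∀ k ∈ T.Fv, 0 < r k ∧ r k ≤ T.r k) → ∀ l, l <:+ T.top → IsPreconnected ((T.shr R r).D l)) :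
    ∃ R₀ : ℝ, T.R ≤ R₀ ∧ ∀ R ≥ R₀, ∀ r : ι → ℝ,
      (∀ k ∈ T.Fv, 0 < r k ∧ r k ≤ T.r k) → (T.shr R r).Good := by
  obtain ⟨R1, h1, h2⟩ := qa_all h
  obtain ⟨R2, h3⟩ := hc
  refine ⟨max R1 R2, le_max_of_le_left h1, fun R hR r hr => ?_⟩
  have hR1 : R1 ≤ R := le_trans (le_max_left _ _) hR
  exact ⟨(T4_shr h (h1.trans hR1) hr).1, fun a l hl => h2 R hR1 r hr a l (by rwa [T.shr_top] at hl),
    fun l hl => h3 R (le_trans (le_max_right _ _) hR) r hr l (by rwa [T.shr_top] at hl)⟩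

end Crest.Agent.N207.O
end
end

-- ▼ part N207/O/Cn1
section

/-!
# Row 207, block O (helper81): the domains of a deep tower are connected

Static argument: lower the free levels one by one (from the top) until each of them tracks its
lower neighbour; then join along a segment.
-/

set_option autoImplicit false
set_option linter.unusedSectionVars false

open Set Filter Topology Metric

noncomputable section

namespace Crest.Agent.N207.O.Cn

open Tw

variable {ι : Type} [Fintype ι] [DecidableEq ι] {T : Tw ι} {C K : ℝ} {a b : ι ⊕ ℕ}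
  {l m u L : List (ι ⊕ ℕ)} {x y : ι → ℂ} {Q : Set (ι → ℂ)}

theorem sub_D (hQ : IsPreconnected Q) (h1 : Q ⊆ T.D l) (h2 : ∀ x ∈ Q, T.cst a x) (h3 : x ∈ Q)
    (h4 : x ∈ T.D (a :: l)) : Q ⊆ T.D (a :: l) := by
  obtain ⟨y, hy, hx⟩ := h4
  intro z hz
  refine ⟨y, hy, ?_⟩
  rw [connectedComponentIn_eq hx]
  exact hQ.subset_connectedComponentIn (F := {x | x ∈ T.D l ∧ T.cst a x}) h3
    (fun w hw => ⟨h1 hw, h2 w hw⟩) hz

/-- the free levels of `u` track their lower neighbour (`b` = level below `u`) -/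
def trk (T : Tw ι) (b : ι ⊕ ℕ) : List (ι ⊕ ℕ) → (ι → ℂ) → ι → ℂ
  | [], x => x
  | Sum.inl k :: u, x => Function.update (trk T b u x) k (T.s (u.headD b) (trk T b u x))
  | Sum.inr _ :: u, x => trk T b u x

theorem trk_snoc (b' : ι ⊕ ℕ) : ∀ (u : List (ι ⊕ ℕ)) (x : ι → ℂ),
    trk T b' (u ++ [b]) x = trk T b u (trk T b' [b] x)
  | [], _ => rfl
  | Sum.inl k :: u, x => by
    have : (u ++ [b]).headD b' = u.headD b := by cases u <;> rfl
    simp only [List.cons_append, trk, trk_snoc b' u x, this]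
  | Sum.inr k :: u, x => by simp only [List.cons_append, trk, trk_snoc b' u x]

theorem headD_mem (u m : List (ι ⊕ ℕ)) (b : ι ⊕ ℕ) : u.headD b ∈ u ++ b :: m := by
  cases u <;> simp

/-- numerical conditions on the depth -/
structure Big (T : Tw ι) (C K : ℝ) : Prop where
  ub : ∀ j < T.p, ∀ x ∈ T.D (T.lv j), ‖T.u j x‖ ≤ C
  cb : ∀ j < T.p, 1 + ∑ i ∈ (T.lv j).toFinset, T.c j i ≤ K
  b1 : ∀ j < T.p, ∀ i ∈ T.top, 0 < T.ρ j i → ∀ o, T.R ≤ o → K * o ≤ Real.exp (T.ρ j i * o - C)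
  b2 : ∀ j < T.p, ∀ j' < T.p, ∀ i ∈ T.top, T.ρ j' i < T.ρ j i →
    K ≤ Real.exp ((T.ρ j i - T.ρ j' i) * T.R - 2 * C)
  b3 : K * Real.exp (2 * C) ≤ T.R

/-- the invariant of a tracking point -/
structure Inv (T : Tw ι) (C : ℝ) (L : List (ι ⊕ ℕ)) (b : ι ⊕ ℕ) (m u : List (ι ⊕ ℕ))
    (x : ι → ℂ) : Prop where
  re : x ∈ Rp ι
  i1 : ∀ i ∈ u ++ b :: m, (T.s i x).re ≤ (T.s (u.headD b) x).re
  i2 : ∀ i ∈ u, (T.s b x).re ≤ (T.s i x).re
  i3 : (T.s (u.headD b) x).re ≤ (T.s b x).re ∨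
    ∃ j, Sum.inr j ∈ u ++ b :: m ∧ (T.s (u.headD b) x).re ≤ Real.exp (T.E j x).re
  i4 : ∀ j, Sum.inr j ∈ L → (∀ i, i ∉ m → T.ρ j i = 0) →
    T.R * (T.s b x).re ≤ Real.exp ((T.lin m (T.ρ j) x).re + C)

theorem not_fv (h : T.WF) {k : ι} (hl : Sum.inl k :: l <:+ T.top) : k ∉ T.Fv := fun hk =>
  h.dj k hk (hl.subset List.mem_cons_self)

theorem step_free (h : T.WF) {k : ι} (hl : Sum.inl k :: (u ++ b :: m) <:+ T.top)
    (hx : x ∈ T.D (u ++ b :: m)) (I : Inv T C L b m u x) :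
    Function.update x k (T.s (u.headD b) x) ∈ T.D (u ++ b :: m) ∧
      T.cst (Sum.inl k) (Function.update x k (T.s (u.headD b) x)) ∧
      Inv T C L b m (Sum.inl k :: u) (Function.update x k (T.s (u.headD b) x)) := by
  have hk := h.not_mem hl
  have hf := not_fv h hl
  have hl' := suffix_tail hl
  set w := T.s (u.headD b) x with hw
  have e : ∀ i ∈ u ++ b :: m, T.s i (Function.update x k w) = T.s i x := fun i hi =>
    (h.ind_s hl' hk (fun h' => absurd h' hf) hi).1 x w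
  have e0 : T.s (Sum.inl k) (Function.update x k w) = w := by rw [h.sN]; simp
  have hb : b ∈ u ++ b :: m := by simp
  refine ⟨T2_upd h hl' hk (fun h' => absurd h' hf) hx (fun h' => absurd h' hf),
    ⟨by rw [e0]; exact (D_cst hx (headD_mem u m b)).1, fun _ e => by cases e⟩,
    ⟨fun k' => ?_, fun i hi => ?_, fun i hi => ?_, ?_, fun j hj h0 => ?_⟩⟩
  · by_cases e : k' = k
    · subst e
      rw [Function.update_self]
      exact T6_real h hl' _ (headD_mem u m b) x hx I.re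
    · simpa [e] using I.re k'
  · rw [List.headD_cons, e0]
    rcases List.mem_cons.1 hi with rfl | hi
    · rw [e0]
    · rw [e i hi]; exact I.i1 i hi
  · rw [e b hb]
    rcases List.mem_cons.1 hi with rfl | hi
    · rw [e0]; exact I.i1 b hb
    · rw [e i (by simp [hi])]; exact I.i2 i hi
  · rw [List.headD_cons, e0, e b hb]
    refine I.i3.imp id fun ⟨j, hj, h1⟩ => ⟨j, List.mem_cons_of_mem _ hj, ?_⟩
    rw [h.ind_E hl' hk (fun h' => absurd h' hf) hj]; exact h1
  · rw [e b hb, ind_lin (fun i hi => (h.ind_s hl' hk (fun h' => absurd h' hf)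
      (by simp [hi] : i ∈ u ++ b :: m)).1)]
    exact I.i4 j hj h0

theorem re_lin_ge {γ : ι ⊕ ℕ → ℝ} (hγ : ∀ i, 0 ≤ γ i) (hp : ∀ i ∈ l, 0 ≤ (T.s i x).re) (ha : a ∈ l) :
    γ a * (T.s a x).re ≤ (T.lin l γ x).re := by
  rw [re_lin]
  exact Finset.single_le_sum (f := fun i => γ i * (T.s i x).re)
    (fun i hi => mul_nonneg (hγ i) (hp i (List.mem_toFinset.1 hi))) (List.mem_toFinset.2 ha)

theorem lin_supp {γ : ι ⊕ ℕ → ℝ} (hs : ∀ i ∈ m, i ∈ l) (h0 : ∀ i, i ∉ m → γ i = 0) :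
    T.lin l γ x = T.lin m γ x := by
  symm
  refine Finset.sum_subset (fun i hi => List.mem_toFinset.2 (hs i (List.mem_toFinset.1 hi)))
    fun i _ hi => ?_
  rw [h0 i (by simpa using hi)]; simp

/-- real form of a tie -/
theorem tie_re (h : T.WF) {j : ℕ} (hj : j < T.p) (hx : x ∈ T.D (T.lv j)) (hr : x ∈ Rp ι) :
    (T.s (Sum.inr j) x).im = 0 ∧ (T.E j x).im = 0 ∧
      (T.s (Sum.inr j) x).re = Real.exp (T.E j x).re - (T.lin (T.lv j) (T.c j) x).re := by
  have H := h.real_head (inr_lv_suffix hj) fun b hb => T6_real h (lv_top hj.le) b hb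
  have h2 := H.2 j rfl x hx hr
  refine ⟨H.1 x hx hr, h2, ?_⟩
  rw [h.sL j hj x hx, Complex.sub_re, Complex.exp_re, h2]; simp

theorem step_tied (h : T.WF) (hB : Big T C K) {j : ℕ} (hl : Sum.inr j :: (u ++ b :: m) <:+ T.top)
    (hL : Sum.inr j ∈ L) (hx : x ∈ T.D (u ++ b :: m)) (I : Inv T C L b m u x) :
    T.cst (Sum.inr j) x ∧ Inv T C L b m (Sum.inr j :: u) x := by
  obtain ⟨hj, hlv⟩ := inr_suffix hl
  have hl' := suffix_tail hl
  have hR := h.R1
  have hx' : x ∈ T.D (T.lv j) := hlv ▸ hx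
  obtain ⟨t1, t2, t3⟩ := tie_re h hj hx' I.re
  have big : ∀ i ∈ T.lv j, T.R ≤ (T.s i x).re := fun i hi => (D_cst hx' hi).1.1.le
  have pos : ∀ i ∈ T.lv j, 0 ≤ (T.s i x).re := fun i hi => by linarith [big i hi]
  have hh : u.headD b ∈ T.lv j := hlv ▸ headD_mem u m b
  have hb : b ∈ T.lv j := by rw [← hlv]; simp
  have hu := abs_le.1 ((Complex.abs_re_le_norm _).trans (hB.ub j hj x hx'))
  have hE : (T.E j x).re = (T.lin (T.lv j) (T.ρ j) x).re + (T.u j x).re := by simp [E]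
  have hK : 0 ≤ K := by
    have := Finset.sum_nonneg (s := (T.lv j).toFinset) fun i _ => h.c0 j i
    linarith [hB.cb j hj]
  set o := (T.s (u.headD b) x).re with ho
  have o0 : 0 ≤ o := pos _ hh
  have key : K * o ≤ Real.exp (T.E j x).re := by
    rcases I.i3 with h1 | ⟨j', hj', h1⟩
    · refine (mul_le_mul_of_nonneg_left h1 hK).trans ?_
      by_cases h0 : ∀ i, i ∉ m → T.ρ j i = 0
      · have h2 := I.i4 j hL h0
        rw [← lin_supp (l := T.lv j) (fun i hi => by rw [← hlv]; simp [hi]) h0] at h2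
        have h3 : Real.exp ((T.lin (T.lv j) (T.ρ j) x).re + C) ≤
            Real.exp (T.E j x).re * Real.exp (2 * C) := by
          rw [← Real.exp_add]; exact Real.exp_le_exp.2 (by linarith)
        have h4 := mul_le_mul_of_nonneg_right hB.b3 (pos b hb)
        exact le_of_mul_le_mul_right (by nlinarith) (Real.exp_pos (2 * C))
      · push Not at h0
        obtain ⟨i, hi, h2⟩ := h0
        have h3 : 0 < T.ρ j i := (h.ρ0 j i).lt_of_ne' h2
        have h4 : i ∈ T.lv j := by by_contra hc; exact h2 (h.ρs j hj i hc)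
        have h5 : (T.s b x).re ≤ (T.s i x).re := by
          rw [← hlv] at h4
          rcases List.mem_append.1 h4 with h4 | h4
          · exact I.i2 i h4
          · rcases List.mem_cons.1 h4 with rfl | h4
            · exact le_rfl
            · exact absurd h4 hi
        refine (hB.b1 j hj i ((lv_top hj.le).subset h4) h3 _ (big b hb)).trans
          (Real.exp_le_exp.2 ?_)
        have h6 := re_lin_ge (h.ρ0 j) pos h4
        nlinarith
    · rw [hlv] at hj'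
      have hjj := inr_mem_lv.1 hj'
      obtain ⟨h2, i, hi, h3⟩ := h.ρm j' j hjj hj
      have hs := lv_suffix (T := T) hjj.le
      have hu' := abs_le.1 ((Complex.abs_re_le_norm _).trans
        (hB.ub j' (by omega) x (D_suffix hs hx')))
      have hE' : (T.E j' x).re = (T.lin (T.lv j) (T.ρ j') x).re + (T.u j' x).re := by
        rw [lin_supp (fun i hi => hs.subset hi) (h.ρs j' (by omega))]; simp [E]
      have h4 := re_lin_ge (γ := fun i => T.ρ j i - T.ρ j' i) (fun i => sub_nonneg.2 (h2 i)) pos hi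
      have h5 : (T.lin (T.lv j) (fun i => T.ρ j i - T.ρ j' i) x).re =
          (T.lin (T.lv j) (T.ρ j) x).re - (T.lin (T.lv j) (T.ρ j') x).re := by
        simp only [re_lin, sub_mul, Finset.sum_sub_distrib]
      have h6 := mul_le_mul_of_nonneg_left (big i hi) (sub_nonneg.2 h3.le)
      calc K * o ≤ Real.exp ((T.ρ j i - T.ρ j' i) * T.R - 2 * C) * Real.exp (T.E j' x).re :=
            mul_le_mul (hB.b2 j hj j' (by omega) i ((lv_top hj.le).subset hi) h3) h1 o0
              (Real.exp_pos _).le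
        _ ≤ _ := by rw [← Real.exp_add]; exact Real.exp_le_exp.2 (by linarith)
  have c1 : (T.lin (T.lv j) (T.c j) x).re ≤ (∑ i ∈ (T.lv j).toFinset, T.c j i) * o := by
    rw [re_lin, Finset.sum_mul]
    exact Finset.sum_le_sum fun i hi => mul_le_mul_of_nonneg_left
      (I.i1 i (hlv ▸ List.mem_toFinset.1 hi)) (h.c0 j i)
  have c0 : 0 ≤ (T.lin (T.lv j) (T.c j) x).re := by
    rw [re_lin]
    exact Finset.sum_nonneg fun i hi => mul_nonneg (h.c0 j i) (pos i (List.mem_toFinset.1 hi))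
  have up : o ≤ (T.s (Sum.inr j) x).re := by
    have := mul_le_mul_of_nonneg_right (hB.cb j hj) o0
    linarith
  refine ⟨⟨Q.om_up (by linarith) (D_cst hx' hh).1 (T6_real h (lv_top hj.le) _ hh x hx' I.re) t1 up,
    fun j' e => ?_⟩, I.re, fun i hi => ?_, fun i hi => ?_,
    Or.inr ⟨j, List.mem_cons_self, by rw [List.headD_cons]; linarith⟩, I.i4⟩
  · cases e; rw [t2, abs_zero]; positivity
  · rw [List.headD_cons]
    rcases List.mem_cons.1 hi with rfl | hi
    · exact le_rfl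
    · exact (I.i1 i hi).trans up
  · rcases List.mem_cons.1 hi with rfl | hi
    · exact (I.i1 b (by simp)).trans up
    · exact I.i2 i hi

theorem trk_maps (h : T.WF) (hB : Big T C K) (hQ : IsPreconnected Q) (hy : y ∈ Q)
    (hD : Q ⊆ T.D (b :: m)) (hI : ∀ x ∈ Q, Inv T C L b m [] x) :
    ∀ u : List (ι ⊕ ℕ), u ++ b :: m <:+ T.top → (∀ a ∈ u, a ∈ L) →
      trk T b u y ∈ T.D (u ++ b :: m) → ContinuousOn (trk T b u) Q ∧
        ∀ x ∈ Q, trk T b u x ∈ T.D (u ++ b :: m) ∧ Inv T C L b m u (trk T b u x)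
  | [], _, _, _ => ⟨continuousOn_id, fun x hx => ⟨hD hx, hI x hx⟩⟩
  | Sum.inr j :: u, hl, hL, h0 => by
    obtain ⟨h1, h2⟩ := trk_maps h hB hQ hy hD hI u (suffix_tail hl)
      (fun a ha => hL a (List.mem_cons_of_mem _ ha)) (D_cons_sub h0)
    have h3 := fun x hx => step_tied h hB hl (hL _ List.mem_cons_self) (h2 x hx).1 (h2 x hx).2
    refine ⟨h1, fun x hx => ⟨?_, (h3 x hx).2⟩⟩
    exact sub_D (hQ.image _ h1) (by rintro _ ⟨x, hx, rfl⟩; exact (h2 x hx).1)
      (by rintro _ ⟨x, hx, rfl⟩; exact (h3 x hx).1) ⟨y, hy, rfl⟩ h0 ⟨x, hx, rfl⟩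
  | Sum.inl k :: u, hl, hL, h0 => by
    have hf := not_fv h hl
    have hl' := suffix_tail hl
    have h0' : trk T b u y ∈ T.D (u ++ b :: m) := by
      have := T2_upd h hl' (h.not_mem hl) (fun h' => absurd h' hf) (D_cons_sub h0)
        (w := trk T b u y k) (fun h' => absurd h' hf)
      simpa [trk] using this
    obtain ⟨h1, h2⟩ := trk_maps h hB hQ hy hD hI u hl'
      (fun a ha => hL a (List.mem_cons_of_mem _ ha)) h0'
    have h3 := fun x hx => step_free h hl (h2 x hx).1 (h2 x hx).2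
    have h4 : ContinuousOn (trk T b (Sum.inl k :: u)) Q := by
      refine continuousOn_pi.2 fun k' => ?_
      by_cases e : k' = k
      · subst e
        simp only [trk, Function.update_self]
        exact ((T1_ok h hl').diff_mem (headD_mem u m b)).continuousOn.comp h1
          fun x hx => (h2 x hx).1
      · simp only [trk, Function.update_of_ne e]
        exact continuousOn_pi.1 h1 k'
    refine ⟨h4, fun x hx => ⟨?_, (h3 x hx).2.2⟩⟩
    exact sub_D (hQ.image _ h4) (by rintro _ ⟨x, hx, rfl⟩; exact (h3 x hx).1)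
      (by rintro _ ⟨x, hx, rfl⟩; exact (h3 x hx).2.1) ⟨y, hy, rfl⟩ h0 ⟨x, hx, rfl⟩

end Crest.Agent.N207.O.Cn
end
private theorem rz_e560e96cd9 : type_of% @_root_.Crest.Agent.N207.O.Cn.trk.eq_def := @_root_.Crest.Agent.N207.O.Cn.trk.eq_def -- L35
private theorem rz_a2b2232d63 : type_of% @_root_.Crest.Agent.N207.O.Cn.trk.eq_1 := @_root_.Crest.Agent.N207.O.Cn.trk.eq_1 -- L35
end

-- ▼ part N207/O/Cn2
section

/-!
# Row 207, block O (helper81): the domains of a deep tower are connected, part 2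
-/

set_option autoImplicit false
set_option linter.unusedSectionVars false

open Set Filter Topology Metric

noncomputable section

namespace Crest.Agent.N207.O.Cn

open Tw

variable {ι : Type} [Fintype ι] [DecidableEq ι] {T : Tw ι} {C K : ℝ} {a b : ι ⊕ ℕ}
  {l m u L : List (ι ⊕ ℕ)} {x y y' : ι → ℂ} {Q : Set (ι → ℂ)}

theorem seed_inv (h : T.WF) (hB : Big T C K) (hl : u ++ b :: m <:+ T.top)
    (hy : y ∈ T.Sd (u ++ b :: m)) (hD : y ∈ T.D (u ++ b :: m)) (hx : x ∈ Rp ι)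
    (e : ∀ i ∈ m, T.s i x = T.s i y) (h1 : (T.s b x).re ≤ (T.s b y).re)
    (h2 : ∀ i ∈ m, (T.s i x).re ≤ (T.s b x).re) : Inv T C u b m [] x := by
  refine ⟨hx, fun i hi => ?_, fun i hi => by simp at hi, Or.inl le_rfl, fun j hj h0 => ?_⟩
  · rcases List.mem_cons.1 hi with rfl | hi
    · exact le_rfl
    · exact h2 i hi
  obtain ⟨u1, u2, rfl⟩ := List.append_of_mem hj
  have hl' : Sum.inr j :: (u2 ++ b :: m) <:+ T.top :=
    (List.suffix_append u1 _).trans (by simpa using hl)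
  obtain ⟨hjp, hlv⟩ := inr_suffix hl'
  have hy' : y ∈ T.D (T.lv j) := by
    rw [← hlv]
    exact D_suffix ((List.suffix_cons (Sum.inr j) _).trans
      (by simpa using List.suffix_append u1 (Sum.inr j :: (u2 ++ b :: m)))) hD
  obtain ⟨-, -, t3⟩ := tie_re h hjp hy' hy.1
  have c0 : 0 ≤ (T.lin (T.lv j) (T.c j) y).re := by
    rw [re_lin]
    exact Finset.sum_nonneg fun i hi => mul_nonneg (h.c0 j i)
      (by linarith [(D_cst hy' (List.mem_toFinset.1 hi)).1.1, h.R1])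
  have h3 := (List.pairwise_append.1 hy.2).2.2 _ hj b List.mem_cons_self
  have hu := abs_le.1 ((Complex.abs_re_le_norm _).trans (hB.ub j hjp y hy'))
  have hE : (T.E j y).re = (T.lin m (T.ρ j) x).re + (T.u j y).re := by
    have : T.lin m (T.ρ j) x = T.lin m (T.ρ j) y :=
      Finset.sum_congr rfl fun i hi => by rw [e i (List.mem_toFinset.1 hi)]
    rw [this, ← lin_supp (l := T.lv j) (fun i hi => by rw [← hlv]; simp [hi]) h0]; simp [E]
  have h4 : Real.exp (T.E j y).re ≤ Real.exp ((T.lin m (T.ρ j) x).re + C) :=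
    Real.exp_le_exp.2 (by linarith)
  have h5 := mul_le_mul_of_nonneg_left h1 (by linarith [h.R1] : 0 ≤ T.R)
  linarith

/-- `x` and `y` are joined inside `S` -/
def Jn (S : Set (ι → ℂ)) (x y : ι → ℂ) : Prop := ∃ P, IsPreconnected P ∧ P ⊆ S ∧ x ∈ P ∧ y ∈ P

theorem Jn.symm {S : Set (ι → ℂ)} (h : Jn S x y) : Jn S y x :=
  h.imp fun _ h => ⟨h.1, h.2.1, h.2.2.2, h.2.2.1⟩

theorem Jn.trans {S : Set (ι → ℂ)} {z : ι → ℂ} : Jn S x y → Jn S y z → Jn S x z
  | ⟨P, h1, h2, h3, h4⟩, ⟨P', g1, g2, g3, g4⟩ =>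
    ⟨P ∪ P', h1.union y h4 g3 g1, union_subset h2 g2, Or.inl h3, Or.inr g4⟩

theorem Jn.mem {S : Set (ι → ℂ)} : Jn S x y → y ∈ S
  | ⟨_, _, h2, _, h4⟩ => h2 h4

theorem jn_trk (h : T.WF) (hB : Big T C K) (hQ : IsPreconnected Q) (hy : y ∈ Q) (hx : x ∈ Q)
    (hD : Q ⊆ T.D (b :: m)) (hI : ∀ x ∈ Q, Inv T C u b m [] x) (hl : u ++ b :: m <:+ T.top)
    (h0 : trk T b u y ∈ T.D (u ++ b :: m)) :
    Jn (T.D (u ++ b :: m)) (trk T b u y) (trk T b u x) := by
  obtain ⟨h1, h2⟩ := trk_maps h hB hQ hy hD hI u hl (fun _ ha => ha) h0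
  exact ⟨_, hQ.image _ h1, by rintro _ ⟨x, hx, rfl⟩; exact (h2 x hx).1, ⟨y, hy, rfl⟩, ⟨x, hx, rfl⟩⟩

theorem down (h : T.WF) (hB : Big T C K) (hl : l <:+ T.top) (hy : y ∈ T.Sd l) (hD : y ∈ T.D l)
    (u : List (ι ⊕ ℕ)) : ∀ b m, l = u ++ b :: m → Jn (T.D l) y (trk T b u y) := by
  induction u using List.reverseRecOn with
  | nil => exact fun b m _ => ⟨{y}, isPreconnected_singleton, by simpa, rfl, rfl⟩
  | append_singleton u b' ih =>
    intro b m e
    have e' : l = u ++ b' :: b :: m := by simpa using e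
    have ih := ih b' (b :: m) e'
    rw [trk_snoc]
    rcases b' with k | j
    swap
    · exact ih
    refine ih.trans ?_
    have hm := ih.mem
    subst e'
    have hR := h.R1
    have hl1 : Sum.inl k :: b :: m <:+ T.top := (List.suffix_append _ _).trans hl
    have hl2 := suffix_tail hl1
    have hk := h.not_mem hl1
    have hf := not_fv h hl1
    have y1 : y ∈ T.D (Sum.inl k :: b :: m) := D_suffix (List.suffix_append _ _) hD
    have y2 := D_cons_sub y1
    have pw := List.pairwise_cons.1 (List.pairwise_append.1 hy.2).2.1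
    have pos : ∀ i ∈ b :: m, 0 ≤ (T.s i y).re := fun i hi => by linarith [(D_cst y2 hi).1.1]
    have le1 : (T.s b y).re ≤ (y k).re := by
      have := pw.1 b List.mem_cons_self
      rw [h.sN] at this
      nlinarith [pos b List.mem_cons_self]
    have le2 : ∀ i ∈ b :: m, (T.s i y).re ≤ (T.s b y).re := fun i hi => by
      rcases List.mem_cons.1 hi with rfl | hi'
      · exact le_rfl
      · nlinarith [(List.pairwise_cons.1 pw.2).1 i hi', pos i hi]
    have imb := T6_real h hl2 b List.mem_cons_self y y2 hy.1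
    have e1 : ∀ i ∈ b :: m, ∀ w, T.s i (Function.update y k w) = T.s i y := fun i hi w =>
      (h.ind_s hl2 hk (fun h' => absurd h' hf) hi).1 y w
    have e0 : ∀ w, T.s (Sum.inl k) (Function.update y k w) = w := fun w => by rw [h.sN]; simp
    set Q := (fun t : ℝ => Function.update y k (t : ℂ)) '' Icc (T.s b y).re (y k).re with hQd
    have hQ : IsPreconnected Q := isPreconnected_Icc.image _
      (continuous_const.update k Complex.continuous_ofReal).continuousOn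
    have hyQ : y ∈ Q := ⟨(y k).re, ⟨le1, le_rfl⟩, by
      have : ((y k).re : ℂ) = y k := Complex.ext (by simp) (by simpa using (hy.1 k).symm)
      simp [this]⟩
    have hxQ : trk T b [Sum.inl k] y ∈ Q := ⟨(T.s b y).re, ⟨le_rfl, le1⟩, by
      have : ((T.s b y).re : ℂ) = T.s b y := Complex.ext (by simp) (by simpa using imb.symm)
      simp [this, trk]⟩
    refine jn_trk h hB hQ hyQ hxQ (sub_D hQ ?_ ?_ hyQ y1) ?_ hl hm
    · rintro _ ⟨t, -, rfl⟩
      exact T2_upd h hl2 hk (fun h' => absurd h' hf) y2 (fun h' => absurd h' hf)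
    · rintro _ ⟨t, ht, rfl⟩
      refine ⟨?_, fun _ e => by cases e⟩
      rw [e0]
      exact O.Q.om_up (by linarith) (D_cst y2 List.mem_cons_self).1 imb (by simp)
        (by simpa using ht.1)
    · rintro _ ⟨t, ht, rfl⟩
      refine seed_inv h hB hl hy hD (fun k' => ?_) (fun i hi => e1 i hi _) ?_ fun i hi => ?_
      · by_cases e : k' = k
        · subst e; simp
        · simpa [e] using hy.1 k'
      · rw [e0, h.sN]; simpa using ht.2
      · rw [e0, e1 i hi]; simpa using (le2 i hi).trans ht.1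

theorem join (h : T.WF) (hB : Big T C K) (hl : a :: l <:+ T.top) (hy : y ∈ T.Sd (a :: l))
    (hD : y ∈ T.D (a :: l)) (hy' : y' ∈ T.Sd (a :: l)) (hD' : y' ∈ T.D (a :: l)) :
    Jn (T.D (a :: l)) y y' := by
  obtain ⟨u, b, e⟩ : ∃ u b, a :: l = u ++ [b] :=
    ⟨_, _, (List.dropLast_append_getLast (List.cons_ne_nil a l)).symm⟩
  have h1 := down h hB hl hy hD u b [] e
  have h2 := down h hB hl hy' hD' u b [] e
  refine h1.trans (Jn.trans ?_ h2.symm)
  have hm := h1.mem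
  rw [e] at hl hD hD' hm ⊢
  have hb : [b] <:+ T.top := (List.suffix_append _ _).trans hl
  have y1 : y ∈ T.D [b] := D_suffix (List.suffix_append _ _) hD
  have y2 : y' ∈ T.D [b] := D_suffix (List.suffix_append _ _) hD'
  have re : ∀ x ∈ segment ℝ y y', x ∈ Rp ι := by
    rintro _ ⟨s, t, -, -, -, rfl⟩ k
    simp [hy.1 k, hy'.1 k]
  have hQ := (convex_segment (𝕜 := ℝ) y y').isPreconnected
  refine jn_trk h hB hQ (left_mem_segment ℝ y y') (right_mem_segment ℝ y y')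
    (sub_D hQ (T.convex_D_nil.segment_subset (D_cons_sub y1) (D_cons_sub y2)) (fun x hx => ?_)
      (left_mem_segment ℝ y y') y1) (fun x hx => ?_) hl hm
  · rcases b with k | j
    swap
    · obtain ⟨hj, e⟩ := inr_suffix hb
      obtain ⟨i, hi, -⟩ := h.ρp j hj
      simp [← e] at hi
    refine ⟨?_, fun _ e => by cases e⟩
    have g1 := (D_cons_cst y1).1
    have g2 := (D_cons_cst y2).1
    rw [h.sN] at g1 g2 ⊢
    have hxr := re x hx k
    obtain ⟨s, t, hs, ht, hst, rfl⟩ := hx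
    have hre : ((s • y + t • y') k).re = s * (y k).re + t * (y' k).re := by simp
    obtain rfl : t = 1 - s := by linarith
    rcases le_total (y k).re (y' k).re with g | g
    · exact Q.om_up (by linarith [h.R1]) g1 (hy.1 k) hxr (by rw [hre]; nlinarith)
    · exact Q.om_up (by linarith [h.R1]) g2 (hy'.1 k) hxr (by rw [hre]; nlinarith)
  · refine ⟨re x hx, fun i hi => ?_, fun i hi => by simp at hi, Or.inl le_rfl, fun j hj h0 => ?_⟩
    · rw [List.mem_singleton.1 hi]; exact le_rfl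
    · obtain ⟨i, -, hi⟩ := h.ρp j (inr_mem_lv.1 (hl.subset (List.mem_append_left _ hj)))
      exact absurd (h0 i (by simp)) hi.ne'

theorem conn_of_big (h : T.WF) (hB : Big T C K) : ∀ l, l <:+ T.top → IsPreconnected (T.D l)
  | [], _ => T.convex_D_nil.isPreconnected
  | a :: l, hl => by
    refine isPreconnected_of_forall_pair fun x hx z hz => ?_
    have key : ∀ x ∈ T.D (a :: l), ∃ y ∈ T.Sd (a :: l), Jn (T.D (a :: l)) x y := by
      rintro x ⟨y, hy, hx⟩
      exact ⟨y, hy, _, isPreconnected_connectedComponentIn, fun w hw => ⟨y, hy, hw⟩, hx,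
        mem_connectedComponentIn (connectedComponentIn_nonempty_iff.1 ⟨_, hx⟩)⟩
    obtain ⟨y, hy, h1⟩ := key x hx
    obtain ⟨y', hy', h2⟩ := key z hz
    obtain ⟨P, g1, g2, g3, g4⟩ := h1.trans ((join h hB hl hy h1.mem hy' h2.mem).trans h2.symm)
    exact ⟨P, g2, g3, g4, g1⟩

theorem ev_lin_exp {ρ : ℝ} (hρ : 0 < ρ) (K C : ℝ) :
    ∀ᶠ o : ℝ in atTop, K * o ≤ Real.exp (ρ * o - C) := by
  have h := (Real.tendsto_exp_div_pow_atTop 1).comp (tendsto_id.const_mul_atTop hρ)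
  filter_upwards [h.eventually (eventually_ge_atTop (K * Real.exp C / ρ)),
    eventually_gt_atTop 0] with o h1 h2
  simp only [Function.comp, id, pow_one] at h1
  rw [div_le_div_iff₀ hρ (by positivity)] at h1
  rw [Real.exp_sub, le_div_iff₀ (Real.exp_pos _)]
  exact le_of_mul_le_mul_right (by linarith) hρ

theorem exists_big (h : T.WF) : ∃ C K R₀ : ℝ, T.R ≤ R₀ ∧ ∀ R ≥ R₀, ∀ r : ι → ℝ,
    (∀ k ∈ T.Fv, r k ≤ T.r k) → Big (T.shr R r) C K := by
  have e1 : ∀ᶠ C : ℝ in atTop, ∀ j ∈ Finset.range T.p, ∀ x ∈ T.D (T.lv j), ‖T.u j x‖ ≤ C := by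
    refine (eventually_all_finset _).2 fun j hj => ?_
    have hj := Finset.mem_range.1 hj
    obtain ⟨C, hC⟩ := A1_bd (T1_ok h (lv_top hj.le)) le_rfl (h.uA j hj)
    filter_upwards [eventually_ge_atTop C] with C' h' x hx using (hC x hx).trans h'
  have e2 : ∀ᶠ K : ℝ in atTop, ∀ j ∈ Finset.range T.p,
      1 + ∑ i ∈ (T.lv j).toFinset, T.c j i ≤ K :=
    (eventually_all_finset _).2 fun j _ => eventually_ge_atTop _
  obtain ⟨C, hC⟩ := e1.exists
  obtain ⟨K, hK⟩ := e2.exists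
  have e3 : ∀ᶠ o : ℝ in atTop, ∀ j ∈ Finset.range T.p, ∀ i ∈ T.top.toFinset, 0 < T.ρ j i →
      K * o ≤ Real.exp (T.ρ j i * o - C) := by
    simp only [eventually_all_finset]
    intro j _ i _
    by_cases h0 : 0 < T.ρ j i
    · exact (ev_lin_exp h0 K C).mono fun _ h _ => h
    · exact Eventually.of_forall fun _ h => absurd h h0
  have e4 : ∀ᶠ o : ℝ in atTop, ∀ j ∈ Finset.range T.p, ∀ j' ∈ Finset.range T.p,
      ∀ i ∈ T.top.toFinset, T.ρ j' i < T.ρ j i →
        K ≤ Real.exp ((T.ρ j i - T.ρ j' i) * o - 2 * C) := by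
    simp only [eventually_all_finset]
    intro j _ j' _ i _
    by_cases h0 : T.ρ j' i < T.ρ j i
    · filter_upwards [ev_lin_exp (sub_pos.2 h0) |K| (2 * C), eventually_ge_atTop 1] with o g1 g2 _
      nlinarith [le_abs_self K, abs_nonneg K]
    · exact Eventually.of_forall fun _ h => absurd h h0
  obtain ⟨R₀, H⟩ := eventually_atTop.1 (((e3.and e4).and (eventually_ge_atTop T.R)).and
    (eventually_ge_atTop (K * Real.exp (2 * C))))
  refine ⟨C, K, R₀, (H R₀ le_rfl).1.2, fun R hR r hr => ⟨fun j hj x hx => ?_, fun j hj => ?_,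
    fun j hj i hi h0 o ho => ?_, fun j hj j' hj' i hi h0 => ?_, (H R hR).2⟩⟩
  · rw [T.shr_lv] at hx
    exact hC j (Finset.mem_range.2 hj) x
      (T.shr_D (h.R1.trans (H R hR).1.2) (H R hR).1.2 hr _ hx)
  · rw [T.shr_lv]; exact hK j (Finset.mem_range.2 hj)
  · rw [T.shr_top] at hi
    exact (H o (hR.trans ho)).1.1.1 j (Finset.mem_range.2 hj) i (List.mem_toFinset.2 hi) h0
  · rw [T.shr_top] at hi
    exact (H R hR).1.1.2 j (Finset.mem_range.2 hj) j' (Finset.mem_range.2 hj') i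
      (List.mem_toFinset.2 hi) h0

end Crest.Agent.N207.O.Cn

namespace Crest.Agent.N207.O

/-- the domains of a deep tower are connected -/
theorem cn_deep {ι : Type} [Fintype ι] [DecidableEq ι] {T : Tw ι} (h : T.WF) :
    ∃ R₀ : ℝ, T.R ≤ R₀ ∧ ∀ R ≥ R₀, ∀ r : ι → ℝ, (∀ k ∈ T.Fv, 0 < r k ∧ r k ≤ T.r k) →
      ∀ l, l <:+ (T.shr R r).top → IsPreconnected ((T.shr R r).D l) := by
  obtain ⟨C, K, R₀, h0, H⟩ := Cn.exists_big h
  exact ⟨R₀, h0, fun R hR r hr => Cn.conn_of_big (T4_shr h (h0.trans hR) hr).1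
    (H R hR r fun k hk => (hr k hk).2)⟩

end Crest.Agent.N207.O
end
end

-- ▼ part N207/O/Q1
section

/-!
# Row 207, block O (helper81): deep restrictions of a well formed tower are good
-/

set_option autoImplicit false

namespace Crest.Agent.N207.O

theorem Q1_good {ι : Type} [Fintype ι] [DecidableEq ι] {T : Tw ι} (h : T.WF) :
    ∃ R₀ : ℝ, T.R ≤ R₀ ∧ ∀ R ≥ R₀, ∀ r : ι → ℝ,
      (∀ k ∈ T.Fv, 0 < r k ∧ r k ≤ T.r k) → (T.shr R r).Good := by
  obtain ⟨R₀, -, H⟩ := cn_deep h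
  exact good_of h ⟨R₀, fun R hR r hr l hl => H R hR r hr l (by rwa [T.shr_top])⟩

end Crest.Agent.N207.O
end

-- ▼ part N207/O/Lf1

/-!
# Row 207, block O (helper84): algebra of real class functions and of lifts
-/

set_option autoImplicit false
set_option linter.unusedSectionVars false

open Set Filter Topology Metric

noncomputable section

namespace Crest.Agent.N207.O

variable {ι : Type} [Fintype ι] [DecidableEq ι] {α : Type} {U : Ultrafilter α} {T T' T'' : Tw ι}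
  {p p' p'' : α → ι → ℂ} {l l' l'' : List (ι ⊕ ℕ)} {W W' : Finset ι} {k : ι}
  {g g' : (ι → ℂ) → ℂ} {Φ Ψ : (ι → ℂ) → ι → ℂ} {n m : ℕ}

namespace Tw

/-- real elements of the class -/
structure AR (T : Tw ι) (l : List (ι ⊕ ℕ)) (g : (ι → ℂ) → ℂ) : Prop where
  a : T.fr.A l g
  r : RR (T.D l) g

theorem AR.congr (h : T.AR l g) (e : ∀ x ∈ T.D l, g x = g' x) : T.AR l g' :=
  ⟨A2_congr h.a e, fun x hx hr => e x hx ▸ h.r x hx hr⟩

theorem AR.add (hO : T.fr.Ok l) (h : T.AR l g) (h' : T.AR l g') : T.AR l fun x => g x + g' x :=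
  ⟨A3_add hO h.a h'.a, fun x hx hr => by simp [h.r x hx hr, h'.r x hx hr]⟩

theorem AR.mul (hO : T.fr.Ok l) (h : T.AR l g) (h' : T.AR l g') : T.AR l fun x => g x * g' x :=
  ⟨Fr.A.mul hO h.a h'.a, fun x hx hr => by simp [h.r x hx hr, h'.r x hx hr]⟩

theorem AR.const (hO : T.fr.Ok l) (c : ℝ) : T.AR l fun _ => (c : ℂ) :=
  ⟨Fr.Cl.const hO _, fun _ _ _ => Complex.ofReal_im c⟩

theorem AR.neg (h : T.AR l g) : T.AR l fun x => -g x :=
  ⟨Fr.Cl.neg h.a, fun x hx hr => by simp [h.r x hx hr]⟩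

theorem AR.exp (hO : T.fr.Ok l) (h : T.AR l g) : T.AR l fun x => Complex.exp (g x) :=
  ⟨C3_exp hO h.a, fun x hx hr => by simp [Complex.exp_im, h.r x hx hr]⟩

theorem AR.pow (hO : T.fr.Ok l) (h : T.AR l g) : ∀ n : ℕ, T.AR l fun x => g x ^ n
  | 0 => (AR.const hO 1).congr fun _ _ => by simp
  | n + 1 => ((AR.pow hO h n).mul hO h).congr fun _ _ => (pow_succ _ _).symm

theorem AR.sum {I : Type*} (hO : T.fr.Ok l) (J : Finset I) {f : I → (ι → ℂ) → ℂ}
    (h : ∀ i ∈ J, T.AR l (f i)) : T.AR l fun x => ∑ i ∈ J, f i x :=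
  ⟨Fr.Cl.sum hO J fun i hi => (h i hi).a, fun x hx hr => by
    rw [Complex.im_sum]; exact Finset.sum_eq_zero fun i hi => (h i hi).r x hx hr⟩

theorem AR.lift (hO : T.fr.Ok l) (hl : l' <:+ l) (h : T.AR l' g) : T.AR l g :=
  ⟨A4_lift hO hl h.a, fun x hx hr => h.r x (D_suffix hl hx) hr⟩

theorem AR.coord (hO : T.fr.Ok l) (hk : k ∈ T.Fv) : T.AR l fun x => x k :=
  ⟨Fr.A.of_nil hO (differentiable_apply k).differentiableOn
    ⟨T.r k, fun _ hx => (hx k hk).le⟩, fun _ _ hr => hr k⟩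

theorem AR.mon (h : T.WF) (hl : l <:+ T.top) {γ : ι ⊕ ℕ → ℝ} (hγ : ∀ a, 0 ≤ γ a) :
    T.AR l fun x => Complex.exp (-T.lin l γ x) :=
  ⟨T7_mon h hl hγ, fun x hx hr => by
    simp [Complex.exp_im, im_lin (fun a ha => T6_real h hl a ha x hx hr) γ]⟩

theorem AR.dif (h : T.AR l g) : DifferentiableOn ℂ g (T.D l) := A1_diff h.a

theorem AR.bd (hO : T.fr.Ok l) (h : T.AR l g) : Bd (T.D l) g := A1_bd hO le_rfl h.a

/-- limits along the ultrafilter exist -/
theorem AR.ulim (hO : T.fr.Ok l) (h : T.AR l g) {q : α → ι → ℂ} (hq : ∀ᶠ i in U, q i ∈ T.D l) :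
    ∃ c, Tendsto (fun i => g (q i)) U (𝓝 c) := by
  obtain ⟨C, hC⟩ := h.bd hO
  obtain ⟨c, -, hc⟩ := (isCompact_closedBall (0 : ℂ) C).ultrafilter_le_nhds'
    (U.map fun i => g (q i)) (Ultrafilter.mem_map.2 (hq.mono fun i hi => by simpa using hC _ hi))
  exact ⟨c, hc⟩

theorem Pb.ar (h : Pb T T' l l' Φ) (hg : T.AR l g) : T'.AR l' (g ∘ Φ) :=
  ⟨h.cl g hg.a, h.rr g hg.a hg.r⟩

theorem lin_add (γ γ' : ι ⊕ ℕ → ℝ) (x : ι → ℂ) :
    T.lin l (γ + γ') x = T.lin l γ x + T.lin l γ' x := by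
  simp [lin, add_mul, Finset.sum_add_distrib]

theorem lin_sub (γ γ' : ι ⊕ ℕ → ℝ) (x : ι → ℂ) :
    T.lin l (γ - γ') x = T.lin l γ x - T.lin l γ' x := by
  simp [lin, sub_mul, Finset.sum_sub_distrib]

theorem lin_smul (t : ℝ) (γ : ι ⊕ ℕ → ℝ) (x : ι → ℂ) :
    T.lin l (t • γ) x = t * T.lin l γ x := by
  simp [lin, Finset.mul_sum, mul_assoc]

theorem lin_zero {γ : ι ⊕ ℕ → ℝ} (h : ∀ a ∈ l, γ a = 0) (x : ι → ℂ) : T.lin l γ x = 0 :=
  Finset.sum_eq_zero fun a ha => by simp [h a (List.mem_toFinset.1 ha)]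


theorem Pb.lin (h : Pb T T' l l' Φ) (hO : T'.fr.Ok l') (γ : ι ⊕ ℕ → ℝ) :
    ∃ (γ' : ι ⊕ ℕ → ℝ) (b : (ι → ℂ) → ℂ), T'.AR l' b ∧
      ∀ x ∈ T'.D l', T.lin l γ (Φ x) = T'.lin l' γ' x + b x := by
  choose! C b h1 h2 h3 using h.sc
  refine ⟨fun c => ∑ a ∈ l.toFinset, γ a * C a c, fun x => ∑ a ∈ l.toFinset, γ a * b a x,
    AR.sum hO _ fun a ha => (AR.const hO _).mul hO
      ⟨h1 a (List.mem_toFinset.1 ha), h2 a (List.mem_toFinset.1 ha)⟩, fun x hx => ?_⟩
  have : T'.lin l' (fun c => ∑ a ∈ l.toFinset, γ a * C a c) x =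
      ∑ a ∈ l.toFinset, γ a * T'.lin l' (C a) x := by
    simp only [Tw.lin, Finset.mul_sum, Complex.ofReal_sum, Finset.sum_mul, Complex.ofReal_mul,
      mul_assoc]
    exact Finset.sum_comm
  rw [this, ← Finset.sum_add_distrib]
  exact Finset.sum_congr rfl fun a ha => by rw [h3 a (List.mem_toFinset.1 ha) x hx, mul_add]

theorem Pb.trans (h : Pb T T' l l' Φ) (h' : Pb T' T'' l' l'' Ψ) (hO : T''.fr.Ok l'') :
    Pb T T'' l l'' (Φ ∘ Ψ) where
  maps := h.maps.comp h'.maps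
  cl g hg := h'.cl _ (h.cl g hg)
  rr g hg hr := h'.rr _ (h.cl g hg) (h.rr g hg hr)
  sc a ha := by
    obtain ⟨C, b, h1, h2, h3⟩ := h.sc a ha
    obtain ⟨C', b', h4, h5⟩ := h'.lin hO C
    have h6 := h4.add hO (h'.ar ⟨h1, h2⟩)
    exact ⟨C', _, h6.a, h6.r, fun x hx => by
      rw [Function.comp, h3 _ (h'.maps hx), h5 x hx, add_assoc]; rfl⟩

theorem lw_top (h : m ≤ T.p + 1) : T.lw m <:+ T.top := by
  cases m with
  | zero => exact List.nil_suffix
  | succ m => exact lv_top (by omega)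

theorem lw_mono (h : m ≤ n) : T.lw m <:+ T.lw n := by
  cases m with
  | zero => exact List.nil_suffix
  | succ m => cases n with
    | zero => omega
    | succ n => exact lv_suffix (by omega)

theorem lv_congr (h : T'.B = T.B) : T'.lv = T.lv := by
  funext j
  induction j with
  | zero => simp only [lv, h]
  | succ j ih => simp only [lv, h, ih]

theorem lw_congr (h : T'.B = T.B) : T'.lw = T.lw := by
  funext j; cases j with
  | zero => rfl
  | succ j => simp only [lw, lv_congr h]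

theorem top_congr (h : T'.B = T.B) (hp : T'.p = T.p) : T'.top = T.top := by
  simp only [top, lv_congr h, hp]

theorem Lift.top (h : T.Lift T' U n W p p' Φ) (hn : n ≤ T.p + 1) : Pb T T' T.top T'.top Φ := by
  have := h.pb (T.p + 1) hn le_rfl
  rwa [show T'.lw (T.p + 1) = T'.top by rw [← h.pp]; rfl] at this

theorem Lift.lv (h : T.Lift T' U n W p p' Φ) (hn : n ≤ m + 1) (hm : m ≤ T.p) :
    Pb T T' (T.lv m) (T'.lv m) Φ := h.pb (m + 1) hn (by omega)

theorem Lift.mono (h : T.Lift T' U n W p p' Φ) (hn : n ≤ m) (hW : W' ⊆ W) :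
    T.Lift T' U m W' p p' Φ :=
  { h with
    pas := fun k hk => h.pas k (hW hk)
    com := fun k hk => h.com k (hW hk)
    lab := fun k hk => (h.lab k hk).trans (max_le_max le_rfl (by omega))
    pb := fun j hj => h.pb j (hn.trans hj) }

theorem Lift.trans (h : T.Lift T' U n W p p' Φ) (h' : T'.Lift T'' U n W p' p'' Ψ)
    (hn : n ≤ T.p + 1) : T.Lift T'' U n W p p'' (Φ ∘ Ψ) where
  wf := h'.wf
  pt := h'.pt
  hp := by filter_upwards [h.hp, h'.hp] with i h1 h2; rw [Function.comp, h2, h1]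
  pp := h'.pp.trans h.pp
  mu := h'.mu.trans h.mu
  sub := h'.sub.trans h.sub
  pas k hk hF := by
    obtain ⟨a1, a2, a3⟩ := h.pas k hk hF
    obtain ⟨b1, b2, b3⟩ := h'.pas k hk a1
    exact ⟨b1, b2.trans a2, b3.trans a3⟩
  com k hk x w := by simp only [Function.comp, h'.com k hk, h.com k hk]
  lab k hk := (h'.lab k hk).trans (max_le (h.lab k (h'.sub hk)) (le_max_right _ _))
  dif := h.dif.comp h'.dif (h'.top (h.pp ▸ hn)).maps
  rea x hx hr := h.rea _ ((h'.top (h.pp ▸ hn)).maps hx) (h'.rea x hx hr)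
  pb j h1 h2 := (h.pb j h1 h2).trans (h'.pb j h1 (h.pp ▸ h2))
    (T1_ok h'.wf (lw_top (by rw [h'.pp, h.pp]; exact h2)))

theorem Same.mono (h : T.Same T' n Φ) (hn : n ≤ m) : T.Same T' m Φ :=
  { h with
    pb := fun l h1 => h.pb l ((lw_mono hn).trans h1)
    sc := fun a l h1 => h.sc a l ((lw_mono hn).trans h1) }

/-- a shape preserving lift to a good tower -/
structure Stp (T T' : Tw ι) (U : Ultrafilter α) (n : ℕ) (W : Finset ι) (p p' : α → ι → ℂ)
    (Φ : (ι → ℂ) → ι → ℂ) : Prop where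
  lf : T.Lift T' U n W p p' Φ
  sm : T.Same T' n Φ
  gd : T'.Good

theorem Same.trans (h : T.Same T' n Φ) (h' : T'.Same T'' n Ψ) (hp : T'.p = T.p)
    (hp' : T''.p = T'.p) (hw : T''.WF) (hn : n ≤ T.p + 1) : T.Same T'' n (Φ ∘ Ψ) := by
  have e1 := top_congr h.B hp
  have e2 := top_congr h'.B hp'
  have e3 := lw_congr h.B
  refine ⟨h'.B.trans h.B, h'.Fv.trans h.Fv, h'.lab.trans h.lab, fun x hx => ?_, fun l h1 h2 => ?_,
    fun a l h1 h2 => ?_⟩
  · have := (h'.pb T'.top (lw_top (hp ▸ hn)) List.suffix_rfl).maps (e2 ▸ hx)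
    exact (h.opn _ this).trans (map_mono (h'.opn x hx))
  · exact (h.pb l h1 h2).trans (h'.pb l (e3 ▸ h1) (e1 ▸ h2)) (T1_ok hw (e2 ▸ e1 ▸ h2))
  · have hO := T1_ok hw (l := a :: l) (e2 ▸ e1 ▸ h2)
    obtain ⟨C, b, a1, a2, a3⟩ := h.sc a l h1 h2
    obtain ⟨C', b', b1, b2, b3⟩ := h'.sc a l (e3 ▸ h1) (e1 ▸ h2)
    have P := h'.pb (a :: l) (e3 ▸ h1.trans (List.suffix_cons _ _)) (e1 ▸ h2)
    obtain ⟨C'', b'', c1, c2⟩ := (h'.pb l (e3 ▸ h1) (e1 ▸ suffix_tail h2)).lin hO.tail C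
    have d := (AR.add hO ⟨b1, b2⟩ (c1.lift hO (List.suffix_cons _ _))).add hO (P.ar ⟨a1, a2⟩)
    refine ⟨C' + C'', _, d.a, d.r, fun x hx => ?_⟩
    rw [Function.comp, a3 _ (P.maps hx), b3 x hx, c2 x (D_cons_sub hx), lin_add]
    simp only [Function.comp]; ring

theorem Stp.trans (h : Stp T T' U n W p p' Φ) (h' : Stp T' T'' U n W p' p'' Ψ)
    (hn : n ≤ T.p + 1) : Stp T T'' U n W p p'' (Φ ∘ Ψ) :=
  ⟨h.lf.trans h'.lf hn, h.sm.trans h'.sm h.lf.pp h'.lf.pp h'.gd.wf hn, h'.gd⟩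

theorem Stp.mono (h : Stp T T' U n W p p' Φ) (hn : n ≤ m) (hW : W' ⊆ W) :
    Stp T T' U m W' p p' Φ := ⟨h.lf.mono hn hW, h.sm.mono hn, h.gd⟩

theorem Stp.top (h : Stp T T' U n W p p' Φ) : T'.top = T.top := top_congr h.sm.B h.lf.pp

theorem Stp.lv (h : Stp T T' U n W p p' Φ) : T'.lv = T.lv := lv_congr h.sm.B

theorem Stp.refl (h : T.Good) (hp : T.Pt U p) : Stp T T U n W p p id :=
  have := E0_shr (W := W) h.wf hp le_rfl (fun k hk => ⟨h.wf.r0 k hk, le_rfl⟩) fun _ _ => rfl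
  Stp.mono ⟨this.1, this.2, h⟩ (Nat.zero_le _) Finset.Subset.rfl

/-- every well formed tower becomes good after shrinking -/
theorem exists_good (h : T.WF) (hp : T.Pt U p) (W : Finset ι) :
    ∃ R, T.R ≤ R ∧ Stp T (T.shr R T.r) U 0 W p p id := by
  obtain ⟨R, h1, h2⟩ := Q1_good h
  have h3 : ∀ k ∈ T.Fv, 0 < T.r k ∧ T.r k ≤ T.r k := fun k hk => ⟨h.r0 k hk, le_rfl⟩
  have := E0_shr (W := W) h hp h1 h3 fun _ _ => rfl
  exact ⟨R, h1, this.1, this.2, h2 R le_rfl _ h3⟩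

theorem Lift.fix (h : T.Lift T' U n W p p' Φ) (hs : T.Same T' n Φ) (hn : n ≤ T.p + 1) :
    ∃ R, (∀ l, (T'.shr R T'.r).D l ⊆ T'.D l) ∧ Stp T (T'.shr R T'.r) U n W p p' Φ := by
  obtain ⟨R, h1, h2⟩ := exists_good h.wf h.pt W
  have h3 := h2.mono (Nat.zero_le n) Finset.Subset.rfl
  exact ⟨R, T'.shr_D (h.wf.R1.trans h1) h1 fun _ _ => le_rfl, h.trans h3.lf hn,
    hs.trans h3.sm h.pp h3.lf.pp h3.gd.wf hn, h3.gd⟩


end Tw

end Crest.Agent.N207.O
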