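import Crest.Agent.N207.O.Unt2
import Crest.Agent.N207.O.Lf1
import Crest.Agent.N207.O.En2_Mg
import Crest.Agent.N207.O.Comp
import Crest.Agent.N207.O.Cj
import Crest.Agent.N207.O.El1
import Crest.Agent.N207.O.Ost
import Crest.Agent.N207.J.PLT

-- ▼ part N207/O/Qd
section

/-!
# Row 207, block O (helper47): derivatives along `T.dir` at the ultrafilter point
-/

set_option autoImplicit false
set_option linter.unusedSectionVars false

open Set Filter Topology Metric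

noncomputable section

namespace Crest.Agent.N207.O

variable {ι : Type} [Fintype ι] [DecidableEq ι] {α : Type} {U : Ultrafilter α} {T : Tw ι}
  {p : α → ι → ℂ} {l : List (ι ⊕ ℕ)} {a : ι ⊕ ℕ} {j : ℕ} {x y : ι → ℂ} {g : (ι → ℂ) → ℂ}

open El

namespace Qd

/-- value of the head scale -/
def hd (T : Tw ι) (x : ι → ℂ) : List (ι ⊕ ℕ) → ℝ
  | [] => 1
  | a :: _ => (T.s a x).re

/-- a disc of polynomial size in the direction `T.dir` stays in the domain -/
def Dsc (T : Tw ι) (U : Ultrafilter α) (p : α → ι → ℂ) (l : List (ι ⊕ ℕ)) : Prop :=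
  ∃ (ρ : α → ℝ) (C : ℝ) (N : ℕ), 0 ≤ C ∧ ∀ᶠ i in U, 0 < ρ i ∧ ρ i ≤ 1 ∧
    (ρ i)⁻¹ ≤ C * hd T (p i) l ^ N ∧ ∀ t : ℂ, ‖t‖ < ρ i → p i + t • T.dir ∈ T.D l ∧
      ∀ b ∈ l, ‖T.s b (p i + t • T.dir) - T.s b (p i)‖ ≤ 1

theorem norm_lin_le {f : ι ⊕ ℕ → ℂ} (δ : ι ⊕ ℕ → ℝ) {M : ℝ} (h : ∀ b ∈ l, ‖f b‖ ≤ M) :
    ‖∑ b ∈ l.toFinset, (δ b : ℂ) * f b‖ ≤ (∑ b ∈ l.toFinset, |δ b|) * M := by
  rw [Finset.sum_mul]
  refine norm_sum_le_of_le _ fun b hb => ?_
  rw [norm_mul, Complex.norm_real, Real.norm_eq_abs]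
  exact mul_le_mul_of_nonneg_left (h b (List.mem_toFinset.1 hb)) (abs_nonneg _)

theorem lin_sub_le (δ : ι ⊕ ℕ → ℝ) (h : ∀ b ∈ l, ‖T.s b y - T.s b x‖ ≤ 1) :
    ‖T.lin l δ y - T.lin l δ x‖ ≤ ∑ b ∈ l.toFinset, |δ b| := by
  simpa only [Tw.lin, ← Finset.sum_sub_distrib, ← mul_sub, mul_one] using norm_lin_le δ h

theorem ev_val (h : T.WF) (hp : T.Pt U p) (hl : a :: l <:+ T.top) : ∀ᶠ i in U,
    1 ≤ (T.s a (p i)).re ∧ hd T (p i) l ≤ (T.s a (p i)).re ∧ 0 ≤ hd T (p i) l ∧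
      ∀ b ∈ a :: l, ‖T.s b (p i)‖ ≤ (T.s a (p i)).re := by
  filter_upwards [(hp.big a (hl.subset List.mem_cons_self)).eventually_ge_atTop 1,
    hp.ev_Sd 1 hl, T5_mem h hp hl] with i h1 h2 h3
  have h0 : ∀ b ∈ a :: l, 0 ≤ (T.s b (p i)).re := fun b hb => by
    linarith [(s_om h3 hb).1, h.R1]
  have h4 : ∀ b ∈ l, (T.s b (p i)).re ≤ (T.s a (p i)).re := fun b hb => by
    simpa using (List.rel_of_pairwise_cons h2 hb).le
  refine ⟨h1, ?_, ?_, fun b hb => ?_⟩
  · cases l with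
    | nil => exact h1
    | cons b l => exact h4 b List.mem_cons_self
  · cases l with
    | nil => exact zero_le_one
    | cons b l => exact h0 b (by simp)
  · rw [← Complex.abs_re_eq_norm.2 (T6_real h hl b hb _ h3 (hp.re i)), abs_of_nonneg (h0 b hb)]
    rcases List.mem_cons.1 hb with rfl | hb
    · exact le_rfl
    · exact h4 b hb

theorem dir_one {k : ι} (hk : Sum.inl k ∈ T.top) : T.dir k = 1 := by simp [Tw.dir, hk]

theorem dir_zero (h : T.WF) {k : ι} (hk : k ∈ T.Fv) : T.dir k = 0 := by simp [Tw.dir, h.dj k hk]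

theorem move (h : T.WF) (hl : a :: l <:+ T.top) : ∃ K : ℝ, 1 ≤ K ∧ ∀ (x : ι → ℂ) (t : ℂ) (M : ℝ),
    1 ≤ M → ‖t‖ ≤ 1 → x ∈ T.D l → x + t • T.dir ∈ T.D l → (∀ b ∈ a :: l, ‖T.s b x‖ ≤ M) →
    (∀ b ∈ l, ‖T.s b (x + t • T.dir) - T.s b x‖ ≤ 1) →
    ‖T.s a (x + t • T.dir) - T.s a x‖ ≤ K * M := by
  rcases a with k | j
  · refine ⟨1, le_rfl, fun x t M h1 h2 _ _ _ _ => ?_⟩
    simp only [h.sN, Pi.add_apply, Pi.smul_apply, dir_one (hl.subset List.mem_cons_self)]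
    simpa using h2.trans h1
  obtain ⟨rfl, hj⟩ := suffix_inr hl
  obtain ⟨B, hB⟩ := A1_bd (T1_ok h (lv_top T hj.le)) le_rfl (h.uA j hj)
  obtain ⟨S, hS⟩ : ∃ S, S = ∑ b ∈ (T.lv j).toFinset, |T.c j b| := ⟨_, rfl⟩
  obtain ⟨K, hK⟩ : ∃ K, K = Real.exp (∑ b ∈ (T.lv j).toFinset, |T.ρ j b| + 2 * B) := ⟨_, rfl⟩
  have S0 : 0 ≤ S := hS ▸ Finset.sum_nonneg fun _ _ => abs_nonneg _
  have K0 : 0 < K := hK ▸ Real.exp_pos _
  refine ⟨(K + 1) * (1 + S) + S, by nlinarith, fun x t M h1 _ hx hy h4 h5 => ?_⟩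
  generalize x + t • T.dir = y at *
  have a1 := hS ▸ lin_sub_le (T.c j) h5
  have a2 : ‖T.lin (T.lv j) (T.c j) x‖ ≤ S * M :=
    hS ▸ norm_lin_le (T.c j) fun b hb => h4 b (List.mem_cons_of_mem _ hb)
  have a3 : ‖Complex.exp (T.E j x)‖ ≤ (1 + S) * M := by
    rw [← sub_add_cancel (Complex.exp _) (T.lin (T.lv j) (T.c j) x), ← h.sL j hj x hx]
    linarith [norm_add_le (T.s (.inr j) x) (T.lin (T.lv j) (T.c j) x), h4 _ List.mem_cons_self]
  have a4 : ‖Complex.exp (T.E j y)‖ ≤ K * ‖Complex.exp (T.E j x)‖ := by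
    rw [Complex.norm_exp, Complex.norm_exp, hK, ← Real.exp_add, Real.exp_le_exp]
    have b1 := (Complex.re_le_norm _).trans (lin_sub_le (T.ρ j) h5)
    have b2 := (Complex.re_le_norm _).trans (hB y hy)
    have b3 := (Complex.re_le_norm (-T.u j x)).trans (norm_neg (T.u j x) ▸ hB x hx)
    simp only [Tw.E, Complex.add_re, Complex.sub_re, Complex.neg_re] at b1 b3 ⊢
    linarith
  have e : T.s (.inr j) y - T.s (.inr j) x = Complex.exp (T.E j y) - Complex.exp (T.E j x) -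
      (T.lin (T.lv j) (T.c j) y - T.lin (T.lv j) (T.c j) x) := by
    rw [h.sL j hj x hx, h.sL j hj y hy]; ring
  rw [e]
  have a5 := norm_sub_le (Complex.exp (T.E j y)) (Complex.exp (T.E j x))
  have a6 := mul_le_mul_of_nonneg_left a3 K0.le
  refine (norm_sub_le _ _).trans ?_
  nlinarith

theorem dif_line {S : Set (ι → ℂ)} (hg : DifferentiableOn ℂ g S) {r : ℝ} {v : ι → ℂ}
    (hm : ∀ t : ℂ, ‖t‖ < r → x + t • v ∈ S) :
    DifferentiableOn ℂ (fun t : ℂ => g (x + t • v)) (ball 0 r) :=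
  hg.comp (by fun_prop) fun t ht => hm t (mem_ball_zero_iff.1 ht)

theorem dsc (h : T.WF) (hp : T.Pt U p) (hl : l <:+ T.top) : Dsc T U p l := by
  induction l with
  | nil =>
    refine ⟨fun _ => 1, 1, 0, zero_le_one, (T5_mem h hp hl).mono fun i hi =>
      ⟨one_pos, le_rfl, by simp, fun t _ => ⟨fun k hk => ?_, by simp⟩⟩⟩
    simpa [dir_zero h hk] using hi k hk
  | cons a l ih =>
    obtain ⟨ρ, C, N, C0, H⟩ := ih (suffix_tail hl)
    obtain ⟨K, K1, hK⟩ := move h hl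
    refine ⟨fun i => ρ i / (K * (T.s a (p i)).re), K * C, N + 1, by positivity, ?_⟩
    filter_upwards [H, ev_val h hp hl, T5_mem h hp hl, hp.ev_Sd T.R hl,
      (hp.big a (hl.subset List.mem_cons_self)).eventually (ev_Om (2 * T.R + 1))]
      with i ⟨r0, r1, r2, r3⟩ ⟨v1, v2, v3, v4⟩ hm hs ho
    have hre : ((T.s a (p i)).re : ℂ) = T.s a (p i) :=
      Complex.ext rfl (T6_real h hl a List.mem_cons_self _ hm (hp.re i)).symm
    rw [hre] at ho
    simp only [hd]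
    generalize (T.s a (p i)).re = M at *
    have M1 : 1 ≤ K * M := by nlinarith
    have r4 : ρ i / (K * M) ≤ ρ i := div_le_self r0.le M1
    have b1 : ∀ t : ℂ, ‖t‖ < ρ i / (K * M) → ‖T.s a (p i + t • T.dir) - T.s a (p i)‖ ≤ 1 := by
      intro t ht
      have := Complex.dist_le_div_mul_dist_of_mapsTo_ball (R₂ := K * M)
        (dif_line (dif_s h hl) fun t ht => (r3 t ht).1) (fun t ht => by
          have ht := mem_ball_zero_iff.1 ht
          simpa [dist_eq_norm] using hK _ t M v1 (ht.le.trans r1) (D_cons hm).1 (r3 t ht).1 v4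
            (r3 t ht).2) (mem_ball_zero_iff.2 (ht.trans_le r4))
      simp only [dist_eq_norm, zero_smul, add_zero, sub_zero] at this
      refine this.trans ?_
      rw [lt_div_iff₀ (by positivity)] at ht
      rw [div_mul_eq_mul_div, div_le_one r0]
      linarith
    refine ⟨by positivity, r4.trans r1, ?_, fun t ht => ⟨?_, fun b hb => ?_⟩⟩
    · rw [inv_div, div_eq_mul_inv]
      have := r2.trans (mul_le_mul_of_nonneg_left (pow_le_pow_left₀ v3 v2 N) C0)
      refine (mul_le_mul_of_nonneg_left this (by positivity)).trans (le_of_eq (by ring))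
    · have hS : IsPreconnected ((fun t : ℂ => p i + t • T.dir) '' ball 0 (ρ i / (K * M))) :=
        (convex_ball _ _).isPreconnected.image _ (by fun_prop)
      refine maps_step (Φ := id) (G := {p i}) h hl continuousOn_id (fun z hz => ?_)
        (fun z hz => ?_) (fun z hz _ => by rw [hz]; exact ⟨hp.re i, hs⟩)
        ⟨p i, rfl, hS.subset_connectedComponentIn ⟨0, mem_ball_self (by positivity), by simp⟩
          Subset.rfl ⟨t, mem_ball_zero_iff.2 ht, rfl⟩⟩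
      · obtain ⟨s, hs, rfl⟩ := RC_sub hz
        exact (r3 s ((mem_ball_zero_iff.1 hs).trans_le r4)).1
      · obtain ⟨s, hs, rfl⟩ := RC_sub hz
        simpa using Unt.Om_add h.R1 zero_le_one le_rfl ho (b1 s (mem_ball_zero_iff.1 hs))
    · rcases List.mem_cons.1 hb with rfl | hb
      · exact b1 t ht
      · exact (r3 t (ht.trans_le r4)).2 b hb

theorem hasDerivAt_line (hg : DifferentiableAt ℂ g x) (v : ι → ℂ) :
    HasDerivAt (fun t : ℂ => g (x + t • v)) (fderiv ℂ g x v) 0 := by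
  have h1 : HasDerivAt (fun t : ℂ => x + t • v) v 0 := by
    simpa using ((hasDerivAt_id (0 : ℂ)).smul_const v).const_add x
  exact HasFDerivAt.comp_hasDerivAt_of_eq 0 hg.hasFDerivAt h1 (by simp)

theorem cauchy {S : Set (ι → ℂ)} (hS : IsOpen S) (hg : DifferentiableOn ℂ g S) {r M : ℝ}
    (hr : 0 < r) {v : ι → ℂ} (hm : ∀ t : ℂ, ‖t‖ < r → x + t • v ∈ S ∧ ‖g (x + t • v) - g x‖ ≤ M) :
    ‖fderiv ℂ g x v‖ ≤ M * r⁻¹ := by
  have hx : x ∈ S := by simpa using (hm 0 (by simpa using hr)).1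
  rw [← (hasDerivAt_line (hg.differentiableAt (hS.mem_nhds hx)) v).deriv]
  exact Complex.norm_deriv_le_div_of_mapsTo_ball (dif_line hg fun t ht => (hm t ht).1)
    (fun t ht => by simpa [dist_eq_norm] using (hm t (mem_ball_zero_iff.1 ht)).2) hr

theorem der_zero (h : T.WF) (hp : T.Pt U p) (hl : l <:+ T.top) (hg : T.fr.A l g) :
    Tendsto (fun i => fderiv ℂ g (p i) T.dir) U (𝓝 0) := by
  induction l generalizing g with
  | nil =>
    obtain ⟨ρ, C, N, C0, H⟩ := dsc h hp hl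
    refine tendsto_const_nhds.congr' ?_
    filter_upwards [H, T5_mem h hp hl] with i ⟨r0, _, _, r3⟩ hm
    have := cauchy (T1_ok h hl).isOpen (A1_diff hg) r0 (M := 0) fun t ht => ⟨(r3 t ht).1, by
      have e : upd T.Fvᶜ 0 (p i + t • T.dir) = upd T.Fvᶜ 0 (p i) := funext fun k => by
        by_cases hk : k ∈ T.Fv <;> simp [upd, hk, dir_zero h]
      have q := fun {y} (hy : y ∈ T.D []) => upd_liou h hl (W := T.Fvᶜ)
        (fun k hk => ⟨List.not_mem_nil, Finset.mem_compl.1 hk⟩) hg 0 hy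
      rw [← q (r3 t ht).1, e, q hm, sub_self, norm_zero]⟩
    exact (norm_le_zero_iff.1 (by simpa using this)).symm
  | cons a l ih =>
    obtain ⟨ρ, C, N, C0, H⟩ := dsc h hp hl
    have ok := T1_ok h hl
    obtain ⟨c, g1, γ, γ0, h1, h2, h3⟩ := hg.proj ok
    obtain ⟨B, B0, hB⟩ := (A1_bd ok le_rfl h2).pos
    have d1 : DifferentiableOn ℂ (fun x => T.fr.ex a γ x • g1 x) (T.D (a :: l)) :=
      (ok.diff_ex γ).smul (A1_diff h2)
    have t1 : Tendsto (fun i => fderiv ℂ (fun x => T.fr.ex a γ x • g1 x) (p i) T.dir) U (𝓝 0) := by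
      have t2 := ((tendsto_rpow_mul_exp_neg_mul_atTop_nhds_zero N γ γ0).comp
        (hp.big a (hl.subset List.mem_cons_self))).const_mul (2 * B * Real.exp γ * C)
      rw [mul_zero] at t2
      refine squeeze_zero_norm' ?_ t2
      filter_upwards [H, T5_mem h hp hl] with i ⟨r0, _, r2, r3⟩ hm
      have b : ∀ y ∈ T.D (a :: l), ‖T.s a y - T.s a (p i)‖ ≤ 1 → ‖T.fr.ex a γ y • g1 y‖ ≤
          B * Real.exp γ * Real.exp (-γ * (T.s a (p i)).re) := fun y hy hs => by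
        rw [norm_smul, Fr.norm_ex, mul_comm, mul_assoc, ← Real.exp_add]
        refine mul_le_mul (hB y hy) (Real.exp_le_exp.2 ?_) (Real.exp_pos _).le B0.le
        have := (Complex.re_le_norm _).trans ((norm_sub_rev _ _).trans_le hs)
        rw [Complex.sub_re] at this
        change -(γ * (T.s a y).re) ≤ _
        nlinarith
      refine (cauchy ok.isOpen d1 r0 (M := 2 * (B * Real.exp γ * Real.exp (-γ * (T.s a (p i)).re)))
        fun t ht => ⟨(r3 t ht).1, (norm_sub_le _ _).trans ?_⟩).trans ?_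
      · linarith [b _ (r3 t ht).1 ((r3 t ht).2 a List.mem_cons_self), b _ hm (by simp)]
      · refine (mul_le_mul_of_nonneg_left r2 (by positivity)).trans (le_of_eq ?_)
        simp only [hd, Function.comp, Real.rpow_natCast]
        ring
    have := (ih (suffix_tail hl) h1).add t1
    rw [add_zero] at this
    refine this.congr' ?_
    filter_upwards [T5_mem h hp hl] with i hm
    have n := ok.isOpen.mem_nhds hm
    rw [funext h3, fderiv_fun_add (((A1_diff h1).mono ok.sub).differentiableAt n)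
      (d1.differentiableAt n)]
    rfl

theorem der_up (h : T.WF) (hp : T.Pt U p) (ha : a ∈ T.top) : ∃ (C : ℝ) (N : ℕ),
    ∀ᶠ i in U, ‖fderiv ℂ (T.s a) (p i) T.dir‖ ≤ C * (T.s a (p i)).re ^ N := by
  obtain ⟨l, hl⟩ := exists_suffix ha
  obtain ⟨ρ, C, N, -, H⟩ := dsc h hp hl
  refine ⟨C, N, H.mono fun i ⟨r0, _, r2, r3⟩ => ?_⟩
  exact (cauchy (T1_ok h hl).isOpen (T1_ok h hl).diff r0 (M := 1) fun t ht =>
    ⟨(r3 t ht).1, (r3 t ht).2 a List.mem_cons_self⟩).trans (by simpa [hd] using r2)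

/-- real part of the derivative of a scale -/
def dv (T : Tw ι) (x : ι → ℂ) (a : ι ⊕ ℕ) : ℝ := (fderiv ℂ (T.s a) x T.dir).re

/-- real part of the derivative of the monomial part of a tie -/
def Xv (T : Tw ι) (x : ι → ℂ) (j : ℕ) : ℝ := ∑ b ∈ (T.lv j).toFinset, T.ρ j b * dv T x b

theorem dv_inl (h : T.WF) {k : ι} (hk : Sum.inl k ∈ T.top) (x : ι → ℂ) : dv T x (.inl k) = 1 := by
  rw [dv, funext (h.sN k), (hasFDerivAt_apply (𝕜 := ℂ) k x).fderiv]
  simp [dir_one hk]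

theorem dv_inr (h : T.WF) (hj : j < T.p) (hx : x ∈ T.D (T.lv j)) (hr : x ∈ Rp ι) :
    dv T x (.inr j) = ((T.s (.inr j) x).re + (T.lin (T.lv j) (T.c j) x).re) *
      (Xv T x j + (fderiv ℂ (T.u j) x T.dir).re) - ∑ b ∈ (T.lv j).toFinset, T.c j b * dv T x b := by
  have ok := T1_ok h (lv_top T hj.le)
  have n := ok.isOpen.mem_nhds hx
  have d : ∀ γ : ι ⊕ ℕ → ℝ, HasFDerivAt (T.lin (T.lv j) γ)
      (∑ b ∈ (T.lv j).toFinset, (γ b : ℂ) • fderiv ℂ (T.s b) x) x := fun γ =>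
    HasFDerivAt.fun_sum fun b hb =>
      ((dif_mem ok (List.mem_toFinset.1 hb)).differentiableAt n).hasFDerivAt.const_mul _
  have d2 := ((((d (T.ρ j)).add ((A1_diff (h.uA j hj)).differentiableAt n).hasFDerivAt).cexp.sub
    (d (T.c j))).congr_of_eventuallyEq (mem_of_superset n (h.sL j hj))).fderiv
  have e : (T.s (.inr j) x).re + (T.lin (T.lv j) (T.c j) x).re = (Complex.exp (T.E j x)).re := by
    rw [h.sL j hj x hx]; simp
  have e2 : (Complex.exp (T.E j x)).im = 0 := by rw [Complex.exp_im, rr_E h hj x hx hr]; simp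
  rw [dv, d2, e]
  change (Complex.exp (T.E j x) * _ - _ : ℂ).re = _
  simp [e2, Xv, dv, Complex.re_sum]

theorem low (h : T.WF) (hp : T.Pt U p) (hl : l <:+ T.top) : ∀ᶠ i in U, ∀ a ∈ l,
    1 ≤ dv T (p i) a ∧ ∀ j, a = .inr j → dv T (p i) a ≤ 4 * (T.s a (p i)).re * Xv T (p i) j := by
  induction l with
  | nil => exact .of_forall fun _ _ h => absurd h List.not_mem_nil
  | cons a l ih =>
    have ih := ih (suffix_tail hl)
    have ha := hl.subset List.mem_cons_self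
    simp only [List.forall_mem_cons]
    refine Eventually.and ?_ ih
    rcases a with k | j
    · exact .of_forall fun i => ⟨(dv_inl h ha _).ge, fun _ e => by cases e⟩
    obtain ⟨rfl, hj⟩ := suffix_inr hl
    obtain ⟨b0, b1, b2⟩ := h.ρp j hj
    obtain ⟨S, hS⟩ : ∃ S, S = ∑ b ∈ (T.lv j).toFinset, T.c j b := ⟨_, rfl⟩
    have S0 : 0 ≤ S := hS ▸ Finset.sum_nonneg fun _ _ => h.c0 _ _
    have u0 := (Complex.continuous_re.tendsto' 0 0 rfl).comp
      (der_zero h hp (suffix_tail hl) (h.uA j hj))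
    filter_upwards [ih, T5_mem h hp hl, hp.ev_Sd (16 * (S + 1)) hl,
      u0.eventually (Icc_mem_nhds (neg_lt_zero.2 (half_pos b2)) (half_pos b2)),
      (hp.big _ ha).eventually_ge_atTop (4 * (S + 1) / T.ρ j b0)] with i ih hm hs hu hb
    have hx := (D_cons hm).1
    have v0 : ∀ b ∈ T.lv j, 0 ≤ (T.s b (p i)).re := fun b hb => by
      linarith [(s_om hx hb).1, h.R1]
    have v1 : ∀ b ∈ T.lv j, 16 * (S + 1) * (T.s b (p i)).re ≤ (T.s (.inr j) (p i)).re :=
      fun b hb => (List.rel_of_pairwise_cons hs hb).le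
    have d0 : ∀ b ∈ (T.lv j).toFinset, 0 ≤ dv T (p i) b := fun b hb =>
      zero_le_one.trans (ih b (List.mem_toFinset.1 hb)).1
    have X0 : T.ρ j b0 ≤ Xv T (p i) j := (le_mul_of_one_le_right b2.le (ih b0 b1).1).trans
      (Finset.single_le_sum (fun b hb => mul_nonneg (h.ρ0 j b) (d0 b hb)) (List.mem_toFinset.2 b1))
    rw [div_le_iff₀ b2] at hb
    have l0 := re_lin (zero_le_one.trans h.R1) (h.c0 j) hx
    have e := dv_inr h hj hx (hp.re i)
    generalize (T.s (.inr j) (p i)).re = M at *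
    have M0 : 0 < M := by nlinarith
    have MX : 4 * (S + 1) ≤ M * Xv T (p i) j := hb.trans (mul_le_mul_of_nonneg_left X0 M0.le)
    have l1 : (T.lin (T.lv j) (T.c j) (p i)).re ≤ S * (M / (S + 1)) := by
      simp only [Tw.lin, Complex.re_sum, Complex.re_ofReal_mul, hS, Finset.sum_mul]
      refine Finset.sum_le_sum fun b hb => mul_le_mul_of_nonneg_left ?_ (h.c0 _ _)
      rw [← hS, le_div_iff₀ (by positivity)]
      nlinarith [v0 b (List.mem_toFinset.1 hb), v1 b (List.mem_toFinset.1 hb)]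
    have l2 : S * (M / (S + 1)) ≤ M := by
      rw [← mul_div_assoc, div_le_iff₀ (by positivity)]; nlinarith
    have c0 : 0 ≤ ∑ b ∈ (T.lv j).toFinset, T.c j b * dv T (p i) b :=
      Finset.sum_nonneg fun b hb => mul_nonneg (h.c0 _ _) (d0 b hb)
    have c1 : ∑ b ∈ (T.lv j).toFinset, T.c j b * dv T (p i) b ≤
        S * (M * Xv T (p i) j / (4 * (S + 1))) := by
      rw [hS, Finset.sum_mul, ← hS]
      refine Finset.sum_le_sum fun b hb => mul_le_mul_of_nonneg_left ?_ (h.c0 _ _)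
      have hb := List.mem_toFinset.1 hb
      rw [le_div_iff₀ (by positivity)]
      rcases b with k | m
      · rw [dv_inl h ((suffix_tail hl).subset hb), one_mul]; exact MX
      have hm := inr_mem.1 hb
      have x1 : Xv T (p i) m ≤ Xv T (p i) j := by
        have sb : (T.lv m).toFinset ⊆ (T.lv j).toFinset := fun c hc =>
          List.mem_toFinset.2 ((lv_suffix T hm.le).subset (List.mem_toFinset.1 hc))
        exact (Finset.sum_le_sum fun c hc => mul_le_mul_of_nonneg_right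
          ((h.ρm m j hm hj).1 c) (d0 c (sb hc))).trans (Finset.sum_le_sum_of_subset_of_nonneg sb
            fun c hc _ => mul_nonneg (h.ρ0 j c) (d0 c hc))
      have x2 := ((ih _ hb).2 m rfl).trans (mul_le_mul_of_nonneg_left x1
        (mul_nonneg (by norm_num) (v0 _ hb)))
      have x3 := mul_le_mul_of_nonneg_right (v1 _ hb) (b2.le.trans X0)
      nlinarith
    have c2 : S * (M * Xv T (p i) j / (4 * (S + 1))) ≤ M * Xv T (p i) j / 4 := by
      rw [← mul_div_assoc, div_le_div_iff₀ (by positivity) (by norm_num)]; nlinarith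
    simp only [Function.comp] at hu
    generalize (T.lin (T.lv j) (T.c j) (p i)).re = L at *
    generalize (fderiv ℂ (T.u j) (p i) T.dir).re = w at *
    refine ⟨?_, fun m e' => ?_⟩
    · nlinarith [mul_le_mul (le_add_of_nonneg_right l0 : M ≤ M + L)
        (show Xv T (p i) j / 2 ≤ Xv T (p i) j + w by linarith [hu.1]) (by linarith) (by linarith)]
    · cases e'
      nlinarith [mul_le_mul (show M + L ≤ 2 * M by linarith)
        (show Xv T (p i) j + w ≤ 2 * Xv T (p i) j by linarith [hu.2]) (by linarith [hu.1])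
        (by linarith)]

end Qd

theorem Q2_der (h : T.WF) (hp : T.Pt U p) (hg : T.fr.A T.top g) :
    Tendsto (fun i => fderiv ℂ g (p i) T.dir) U (𝓝 0) := Qd.der_zero h hp List.suffix_rfl hg

theorem Q3_ders (h : T.WF) (hp : T.Pt U p) {a : ι ⊕ ℕ} (ha : a ∈ T.top) : ∃ (C : ℝ) (N : ℕ),
    ∀ᶠ i in U, 1 ≤ (fderiv ℂ (T.s a) (p i) T.dir).re ∧
      ‖fderiv ℂ (T.s a) (p i) T.dir‖ ≤ C * (T.s a (p i)).re ^ N := by
  obtain ⟨C, N, H⟩ := Qd.der_up h hp ha
  exact ⟨C, N, ((Qd.low h hp List.suffix_rfl).mono fun i hi => (hi a ha).1).and H⟩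

end Crest.Agent.N207.O
end
private theorem rz_4f8ca1a2e0 : type_of% @_root_.Crest.Agent.N207.O.Qd.hd.eq_1 := @_root_.Crest.Agent.N207.O.Qd.hd.eq_1 -- L24
end

-- ▼ part N207/O/O4
section

/-!
# Row 207, block O (helper63): derivatives of small monomials and of large logarithms
-/

set_option autoImplicit false
set_option linter.unusedSectionVars false

open Set Filter Topology Metric Asymptotics

noncomputable section

namespace Crest.Agent.N207.O

variable {ι : Type} [Fintype ι] [DecidableEq ι] {α : Type} {U : Ultrafilter α} {T : Tw ι}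
  {p : α → ι → ℂ} {g : (ι → ℂ) → ℂ}

theorem Tw.WF.dAt_s (h : T.WF) {a : ι ⊕ ℕ} (ha : a ∈ T.top) {x : ι → ℂ} (hx : x ∈ T.D T.top) :
    DifferentiableAt ℂ (T.s a) x :=
  ((T1_ok h List.suffix_rfl).diff_mem ha).differentiableAt
    ((h.isOpen_D List.suffix_rfl).mem_nhds hx)

theorem Tw.WF.dAt_A (h : T.WF) (hg : T.fr.A T.top g) {x : ι → ℂ} (hx : x ∈ T.D T.top) :
    DifferentiableAt ℂ g x :=
  (A1_diff hg).differentiableAt ((h.isOpen_D List.suffix_rfl).mem_nhds hx)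

theorem Tw.WF.fd_lin (h : T.WF) (γ : ι ⊕ ℕ → ℝ) {x : ι → ℂ} (hx : x ∈ T.D T.top) :
    HasFDerivAt (T.lin T.top γ) (∑ a ∈ T.top.toFinset, (γ a : ℂ) • fderiv ℂ (T.s a) x) x :=
  HasFDerivAt.fun_sum fun a ha =>
    (h.dAt_s (List.mem_toFinset.1 ha) hx).hasFDerivAt.const_mul (γ a : ℂ)

theorem upd_empty4 (w : ι → ℝ) (x : ι → ℂ) : upd ∅ w x = x := by
  funext k; simp [upd]

/-- logarithmic derivative of a small monomial times a unit -/
theorem O4_low (h : T.WF) (hp : T.Pt U p) (hm : T.MU U p T.top ∅ g)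
    (h0 : Tendsto (fun i => g (p i)) U (𝓝 0)) : ∃ (T' : Tw ι) (p' : α → ι → ℂ)
      (Φ : (ι → ℂ) → ι → ℂ) (c : ℝ), T.Lift T' U 0 ∅ p p' Φ ∧ 0 < c ∧
      ∀ᶠ i in U, c * ‖g (p i)‖ ≤ ‖fderiv ℂ (g ∘ Φ) (p' i) T'.dir‖ := by
  obtain ⟨γ, u, hu, -, ⟨w, c, -, hc, hl⟩, he⟩ := hm
  simp only [upd_empty4] at hl
  have hD := T5_mem h hp List.suffix_rfl
  have hγ : Tendsto (fun i => (T.lin T.top γ (p i)).re) U atTop := by
    have key : ¬ ∀ᶠ i in U, (T.lin T.top γ (p i)).re ≤ 0 := fun H => by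
      refine hc (tendsto_nhds_unique hl (squeeze_zero_norm' ?_ (tendsto_zero_iff_norm_tendsto_zero.1 h0)))
      filter_upwards [H, hD] with i h1 h2
      rw [he _ h2, norm_mul, Complex.norm_exp]
      exact le_mul_of_one_le_left (norm_nonneg _) (Real.one_le_exp (by simpa using h1))
    rcases L2_tri hp List.suffix_rfl γ with H | H | H
    · exact (key (Eventually.of_forall fun i => by rw [Tw.lin_zero H]; simp)).elim
    · exact H
    · exact (key (H.eventually_le_atBot 0)).elim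
  obtain ⟨T', p', Φ, γ', hL, hS, -, g0, ⟨a, ha, ga⟩, hlin, -⟩ :=
    E1_norm (W := ∅) h hp List.suffix_rfl (by simp) hγ
  have ht : T'.top = T.top := Tw.top_congr hS.B hL.pp
  have pb := hL.top (Nat.zero_le _)
  rw [← ht] at ha hlin
  have hu' : T'.fr.A T'.top (u ∘ Φ) := pb.cl u hu
  have hlow : ∀ᶠ i in U, ∀ b ∈ T'.top.toFinset, 1 ≤ (fderiv ℂ (T'.s b) (p' i) T'.dir).re :=
    (eventually_all_finset _).2 fun b hb => by
      obtain ⟨C, N, H⟩ := Q3_ders hL.wf hL.pt (List.mem_toFinset.1 hb)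
      exact H.mono fun i hi => hi.1
  have hc0 : 0 < ‖c‖ := norm_pos_iff.2 hc
  have h1 : ∀ᶠ i in U, ‖c‖ / 2 ≤ ‖u (p i)‖ := hl.norm.eventually_const_le (by linarith)
  have h2 : ∀ᶠ i in U, ‖fderiv ℂ (u ∘ Φ) (p' i) T'.dir‖ ≤ γ' a / 2 * (‖c‖ / 2) :=
    (Q2_der hL.wf hL.pt hu').norm.eventually_le_const (by simp only [norm_zero]; positivity)
  refine ⟨T', p', Φ, γ' a / 2, hL, half_pos ga, ?_⟩
  filter_upwards [hlow, h1, h2, hL.hp, T5_mem hL.wf hL.pt List.suffix_rfl] with i k1 k2 k3 k4 k5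
  have e : ∀ x ∈ T'.D T'.top, (g ∘ Φ) x = Complex.exp (-T'.lin T'.top γ' x) * (u ∘ Φ) x :=
    fun x hx => by rw [Function.comp, he _ (pb.maps hx), ← hlin x hx, ht]; rfl
  have e' : g ∘ Φ =ᶠ[𝓝 (p' i)] fun x => Complex.exp (-T'.lin T'.top γ' x) * (u ∘ Φ) x :=
    eventually_of_mem ((hL.wf.isOpen_D List.suffix_rfl).mem_nhds k5) e
  have d := (((hL.wf.fd_lin γ' k5).neg.cexp).mul (hL.wf.dAt_A hu' k5).hasFDerivAt)
  set m : ℂ := ∑ b ∈ T'.top.toFinset, (γ' b : ℂ) * fderiv ℂ (T'.s b) (p' i) T'.dir with hm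
  have hv : fderiv ℂ (g ∘ Φ) (p' i) T'.dir = Complex.exp (-T'.lin T'.top γ' (p' i)) *
      (fderiv ℂ (u ∘ Φ) (p' i) T'.dir - u (p i) * m) := by
    rw [e'.fderiv_eq]
    erw [d.fderiv]
    simp [k4, hm]
    ring
  have hm1 : γ' a ≤ ‖m‖ := by
    refine le_trans ?_ (Complex.re_le_norm m)
    rw [hm, Complex.re_sum]
    refine le_trans ?_ (Finset.single_le_sum (f := fun b => ((γ' b : ℂ) *
      fderiv ℂ (T'.s b) (p' i) T'.dir).re) (fun b hb => ?_) (List.mem_toFinset.2 ha))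
    · simpa using le_mul_of_one_le_right ga.le (k1 a (List.mem_toFinset.2 ha))
    · simpa using mul_nonneg (g0 b) (zero_le_one.trans (k1 b hb))
  have e1 := e _ k5
  simp only [Function.comp, k4] at e1
  rw [hv, e1, norm_mul, norm_mul, mul_left_comm]
  refine mul_le_mul_of_nonneg_left ?_ (norm_nonneg _)
  have h3 := norm_sub_norm_le (u (p i) * m) (fderiv ℂ (u ∘ Φ) (p' i) T'.dir)
  rw [norm_sub_rev, norm_mul] at h3
  nlinarith [mul_le_mul_of_nonneg_left hm1 (norm_nonneg (u (p i)))]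

/-- derivative of a large logarithmic quantity -/
theorem O4_up (h : T.WF) (hp : T.Pt U p) {γ : ι ⊕ ℕ → ℝ} {b Λ : (ι → ℂ) → ℂ}
    (hb : T.fr.A T.top b) (he : ∀ x ∈ T.D T.top, Λ x = T.lin T.top γ x + b x) {L : α → ℝ}
    (hL : Tendsto L U atTop) (hv : ∀ᶠ i in U, Λ (p i) = L i) {a η : ℝ} (ha : 0 < a) (hη : 0 < η) :
    ∀ᶠ i in U, ‖fderiv ℂ Λ (p i) T.dir‖ ≤ η * Real.exp (a * L i) := by
  have hD := T5_mem h hp List.suffix_rfl
  obtain ⟨B, hB⟩ := A1_bd (T1_ok h List.suffix_rfl) le_rfl hb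
  have hre : ∀ᶠ i in U, |(T.lin T.top γ (p i)).re - L i| ≤ B := by
    filter_upwards [hD, hv] with i h1 h2
    have := congrArg Complex.re (h2.symm.trans (he _ h1))
    simp only [Complex.ofReal_re, Complex.add_re] at this
    rw [this, sub_add_cancel_left, abs_neg]
    exact (Complex.abs_re_le_norm _).trans (hB _ h1)
  have hγ : Tendsto (fun i => (T.lin T.top γ (p i)).re) U atTop :=
    tendsto_atTop_mono' _ (hre.mono fun i hi => by linarith [(abs_le.1 hi).1])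
      (tendsto_atTop_add_const_right _ (-B) hL)
  have hO : (fun i => (T.lin T.top γ (p i)).re) =O[U] L := by
    refine IsBigO.of_bound 2 ?_
    filter_upwards [hre, hL.eventually_ge_atTop B, hL.eventually_ge_atTop 0] with i h1 h2 h3
    rw [Real.norm_eq_abs, Real.norm_of_nonneg h3, abs_le]
    constructor <;> linarith [(abs_le.1 h1).1, (abs_le.1 h1).2]
  have hpw : ∀ N : ℕ, (fun i => L i ^ N) =o[U] fun i => Real.exp (a * L i) := fun N =>
    (isLittleO_pow_exp_pos_mul_atTop N ha).comp_tendsto hL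
  have h1 : ∀ c ∈ T.top.toFinset, (fun i => (γ c : ℂ) * fderiv ℂ (T.s c) (p i) T.dir) =o[U]
      fun i => Real.exp (a * L i) := fun c hc => by
    by_cases h0 : γ c = 0
    · simp [h0]
    have hc := List.mem_toFinset.1 hc
    obtain ⟨C, N, H⟩ := Q3_ders h hp hc
    obtain ⟨C', H'⟩ := L3_top hp List.suffix_rfl hγ hc h0
    have k1 : (fun i => (T.s c (p i)).re) =O[U] fun i => (T.lin T.top γ (p i)).re := by
      refine IsBigO.of_bound |C'| ?_
      filter_upwards [H', (hp.big c hc).eventually_ge_atTop 0] with i h1 h2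
      rw [Real.norm_of_nonneg h2, Real.norm_eq_abs, ← abs_mul]
      exact h1.trans (le_abs_self _)
    have k2 : (fun i => fderiv ℂ (T.s c) (p i) T.dir) =O[U] fun i => (T.s c (p i)).re ^ N := by
      refine IsBigO.of_bound |C| (H.mono fun i hi => hi.2.trans ?_)
      rw [Real.norm_eq_abs, ← abs_mul]
      exact le_abs_self _
    exact ((k2.trans ((k1.trans hO).pow N)).trans_isLittleO (hpw N)).const_mul_left _
  have h2 : (fun i => fderiv ℂ b (p i) T.dir) =o[U] fun i => Real.exp (a * L i) :=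
    ((Q2_der h hp hb).isBigO_one ℝ).trans_isLittleO (by simpa using hpw 0)
  filter_upwards [((IsLittleO.sum h1).add h2).bound hη, hD] with i k1 k2
  have e' : Λ =ᶠ[𝓝 (p i)] fun x => T.lin T.top γ x + b x :=
    eventually_of_mem ((h.isOpen_D List.suffix_rfl).mem_nhds k2) he
  rw [e'.fderiv_eq]
  erw [((h.fd_lin γ k2).add (h.dAt_A hb k2).hasFDerivAt).fderiv]
  simpa using k1

end Crest.Agent.N207.O
end
end

-- ▼ part N207/O/Fin1
section

/-!
# Row 207, block O (helper63): tools for the final assembly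
-/

set_option autoImplicit false
set_option linter.unusedSectionVars false

open Set Filter Topology Metric

noncomputable section

namespace Crest.Agent.N207.O

section ST
variable {X κ E E' : Type*} [NormedAddCommGroup X] [NormedSpace ℂ X] [NormedAddCommGroup E]
  [NormedSpace ℂ E] [NormedAddCommGroup E'] [NormedSpace ℂ E'] {F : Fr X κ}

theorem st_clm (L : E →L[ℂ] E') {gb : X → E} : ∀ {l : List κ} {g : X → E}, F.St l g gb →
    F.St l (fun x => L (g x)) fun x => L (gb x)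
  | [], _, h => ⟨A3_clm L h.1, A3_clm L h.2.1, fun _ hx => congrArg L (h.2.2 hx)⟩
  | _ :: _, _, h => by
    obtain ⟨h1, c, g1, γ, h2, h3, h4, h5⟩ := h
    exact ⟨A3_clm L h1, _, _, γ, h2, st_clm L h3, A3_clm L h4, fun x hx => by
      simp only [h5 x hx, map_add, map_smul]⟩

theorem st_add {gb gb' : X → E} : ∀ {l : List κ} {g g' : X → E}, F.Ok l → F.St l g gb →
    F.St l g' gb' → F.St l (fun x => g x + g' x) fun x => gb x + gb' x
  | [], _, _, hF, h, h' => ⟨A3_add hF h.1 h'.1, A3_add hF h.2.1 h'.2.1, fun _ hx =>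
      congrArg₂ (· + ·) (h.2.2 hx) (h'.2.2 hx)⟩
  | a :: l, _, _, hF, h, h' => by
    obtain ⟨h1, c, g1, γ, h2, h3, h4, h5⟩ := h
    obtain ⟨k1, c', g1', γ', k2, k3, k4, k5⟩ := h'
    have m1 := sub_nonneg.2 (min_le_left γ γ')
    have m2 := sub_nonneg.2 (min_le_right γ γ')
    refine ⟨A3_add hF h1 k1, _, _, min γ γ', lt_min h2 k2, st_add hF.1 h3 k3,
      A3_add hF (A3_mono (A5_ex hF m1 h4) m1) (A3_mono (A5_ex hF m2 k4) m2), fun x hx => ?_⟩
    beta_reduce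
    rw [h5 x hx, k5 x hx, smul_add, smul_smul, smul_smul, ← Fr.ex_add, ← Fr.ex_add,
      add_sub_cancel, add_sub_cancel]
    abel

theorem st_sum {I : Type*} {l : List κ} (hF : F.Ok l) (J : Finset I) {g gb : I → X → E}
    (h : ∀ i ∈ J, F.St l (g i) (gb i)) :
    F.St l (fun x => ∑ i ∈ J, g i x) fun x => ∑ i ∈ J, gb i x := by
  classical
  induction J using Finset.induction_on with
  | empty => simpa using Fr.St.of_nil hF (Fr.Cl.zero' (F := F) (E := E))
  | insert i J hi ih =>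
    simp only [Finset.sum_insert hi]
    exact st_add hF (h i (Finset.mem_insert_self _ _))
      (ih fun j hj => h j (Finset.mem_insert_of_mem hj))

theorem st_pair {V : Type*} [Fintype V] [DecidableEq V] {l : List κ} (hF : F.Ok l) {φ : X → E'}
    (hφ : F.A [] φ) {g : V → X → E} {c : V → E} (h : ∀ w, F.St l (g w) fun _ => c w) :
    F.St l (fun x => (φ x, fun w => g w x)) fun x => (φ x, c) := by
  have k := st_add hF (st_clm (ContinuousLinearMap.inl ℂ E' (V → E)) (Fr.St.of_nil hF hφ))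
    (st_clm (ContinuousLinearMap.inr ℂ E' (V → E)) (st_sum hF Finset.univ fun w _ =>
      st_clm (ContinuousLinearMap.single ℂ (fun _ : V => E) w) (h w)))
  simpa [Finset.univ_sum_single] using k

/-- derivative along a real line -/
theorem line_der {f : X → ℂ} {x : X} (hf : DifferentiableAt ℂ f x) (v : X) :
    HasDerivAt (fun t : ℝ => f (x + (t : ℂ) • v)) (fderiv ℂ f x v) 0 := by
  have h1 : HasDerivAt (fun t : ℂ => x + t • v) v ((0 : ℝ) : ℂ) := by
    simpa using ((hasDerivAt_id (0 : ℂ)).smul_const v).const_add x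
  exact (HasFDerivAt.comp_hasDerivAt_of_eq _ hf.hasFDerivAt h1 (by simp)).comp_ofReal

/-- derivative of `f * conj f` along a real line -/
theorem sq_der {f f' : X → ℂ} {x v : X} (hf : DifferentiableAt ℂ f x)
    (hf' : DifferentiableAt ℂ f' x)
    (h : ∀ᶠ t : ℝ in 𝓝 0, f' (x + (t : ℂ) • v) = (starRingEnd ℂ) (f (x + (t : ℂ) • v))) :
    ‖fderiv ℂ (fun y => f y * f' y) x v‖ ≤ 2 * (‖f x‖ * ‖fderiv ℂ f x v‖) := by
  have h1 : fderiv ℂ f' x v = star (fderiv ℂ f x v) :=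
    (line_der hf' v).unique ((line_der hf v).star.congr_of_eventuallyEq h)
  have h2 : f' x = star (f x) := by simpa using h.self_of_nhds
  rw [fderiv_fun_mul hf hf']
  simp only [add_apply, smul_apply, smul_eq_mul, h1, h2]
  refine (norm_add_le _ _).trans (le_of_eq ?_)
  simp only [norm_mul, norm_star]
  ring

/-- the derivative through the partial derivatives -/
theorem part_le {Θ V : Type*} [Fintype Θ] [Fintype V] [DecidableEq Θ] [DecidableEq V]
    {H : (Θ → ℂ) × (V → ℂ) → ℂ} {θ u : Θ → ℂ} {L v : V → ℂ} (hH : DifferentiableAt ℂ H (θ, L)) :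
    ‖fderiv ℂ H (θ, L) (u, v)‖ ≤
      ∑ j, ‖u j‖ * ‖deriv (fun t => H (Function.update θ j t, L)) (θ j)‖ +
        ∑ w, ‖v w‖ * ‖deriv (fun t => H (θ, Function.update L w t)) (L w)‖ := by
  have h1 : ∀ j, deriv (fun t => H (Function.update θ j t, L)) (θ j) =
      fderiv ℂ H (θ, L) (Pi.single j 1, 0) := fun j =>
    (HasFDerivAt.comp_hasDerivAt_of_eq _ hH.hasFDerivAt
      ((hasDerivAt_update θ j (θ j)).prodMk (hasDerivAt_const _ L)) (by simp)).deriv
  have h2 : ∀ w, deriv (fun t => H (θ, Function.update L w t)) (L w) =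
      fderiv ℂ H (θ, L) (0, Pi.single w 1) := fun w =>
    (HasFDerivAt.comp_hasDerivAt_of_eq _ hH.hasFDerivAt
      ((hasDerivAt_const _ θ).prodMk (hasDerivAt_update L w (L w))) (by simp)).deriv
  have e : (u, v) = ∑ j, u j • ((Pi.single j 1, 0) : (Θ → ℂ) × (V → ℂ)) +
      ∑ w, v w • ((0, Pi.single w 1) : (Θ → ℂ) × (V → ℂ)) := by
    ext k <;> simp [Prod.fst_sum, Prod.snd_sum, Finset.sum_apply, Pi.single_apply]
  rw [e, map_add, map_sum, map_sum]
  refine (norm_add_le _ _).trans (add_le_add ((norm_sum_le _ _).trans (le_of_eq ?_))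
    ((norm_sum_le _ _).trans (le_of_eq ?_))) <;> simp only [map_smul, norm_smul, h1, h2]

end ST

/-- monomialisation (the statement of `M_fin`) -/
def MF : Prop := ∀ (ι : Type) [Fintype ι] [DecidableEq ι] (α : Type) (U : Ultrafilter α)
  (T : Tw ι) (p : α → ι → ℂ) (g : (ι → ℂ) → ℂ), T.WF → T.Sp → T.Pt U p → T.fr.A T.top g →
    RR (T.D T.top) g → ∃ (T' : Tw ι) (p' : α → ι → ℂ) (Φ : (ι → ℂ) → ι → ℂ),
      T.Lift T' U (T.p + 1) ∅ p p' Φ ∧
        (EqOn (g ∘ Φ) 0 (T'.D T'.top) ∨ T'.MU U p' T'.top ∅ (g ∘ Φ))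

variable {ι : Type} [Fintype ι] [DecidableEq ι] {α : Type} {U : Ultrafilter α} {T : Tw ι}
  {p : α → ι → ℂ}

/-- the logarithmic derivative estimate for a complex element of the class -/
theorem loj (hMF : MF) (h : T.WF) (hs : T.Sp) (hp : T.Pt U p) {f : (ι → ℂ) → ℂ} (hf : T.fr.A T.top f)
    (h0 : Tendsto (fun i => f (p i)) U (𝓝 0)) : ∃ (T' : Tw ι) (p' : α → ι → ℂ)
      (Φ : (ι → ℂ) → ι → ℂ) (c : ℝ), T.Lift T' U (T.p + 1) ∅ p p' Φ ∧ 0 < c ∧
      ∀ᶠ i in U, c * ‖f (p i)‖ ≤ ‖fderiv ℂ (f ∘ Φ) (p' i) T'.dir‖ := by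
  have hf' := J2_A h List.suffix_rfl hf
  have hO := T1_ok h List.suffix_rfl
  have hg := Fr.A.mul hO hf hf'
  have hn : ∀ i, ‖f (p i) * (starRingEnd ℂ) (f (cj (p i)))‖ = ‖f (p i)‖ * ‖f (p i)‖ := fun i => by
    rw [cj_real (hp.re i), norm_mul, Complex.norm_conj]
  obtain ⟨T1, p1, Φ, hL, H | H⟩ := hMF _ _ _ _ _ _ h hs hp hg fun x _ hx => by
    rw [cj_real hx, Complex.mul_conj, Complex.ofReal_im]
  · refine ⟨T1, p1, Φ, 1, hL, one_pos, ?_⟩
    filter_upwards [hL.hp, T5_mem hL.wf hL.pt List.suffix_rfl] with i h1 h2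
    have := congrArg norm (H h2)
    rw [Function.comp, h1, hn, Pi.zero_apply, norm_zero, mul_self_eq_zero] at this
    rw [this, mul_zero]
    exact norm_nonneg _
  obtain ⟨T2, p2, Ψ, c, hL', hc, H'⟩ := O4_low hL.wf hL.pt H (by
    refine tendsto_zero_iff_norm_tendsto_zero.2 (Tendsto.congr' (hL.hp.mono fun i hi => ?_)
      (by simpa using h0.norm.mul h0.norm))
    simp only [Function.comp, hi, hn])
  have hM := hL.trans (hL'.mono (Nat.zero_le (T.p + 1)) (Finset.Subset.refl _)) le_rfl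
  refine ⟨T2, p2, Φ ∘ Ψ, c / 2, hM, half_pos hc, ?_⟩
  have pb := hM.top le_rfl
  filter_upwards [H', hL.hp, hM.hp, T5_mem hM.wf hM.pt List.suffix_rfl] with i k1 k2 k3 k4
  have k5 : ∀ᶠ t : ℝ in 𝓝 0, p2 i + (t : ℂ) • T2.dir ∈ T2.D T2.top := by
    refine ContinuousAt.eventually_mem (f := fun t : ℝ => p2 i + (t : ℂ) • T2.dir) (by fun_prop) ?_
    simpa using (hM.wf.isOpen_D List.suffix_rfl).mem_nhds k4
  have k6 := sq_der (v := T2.dir) (hM.wf.dAt_A (pb.cl _ hf) k4) (hM.wf.dAt_A (pb.cl _ hf') k4)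
    (k5.mono fun t ht => by
      refine congrArg (fun y => (starRingEnd ℂ) (f y)) (cj_real (hM.rea _ ht fun k => ?_))
      simp only [Pi.add_apply, Pi.smul_apply, Tw.dir, Complex.add_im, hM.pt.re i k]
      split_ifs <;> simp)
  have k7 := k1.trans k6
  rw [Function.comp_apply, k2, hn, Function.comp_apply (f := f), k3] at k7
  rcases (norm_nonneg (f (p i))).eq_or_lt with z | z
  · rw [← z, mul_zero]; exact norm_nonneg _
  · nlinarith

end Crest.Agent.N207.O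
end
end

-- ▼ part N207/O/Fin

/-!
# Row 207, block O (helper63): the weak Lojasiewicz inequality on trees
-/

set_option autoImplicit false
set_option linter.unusedSectionVars false

open Set Filter Topology Metric

noncomputable section

namespace Crest.Agent.N207.O

/-- the initial tower (the statement of `I1_ini`) -/
def INI : Prop := ∀ (α : Type) (U : Ultrafilter α) (n m : ℕ) (θ : α → Fin n → ℝ) (θ₀ : Fin n → ℝ),
  Tendsto θ U (𝓝 θ₀) → ∀ L : α → Fin m → ℝ, (∀ e, Tendsto (fun i => L i e) U atTop) →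
    ∃ (ι : Type) (_ : Fintype ι) (_ : DecidableEq ι) (T : Tw ι) (p : α → ι → ℂ) (κ : Fin n → ι)
      (Λ : Fin m → (ι → ℂ) → ℂ), T.WF ∧ T.Sp ∧ T.Pt U p ∧ (∀ k, κ k ∈ T.Fv) ∧
      (∀ᶠ i in U, (∀ k, (θ i k : ℂ) = θ₀ k + p i (κ k)) ∧ ∀ e, (L i e : ℂ) = Λ e (p i)) ∧
      (∀ e, ∃ (γ : ι ⊕ ℕ → ℝ) (b : (ι → ℂ) → ℂ), T.fr.A T.top b ∧ RR (T.D T.top) b ∧
        ∀ x ∈ T.D T.top, Λ e x = T.lin T.top γ x + b x) ∧
      ∀ (e : Fin m) (C : ℝ), ∃ R₀ : ℝ, ∀ R ≥ R₀, ∀ r : ι → ℝ,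
        (∀ k ∈ T.Fv, 0 < r k ∧ r k ≤ T.r k) → MapsTo (Λ e) ((T.shr R r).D T.top) (J.Om C) ∧
        ∀ (E : Type) [NormedAddCommGroup E] [NormedSpace ℂ E] (N : ℂ → E) (c : ℕ → ℕ → E),
          J.Dul C N c → (T.shr R r).fr.St T.top (fun x => N (Λ e x)) fun _ => c 0 0

variable {α : Type} {U : Ultrafilter α} {Θ V : Type} [Fintype Θ] [Fintype V] [DecidableEq Θ]
  [DecidableEq V]

/-- the initial tower on which the reduced function is in the class -/
theorem ini_cls (hI : INI) (D : CB.OD Θ V) {θ : α → Θ → ℝ} {L : α → V → ℝ} {r : ℝ} (hr : r < D.ρ)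
    (hθ : ∀ i, ‖θ i‖ ≤ r) (hL : ∀ w, Tendsto (fun i => L i w) U atTop) :
    ∃ (ι : Type) (_ : Fintype ι) (_ : DecidableEq ι) (T : Tw ι) (p : α → ι → ℂ) (κ : Θ → ι)
      (Λ : V → (ι → ℂ) → ℂ) (θ₀ : Θ → ℝ), T.WF ∧ T.Sp ∧ T.Pt U p ∧ (∀ k, κ k ∈ T.Fv) ∧
      (∀ᶠ i in U, (∀ k, (θ i k : ℂ) = θ₀ k + p i (κ k)) ∧ ∀ e, (L i e : ℂ) = Λ e (p i)) ∧
      (∀ e, ∃ (γ : ι ⊕ ℕ → ℝ) (b : (ι → ℂ) → ℂ), T.AR T.top b ∧
        ∀ x ∈ T.D T.top, Λ e x = T.lin T.top γ x + b x) ∧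
      T.fr.A T.top fun x => D.f (fun k => θ₀ k + x (κ k)) fun e => Λ e x := by
  obtain ⟨θ₀, h0, hl⟩ := (isCompact_closedBall (0 : Θ → ℝ) r).ultrafilter_le_nhds' (U.map θ)
    (Ultrafilter.mem_map.2 (Eventually.of_forall fun i => by simpa using hθ i))
  have hl' : Tendsto θ U (𝓝 θ₀) := hl
  let e1 := Fintype.equivFin Θ
  let e2 := Fintype.equivFin V
  obtain ⟨ι, _, _, T, p, κ, Λ, h, hs, hp, hκ, hv, hΛ, hN⟩ := hI _ U _ _
    (fun i k => θ i (e1.symm k)) (fun k => θ₀ (e1.symm k))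
    (tendsto_pi_nhds.2 fun k => tendsto_pi_nhds.1 hl' _) (fun i e => L i (e2.symm e))
    fun e => hL _
  choose R₀ hR₀ using fun e => hN e D.C
  obtain ⟨R1, hR1⟩ := (Set.finite_range R₀).bddAbove
  set δ := (D.ρ - r) / 4 with hδ
  have δ0 : 0 < δ := by positivity
  let r1 : ι → ℝ := fun k => min (T.r k) δ
  have hr1 : ∀ k ∈ T.Fv, 0 < r1 k ∧ r1 k ≤ T.r k := fun k hk =>
    ⟨lt_min (h.r0 k hk) δ0, min_le_left _ _⟩
  have h1 := (T4_shr h (le_max_left T.R R1) hr1).1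
  have o1 : (T.shr (max T.R R1) r1).fr.Ok T.top := T1_ok h1 (by rw [Tw.shr_top])
  have hφ : ∀ {R : ℝ}, ∀ x ∈ (T.shr R r1).D [],
      ‖fun k => (θ₀ k : ℂ) + x (κ (e1 k))‖ ≤ r + δ := fun x hx => by
    refine (pi_norm_le_iff_of_nonneg (by linarith [norm_nonneg θ₀, mem_closedBall_zero_iff.1 h0])).2
      fun k => (norm_add_le _ _).trans (add_le_add ?_ ((hx _ (hκ _)).le.trans (min_le_right _ _)))
    rw [Complex.norm_real]
    exact (norm_le_pi_norm θ₀ k).trans (mem_closedBall_zero_iff.1 h0)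
  have hS := st_pair o1 (φ := fun x k => (θ₀ k : ℂ) + x (κ (e1 k)))
    ⟨Differentiable.differentiableOn (by fun_prop), _, hφ⟩
    (g := fun w x => D.N w (Λ (e2 w) x)) (c := fun w => D.co w 0 0) fun w =>
      (hR₀ (e2 w) _ ((hR1 ⟨_, rfl⟩).trans (le_max_right _ _)) r1 hr1).2 _ _ _ (D.dul w)
  obtain ⟨R2, hR2⟩ := C4_near o1 hS δ0
  have hR : T.R ≤ max (max T.R R1) R2 := (le_max_left _ _).trans (le_max_left _ _)
  obtain ⟨h2, hsub, hSub⟩ := T4_shr h hR hr1
  have o2 : (T.shr (max (max T.R R1) R2) r1).fr.Ok T.top := T1_ok h2 (by rw [Tw.shr_top])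
  have hJ := (hR2 _ o2 (((T4_shr h1 (le_max_left _ R2) fun k hk => ⟨(hr1 k hk).1, le_rfl⟩).2.2 _
    (by rw [Tw.shr_top])).mono (le_max_right _ _))).1
  have hA := C2_compD o2 isOpen_ball δ0 (fun y hy => ?_) D.hol ⟨_, D.bd⟩ hJ
  · refine ⟨ι, _, _, T.shr (max (max T.R R1) R2) r1, p, fun k => κ (e1 k), fun e => Λ (e2 e), θ₀,
      h2, by unfold Tw.Sp; rw [Tw.shr_top]; exact hs, El.pt_shr hp _ _, fun k => hκ _,
      hv.mono fun i hi => ⟨fun k => by simpa using hi.1 (e1 k), fun e => by simpa using hi.2 (e2 e)⟩,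
      fun e => ?_, by rw [Tw.shr_top]; exact hA⟩
    obtain ⟨γ, b, b1, b2, b3⟩ := hΛ (e2 e)
    rw [Tw.shr_top]
    exact ⟨γ, b, ⟨b1.restrict (hSub _ List.suffix_rfl), fun x hx => b2 x (hsub _ hx)⟩,
      fun x hx => b3 x (hsub _ hx)⟩
  · have r0 : 0 ≤ r + δ := by linarith [norm_nonneg θ₀, mem_closedBall_zero_iff.1 h0]
    have k := cthickening_subset_of_subset δ (E₂ := closedBall ((0 : Θ → ℂ), fun w => D.co w 0 0)
      (r + δ)) (by
        rintro _ ⟨x, hx, rfl⟩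
        rw [mem_closedBall, Prod.dist_eq, dist_self, dist_zero_right]
        exact max_le (hφ x hx) r0) hy
    rw [cthickening_closedBall δ0.le r0, mem_closedBall] at k
    exact ball_subset_ball' (by linarith)

theorem ost_of (hMF : MF) (hI : INI) : OST := by
  intro Θ V _ _ _ _ D α U θ L r hr hθ hL h0 a ha η hη
  obtain ⟨ι, _, _, T, p, κ, Λ, θ₀, h, hs, hp, hκ, hv, hΛ, hA⟩ := ini_cls hI D hr hθ hL (U := U)
  have hv' : ∀ᶠ i in U, (fun k => (θ₀ k : ℂ) + p i (κ k)) = (fun k => (θ i k : ℂ)) ∧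
      (fun e => Λ e (p i)) = fun e => (L i e : ℂ) :=
    hv.mono fun i hi => ⟨funext fun k => (hi.1 k).symm, funext fun e => (hi.2 e).symm⟩
  obtain ⟨T', p', Φ, c, hM, hc, H⟩ := loj hMF h hs hp hA
    (h0.congr' (hv'.mono fun i hi => by simp only [hi.1, hi.2]))
  have pb := hM.top le_rfl
  have o' := T1_ok hM.wf List.suffix_rfl
  have hη' : 0 < η * c := mul_pos hη hc
  have a1 : ∀ k, T'.fr.A T'.top ((fun x => x (κ k)) ∘ Φ) := fun k =>
    pb.cl _ (Tw.AR.coord (T1_ok h List.suffix_rfl) (hκ k)).a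
  have a2 : ∀ e, ∃ (γ : ι ⊕ ℕ → ℝ) (b : (ι → ℂ) → ℂ), T'.fr.A T'.top b ∧
      ∀ x ∈ T'.D T'.top, (Λ e ∘ Φ) x = T'.lin T'.top γ x + b x := fun e => by
    obtain ⟨γ, b, b1, b2⟩ := hΛ e
    obtain ⟨γ', b', b3, b4⟩ := pb.lin o' γ
    exact ⟨γ', _, (b3.add o' (pb.ar b1)).a, fun x hx => by
      rw [Function.comp, b2 _ (pb.maps hx), b4 x hx, add_assoc]; rfl⟩
  have k1 : ∀ᶠ i in U, ∀ k, ‖fderiv ℂ ((fun x => x (κ k)) ∘ Φ) (p' i) T'.dir‖ ≤ η * c :=
    eventually_all.2 fun k =>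
      (Q2_der hM.wf hM.pt (a1 k)).norm.eventually_le_const (by simpa using hη')
  have k2 : ∀ᶠ i in U, ∀ e,
      ‖fderiv ℂ (Λ e ∘ Φ) (p' i) T'.dir‖ ≤ η * c * Real.exp (a * L i e) :=
    eventually_all.2 fun e => by
      obtain ⟨γ, b, b1, b2⟩ := a2 e
      refine O4_up hM.wf hM.pt b1 b2 (hL e) ?_ ha hη'
      filter_upwards [hv, hM.hp] with i h1 h2
      rw [Function.comp, h2, h1.2]
  have k3 : ∀ᶠ i in U, ∀ e, (L i e : ℂ) ∈ J.Om D.C :=
    eventually_all.2 fun e => (hL e).eventually (J.eventually_mem_Om _)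
  have k4 : ∀ᶠ i in U, ∀ e, ‖D.N e (L i e) - D.co e 0 0‖ < D.ρ := eventually_all.2 fun e => by
    obtain ⟨B, hB⟩ := (D.dul e).est 1
    have t : Tendsto (fun i => B * Real.exp (-((1 : ℕ) : ℝ) * (L i e : ℂ).re / 4)) U (𝓝 0) := by
      simpa using (Real.tendsto_exp_atBot.comp ((tendsto_neg_atTop_atBot.comp
        (hL e)).atBot_div_const (show (0 : ℝ) < 4 by norm_num))).const_mul B
    filter_upwards [k3, t.eventually_lt_const D.ρ_pos] with i h1 h2
    refine lt_of_le_of_lt ?_ h2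
    simpa [J.psum, J.mon_zero] using hB _ (h1 e)
  filter_upwards [H, k1, k2, k3, k4, hv', hM.hp, T5_mem hM.wf hM.pt List.suffix_rfl]
    with i j0 j1 j2 j3 j4 j5 j6 j7
  have hH : DifferentiableAt ℂ (fun z : (Θ → ℂ) × (V → ℂ) => D.f z.1 z.2)
      (fun k => (θ i k : ℂ), fun e => (L i e : ℂ)) := by
    refine (D.hol.differentiableAt (isOpen_ball.mem_nhds ?_)).comp _
      (differentiableAt_fst.prodMk (differentiableAt_pi.2 fun e =>
        ((D.dul e).diff.differentiableAt ((J.isOpen_Om _).mem_nhds (j3 e))).comp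
          (fun k => (θ i k : ℂ), fun e => (L i e : ℂ))
          (f := fun z : (Θ → ℂ) × (V → ℂ) => z.2 e) (by fun_prop)))
    rw [mem_ball, Prod.dist_eq, dist_zero_right, dist_eq_norm]
    refine max_lt (lt_of_le_of_lt ?_ hr) ((pi_norm_lt_iff D.ρ_pos).2 j4)
    refine (pi_norm_le_iff_of_nonneg ((norm_nonneg _).trans (hθ i))).2 fun k => ?_
    rw [Complex.norm_real]
    exact (norm_le_pi_norm (θ i) k).trans (hθ i)
  have dZ : HasFDerivAt (fun x => ((fun k => (θ₀ k : ℂ) + Φ x (κ k), fun e => Λ e (Φ x)) :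
      (Θ → ℂ) × (V → ℂ)))
      ((ContinuousLinearMap.pi fun k => fderiv ℂ ((fun x => x (κ k)) ∘ Φ) (p' i)).prod
        (ContinuousLinearMap.pi fun e => fderiv ℂ (Λ e ∘ Φ) (p' i))) (p' i) := by
    refine (hasFDerivAt_pi.2 fun k => (hM.wf.dAt_A (a1 k) j7).hasFDerivAt.const_add _).prodMk
      (hasFDerivAt_pi.2 fun e => DifferentiableAt.hasFDerivAt ?_)
    obtain ⟨γ, b, b1, b2⟩ := a2 e
    exact ((hM.wf.fd_lin γ j7).differentiableAt.add (hM.wf.dAt_A b1 j7)).congr_of_eventuallyEq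
      (eventually_of_mem ((hM.wf.isOpen_D List.suffix_rfl).mem_nhds j7) b2)
  have e := (HasFDerivAt.comp (p' i) (by simpa only [j6, j5.1, j5.2] using hH.hasFDerivAt) dZ).fderiv
  simp only [j5.1, j5.2] at j0
  erw [e] at j0
  refine le_of_mul_le_mul_left (j0.trans ((part_le hH).trans ?_)) hc
  rw [← mul_assoc, mul_comm c, mul_add, Finset.mul_sum, Finset.mul_sum]
  exact add_le_add (Finset.sum_le_sum fun k _ => mul_le_mul_of_nonneg_right (j1 k) (norm_nonneg _))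
    (Finset.sum_le_sum fun e _ => by
      rw [← mul_assoc]; exact mul_le_mul_of_nonneg_right (j2 e) (norm_nonneg _))

end Crest.Agent.N207.O
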