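import Crest.Agent.N207.O.Lf1
import Crest.Agent.N207.O.Unt3
import Crest.Agent.N207.O.En2_Mg
import Crest.Agent.N207.O.Cj
import Mathlib
import Crest.Agent.N207.O.El2
import Crest.Agent.N207.O.Tay
import Crest.Agent.N207.O.Sq
import Crest.Agent.N207.O.Kit2
import Crest.Agent.N207.O.Alg3
import Crest.Agent.N207.J.Dul
import Crest.Agent.N207.O.Fin

-- ▼ part N207/O/Lf2
section

/-!
# Row 207, block O (helper84): passive variables, units, contexts, escapes
-/

set_option autoImplicit false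
set_option linter.unusedSectionVars false

open Set Filter Topology Metric

noncomputable section

namespace Crest.Agent.N207.O

variable {ι : Type} [Fintype ι] [DecidableEq ι] {α : Type} {U : Ultrafilter α} {T T' T'' : Tw ι}
  {p p' p'' : α → ι → ℂ} {l l' l'' : List (ι ⊕ ℕ)} {W W' : Finset ι} {k : ι}
  {g g' : (ι → ℂ) → ℂ} {Φ Ψ : (ι → ℂ) → ι → ℂ} {n m : ℕ} {w : ι → ℝ} {x : ι → ℂ}

theorem upd_empty (w : ι → ℝ) (x : ι → ℂ) : upd ∅ w x = x := by funext k; simp [upd]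

theorem upd_insert (W : Finset ι) (k : ι) (w : ι → ℝ) (x : ι → ℂ) :
    upd (insert k W) w x = Function.update (upd W w x) k (w k) := by
  funext j
  by_cases h : j = k
  · subst h; simp [upd]
  · simp [upd, h]

theorem upd_update (hk : k ∉ W) (w : ι → ℝ) (x : ι → ℂ) (t : ℂ) :
    upd W w (Function.update x k t) = Function.update (upd W w x) k t := by
  funext j
  by_cases h : j = k
  · subst h; simp [upd, hk]
  · simp [upd, h]

theorem upd_of_not (hk : k ∉ W) (w : ι → ℝ) (x : ι → ℂ) : upd W w x k = x k := by simp [upd, hk]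

theorem upd_com (h : ∀ k ∈ W, ∀ x t, Φ (Function.update x k t) = Function.update (Φ x) k t)
    (w : ι → ℝ) (x : ι → ℂ) : Φ (upd W w x) = upd W w (Φ x) := by
  induction W using Finset.induction_on with
  | empty => simp only [upd_empty]
  | insert k W _ ih =>
    rw [upd_insert, upd_insert, h k (Finset.mem_insert_self _ _),
      ih fun j hj => h j (Finset.mem_insert_of_mem hj)]

theorem upd_ind {β : Type*} {f : (ι → ℂ) → β} (h : ∀ k ∈ W, Ind k f) (w : ι → ℝ) (x : ι → ℂ) :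
    f (upd W w x) = f x := by
  induction W using Finset.induction_on with
  | empty => simp only [upd_empty]
  | insert k W _ ih =>
    rw [upd_insert, h k (Finset.mem_insert_self _ _),
      ih fun j hj => h j (Finset.mem_insert_of_mem hj)]

theorem ind_upd {β : Type*} (f : (ι → ℂ) → β) (hk : k ∈ W) (w : ι → ℝ) :
    Ind k (f ∘ upd W w) := fun x t => by
  simp only [Function.comp]; congr 1; funext j
  by_cases h : j = k
  · subst h; simp [upd, hk]
  · simp [upd, h]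

theorem upd_real (hx : x ∈ Rp ι) (W : Finset ι) (w : ι → ℝ) : upd W w x ∈ Rp ι := fun k => by
  unfold upd; split_ifs
  · simp
  · exact hx k

theorem diff_upd (W : Finset ι) (w : ι → ℝ) : Differentiable ℂ (upd W w) :=
  differentiable_pi.2 fun k => by
    unfold upd; split_ifs
    · exact differentiable_const _
    · exact differentiable_apply k

namespace Tw

/-- `k` is a finite variable ignored by the scales of `l` -/
def Fre (T : Tw ι) (l : List (ι ⊕ ℕ)) (k : ι) : Prop := k ∈ T.Fv ∧ T.Free l k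

theorem Fre.suffix (h : T.Fre l k) (hl : l' <:+ l) : T.Fre l' k :=
  ⟨h.1, fun j hj => h.2 j (hl.subset hj)⟩

theorem fre_lv (hk : k ∈ T.Fv) (hm : m ≤ T.lab k) : T.Fre (T.lv m) k :=
  ⟨hk, fun _ hj => (inr_mem_lv.1 hj).trans_le hm⟩

theorem Fre.mem (h : T.WF) (hl : l <:+ T.top) (hk : T.Fre l k) (hx : x ∈ T.D l) {t : ℂ}
    (ht : ‖t‖ < T.r k) : Function.update x k t ∈ T.D l :=
  T2_upd h hl (fun e => h.dj k hk.1 (hl.subset e)) (fun _ => hk.2) hx fun _ => ht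

theorem Fre.ind (h : T.WF) (hl : l <:+ T.top) (hk : T.Fre l k) {a : ι ⊕ ℕ} (ha : a ∈ l) :
    Ind k (T.s a) := (h.ind_s hl (fun e => h.dj k hk.1 (hl.subset e)) (fun _ => hk.2) ha).1

theorem Fre.lin (h : T.WF) (hl : l <:+ T.top) (hk : T.Fre l k) (γ : ι ⊕ ℕ → ℝ) :
    Ind k (T.lin l γ) := ind_lin (fun _ ha => hk.ind h hl ha) γ

theorem upd_mem (h : T.WF) (hl : l <:+ T.top) (hW : ∀ k ∈ W, T.Fre l k)
    (hw : ∀ k ∈ W, |w k| < T.r k) (hx : x ∈ T.D l) : upd W w x ∈ T.D l := by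
  induction W using Finset.induction_on with
  | empty => rwa [upd_empty]
  | insert k W _ ih =>
    rw [upd_insert]
    exact (hW k (Finset.mem_insert_self _ _)).mem h hl
      (ih (fun j hj => hW j (Finset.mem_insert_of_mem hj))
        fun j hj => hw j (Finset.mem_insert_of_mem hj))
      (by simpa using hw k (Finset.mem_insert_self _ _))

theorem lin_upd (h : T.WF) (hl : l <:+ T.top) (hW : ∀ k ∈ W, T.Fre l k) (γ : ι ⊕ ℕ → ℝ)
    (w : ι → ℝ) (x : ι → ℂ) : T.lin l γ (upd W w x) = T.lin l γ x :=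
  upd_ind (fun k hk => (hW k hk).lin h hl γ) w x

theorem AR.upd (h : T.WF) (hl : l <:+ T.top) (hW : ∀ k ∈ W, T.Fre l k)
    (hw : ∀ k ∈ W, |w k| < T.r k) (hg : T.AR l g) : T.AR l (g ∘ upd W w) :=
  ⟨A9_pull (T1_ok h hl) (fun _ h0 _ hx => upd_mem h (h0.trans hl)
      (fun k hk => (hW k hk).suffix h0) hw hx) (diff_upd W w).differentiableOn
      (fun _ _ h0 x _ => upd_ind
        (fun k hk => (hW k hk).ind h hl (h0.subset List.mem_cons_self)) w x) hg.a,
    fun _ hx hr => hg.r _ (upd_mem h hl hW hw hx) (upd_real hr W w)⟩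

theorem ev_upd (h : T.WF) (hp : T.Pt U p) (hl : l <:+ T.top) (hW : ∀ k ∈ W, T.Fre l k)
    (hw : ∀ k ∈ W, |w k| < T.r k) : ∀ᶠ i in U, upd W w (p i) ∈ T.D l :=
  (T5_mem h hp hl).mono fun _ hi => upd_mem h hl hW hw hi

theorem Lift.coord (h : T.Lift T' U n W p p' Φ) (hk : k ∈ W) (x : ι → ℂ) : Φ x k = x k := by
  have := congrFun (h.com k hk x (x k)) k
  rwa [Function.update_eq_self, Function.update_self] at this

theorem Lift.ind {β : Type*} {f : (ι → ℂ) → β} (h : T.Lift T' U n W p p' Φ) (hk : k ∈ W)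
    (hf : Ind k f) : Ind k (f ∘ Φ) := fun x t => by simp only [Function.comp, h.com k hk, hf _ _]

theorem Lift.fre (h : T.Lift T' U n W p p' Φ) (hk : k ∈ W) (hF : k ∈ T.Fv) (hm : m ≤ T.lab k) :
    T'.Fre (T'.lv m) k := fre_lv (h.pas k hk hF).1 ((h.pas k hk hF).2.1 ▸ hm)

theorem Stp.fre (h : Stp T T' U n W p p' Φ) (hk : T.Fre l k) : T'.Fre l k :=
  ⟨h.sm.Fv ▸ hk.1, fun j hj => h.sm.lab ▸ hk.2 j hj⟩

theorem Lift.rad (h : T.Lift T' U n W p p' Φ) (hW : ∀ k ∈ W, k ∈ T.Fv)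
    (hw : ∀ k ∈ W, |w k| < T.r k) : ∀ k ∈ W, |w k| < T'.r k :=
  fun k hk => (h.pas k hk (hW k hk)).2.2 ▸ hw k hk

theorem Lift.val {β : Type*} (h : T.Lift T' U n W p p' Φ) (f : (ι → ℂ) → β) (w : ι → ℝ) :
    (fun i => f (upd W w (p i))) =ᶠ[U] fun i => (f ∘ Φ) (upd W w (p' i)) :=
  h.hp.mono fun i hi => by simp only [Function.comp, upd_com h.com, hi]

theorem UU.congr (h : T.WF) (hp : T.Pt U p) (hl : l <:+ T.top) (hW : ∀ k ∈ W, T.Fre l k)
    (hu : T.UU U p W g) (e : ∀ x ∈ T.D l, g x = g' x) : T.UU U p W g' := by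
  obtain ⟨w, c, h1, h2, h3⟩ := hu
  exact ⟨w, c, h1, h2, h3.congr' ((ev_upd h hp hl hW h1).mono fun i hi => e _ hi)⟩

theorem UU.exp_mul (h : T.WF) (hp : T.Pt U p) (hl : l <:+ T.top) (hW : ∀ k ∈ W, T.Fre l k)
    (hu : T.UU U p W g) {b : (ι → ℂ) → ℂ} (hb : T.AR l b) :
    T.UU U p W fun x => Complex.exp (-b x) * g x := by
  obtain ⟨w, c, h1, h2, h3⟩ := hu
  obtain ⟨β, hβ⟩ := hb.ulim (T1_ok h hl) (ev_upd h hp hl hW h1)
  exact ⟨w, _, h1, mul_ne_zero (Complex.exp_ne_zero _) h2,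
    ((Complex.continuous_exp.tendsto _).comp hβ.neg).mul h3⟩

theorem UU.pull (h : T.Lift T' U n W p p' Φ) (hW : ∀ k ∈ W, k ∈ T.Fv) (hu : T.UU U p W g) :
    T'.UU U p' W (g ∘ Φ) := by
  obtain ⟨w, c, h1, h2, h3⟩ := hu
  exact ⟨w, c, h.rad hW h1, h2, h3.congr' (h.val g w)⟩

theorem MU.congr (hu : T.MU U p l W g) (e : ∀ x ∈ T.D l, g x = g' x) : T.MU U p l W g' := by
  obtain ⟨γ, h, h1, h2, h3, h4⟩ := hu
  exact ⟨γ, h, h1, h2, h3, fun x hx => e x hx ▸ h4 x hx⟩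

theorem MU.of_unit (hg : T.AR l g) (hu : T.UU U p W g) : T.MU U p l W g :=
  ⟨0, g, hg.a, hg.r, hu, fun x _ => by simp [lin_zero (l := l) (γ := 0) fun _ _ => rfl]⟩

theorem MU.exp_mul (h : T.WF) (hp : T.Pt U p) (hl : l <:+ T.top) (hW : ∀ k ∈ W, T.Fre l k)
    (hu : T.MU U p l W g) {b : (ι → ℂ) → ℂ} (hb : T.AR l b) (γ : ι ⊕ ℕ → ℝ) :
    T.MU U p l W fun x => Complex.exp (-(T.lin l γ x + b x)) * g x := by
  obtain ⟨δ, u, h1, h2, h3, h4⟩ := hu
  have hO := T1_ok h hl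
  have h5 := (hb.neg.exp hO).mul hO ⟨h1, h2⟩
  refine ⟨γ + δ, _, h5.a, h5.r, h3.exp_mul h hp hl hW hb, fun x hx => ?_⟩
  simp only [h4 x hx, lin_add, neg_add, Complex.exp_add]; ring

/-- multiplication by a pulled back monomial -/
theorem MU.mon_mul (h : T'.WF) (hp : T'.Pt U p') (hl : l' <:+ T'.top) (hP : Pb T T' l l' Φ)
    (hW : ∀ k ∈ W, T'.Fre l' k) (hu : T'.MU U p' l' W g) (γ : ι ⊕ ℕ → ℝ) :
    T'.MU U p' l' W fun x => Complex.exp (-T.lin l γ (Φ x)) * g x := by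
  obtain ⟨γ', b, h1, h2⟩ := hP.lin (T1_ok h hl) γ
  exact (hu.exp_mul h hp hl hW h1 γ').congr fun x hx => by rw [h2 x hx]

theorem MU.pull (h : T.Lift T' U n W p p' Φ) (hl : l' <:+ T'.top) (hP : Pb T T' l l' Φ)
    (hF : ∀ k ∈ W, k ∈ T.Fv) (hW : ∀ k ∈ W, T'.Fre l' k) (hu : T.MU U p l W g) :
    T'.MU U p' l' W (g ∘ Φ) := by
  obtain ⟨γ, u, h1, h2, h3, h4⟩ := hu
  exact ((MU.of_unit (hP.ar ⟨h1, h2⟩) (h3.pull h hF)).mon_mul h.wf h.pt hl hP hW γ).congr
    fun x hx => (h4 _ (hP.maps hx)).symm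

/-- the setting of the monomialisation -/
structure Ctx (T : Tw ι) (U : Ultrafilter α) (p : α → ι → ℂ) (m : ℕ) (W : Finset ι) : Prop where
  gd : T.Good
  sp : T.Sp
  pt : T.Pt U p
  le : m ≤ T.p
  pas : ∀ k ∈ W, k ∈ T.Fv ∧ m ≤ T.lab k
  act : ∀ k ∈ T.Fv, k ∉ W → T.lab k ≤ m

theorem Sp.of_sub (h : T.Sp) (hB : T'.B = T.B) (hp : T'.p = T.p) (hF : T'.Fv ⊆ T.Fv) : T'.Sp := by
  unfold Sp at h ⊢
  rw [top_congr hB hp]
  exact lt_of_le_of_lt (Nat.add_le_add_right (Finset.card_le_card hF) _) h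

theorem Ctx.stp (h : Ctx T U p m W) (s : Stp T T' U n W' p p' Φ) : Ctx T' U p' m W :=
  ⟨s.gd, h.sp.of_sub s.sm.B s.lf.pp s.lf.sub, s.lf.pt, s.lf.pp ▸ h.le,
    fun k hk => s.sm.Fv ▸ s.sm.lab ▸ h.pas k hk, fun k hk => s.sm.lab ▸ h.act k (s.sm.Fv ▸ hk)⟩

theorem Ctx.top (h : Ctx T U p m W) : T.lv m <:+ T.top := lv_top h.le

theorem Ctx.ok (h : Ctx T U p m W) : T.fr.Ok (T.lv m) := T1_ok h.gd.wf h.top

theorem Ctx.fre (h : Ctx T U p m W) : ∀ k ∈ W, T.Fre (T.lv m) k :=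
  fun k hk => fre_lv (h.pas k hk).1 (h.pas k hk).2

theorem Ctx.insert (h : Ctx T U p m W) (hk : k ∈ T.Fv) (hm : T.lab k = m) :
    Ctx T U p m (insert k W) :=
  { h with
    pas := fun j hj => (Finset.mem_insert.1 hj).elim (fun e => e ▸ ⟨hk, hm.ge⟩) (h.pas j)
    act := fun j hj hW => h.act j hj fun e => hW (Finset.mem_insert_of_mem e) }

theorem Stp.pb (s : Stp T T' U (m + 1) W p p' Φ) (hm : m ≤ T.p) :
    Pb T T' (T.lv m) (T.lv m) Φ := s.sm.pb _ List.suffix_rfl (lv_top hm)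

/-- escape: the measure drops or a variable is beyond the cut -/
def Esc (T : Tw ι) (U : Ultrafilter α) (p : α → ι → ℂ) (m : ℕ) (W : Finset ι) : Prop :=
  ∃ (T' : Tw ι) (p' : α → ι → ℂ) (Φ : (ι → ℂ) → ι → ℂ), T.Lift T' U (m + 1) W p p' Φ ∧ T'.Sp ∧
    (T'.μ < T.μ ∨ ∃ k ∈ T'.Fv, k ∉ W ∧ T'.lab k = m ∧ T'.Bey U p' m k)

theorem Esc.pull (h : T.Lift T' U (m + 1) W p p' Φ) (hm : m ≤ T.p) (e : Esc T' U p' m W) :
    Esc T U p m W := by
  obtain ⟨T'', p'', Ψ, h1, h2, h3⟩ := e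
  exact ⟨T'', p'', _, h.trans h1 (by omega), h2, h3.imp (fun h4 => h4.trans_le h.mu) id⟩

theorem Esc.mono (e : Esc T U p m W) (hW : W' ⊆ W) : Esc T U p m W' := by
  obtain ⟨T', p', Φ, h1, h2, h3⟩ := e
  exact ⟨T', p', Φ, h1.mono le_rfl hW, h2,
    h3.imp id fun ⟨k, a, b, c⟩ => ⟨k, a, fun e => b (hW e), c⟩⟩

theorem Esc.succ (e : Esc T U p m W) (h : Ctx T U p (m + 1) W) : Esc T U p (m + 1) W := by
  obtain ⟨T', p', Φ, h1, h2, h3 | ⟨k, a, b, c, d⟩⟩ := e
  · exact ⟨T', p', Φ, h1.mono (by omega) Finset.Subset.rfl, h2, Or.inl h3⟩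
  have hp : T'.lab k < T'.p := by rw [c, h1.pp]; exact h.le
  obtain ⟨T'', p'', Ψ, l1, l2, l3, l4⟩ := E4_untie (W := W) h1.wf h1.pt a b hp (fun j hj => by
    obtain ⟨a1, a2, -⟩ := h1.pas j hj (h.pas j hj).1
    exact ⟨a1, by rw [c, a2]; exact (h.pas j hj).2⟩) (c ▸ d)
  rw [c] at l1
  refine ⟨T'', p'', _, (h1.mono (by omega) Finset.Subset.rfl).trans l1 (by have := h.le; omega),
    h2.of_sub l2 l1.pp l1.sub, Or.inl (lt_of_lt_of_le ?_ h1.mu)⟩
  unfold μ
  rw [l3, l4, l1.pp]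
  refine Finset.sum_lt_sum (fun j _ => ?_) ⟨k, a, by rw [Function.update_self]; omega⟩
  by_cases e : j = k
  · subst e; rw [Function.update_self]; omega
  · rw [Function.update_of_ne e]

theorem mu_erase (hk : k ∈ T.Fv) (h : T.WF) (hp : T'.p = T.p) (hF : T'.Fv = T.Fv.erase k)
    (hl : T'.lab = T.lab) : T'.μ < T.μ := by
  unfold μ
  rw [hF, hl, hp, ← Finset.sum_erase_add _ _ hk]
  have := h.lab k hk
  omega

end Tw

end Crest.Agent.N207.O
end
end

-- ▼ part N207/O/Mon1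
section

/-!
# Row 207, block O (helper84): normalisation of monomials, the leading term step
-/

set_option autoImplicit false
set_option linter.unusedSectionVars false

open Set Filter Topology Metric

noncomputable section

namespace Crest.Agent.N207.O

variable {ι : Type} [Fintype ι] [DecidableEq ι] {α : Type} {U : Ultrafilter α} {T T' T'' : Tw ι}
  {p p' p'' : α → ι → ℂ} {l l' l'' : List (ι ⊕ ℕ)} {W W' : Finset ι} {k : ι}
  {g g' : (ι → ℂ) → ℂ} {Φ Ψ : (ι → ℂ) → ι → ℂ} {n m : ℕ} {w : ι → ℝ} {x : ι → ℂ}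

namespace Tw

/-- the monomial `exp (-lin γ)` tends to zero -/
abbrev Big (T : Tw ι) (U : Ultrafilter α) (p : α → ι → ℂ) (l : List (ι ⊕ ℕ)) (γ : ι ⊕ ℕ → ℝ) :
    Prop := Tendsto (fun i => (T.lin l γ (p i)).re) U atTop

theorem Big.iff {γ : ι ⊕ ℕ → ℝ} :
    T.Big U p l γ ↔ Tendsto (fun i => Complex.exp (-T.lin l γ (p i))) U (𝓝 0) := by
  simp only [Complex.tendsto_exp_nhds_zero_iff, Complex.neg_re, tendsto_neg_atBot_iff]

theorem Stp.pb0 (s : Stp T T' U 0 W p p' Φ) (hl : l <:+ T.top) : Pb T T' l l Φ :=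
  s.sm.pb l List.nil_suffix hl

theorem norm1 (h : T.WF) (hp : T.Pt U p) (hl : l <:+ T.top) (hW : ∀ k ∈ W, T.Fre l k)
    {γ : ι ⊕ ℕ → ℝ} (hγ : T.Big U p l γ) :
    ∃ (T' : Tw ι) (p' : α → ι → ℂ) (Φ : (ι → ℂ) → ι → ℂ) (γ' : ι ⊕ ℕ → ℝ),
      Stp T T' U 0 W p p' Φ ∧ (∀ a, 0 ≤ γ' a) ∧
      ∀ x ∈ T'.D l, T.lin l γ (Φ x) = T'.lin l γ' x := by
  obtain ⟨T', p', Φ, γ', h1, h2, -, h3, -, h4, -⟩ := E1_norm h hp hl hW hγ
  obtain ⟨R, h5, h6⟩ := h1.fix h2 (Nat.zero_le _)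
  exact ⟨_, p', Φ, γ', h6, h3, fun x hx => h4 x (h5 l hx)⟩

theorem Big.pull (h : T.Lift T' U n W p p' Φ) (hl : l' <:+ T'.top) {γ γ' : ι ⊕ ℕ → ℝ}
    {b : (ι → ℂ) → ℂ} (hb : T'.AR l' b) (e : ∀ x ∈ T'.D l', T.lin l γ (Φ x) = T'.lin l' γ' x + b x)
    (hγ : T.Big U p l γ) : T'.Big U p' l' γ' := by
  have hm := T5_mem h.wf h.pt hl
  obtain ⟨β, hβ⟩ := hb.ulim (T1_ok h.wf hl) hm
  refine (hγ.atTop_add ((Complex.continuous_re.tendsto _).comp hβ).neg).congr' ?_
  filter_upwards [hm, h.hp] with i h1 h2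
  rw [← h2, e _ h1]; simp

theorem norm_fam {I : Type*} (J : Finset I) (h : T.Good) (hp : T.Pt U p) (hl : l <:+ T.top)
    (hW : ∀ k ∈ W, T.Fre l k) (δ : I → ι ⊕ ℕ → ℝ)
    (hδ : ∀ j ∈ J, (∀ a ∈ l, δ j a = 0) ∨ T.Big U p l (δ j)) :
    ∃ (T' : Tw ι) (p' : α → ι → ℂ) (Φ : (ι → ℂ) → ι → ℂ), Stp T T' U 0 W p p' Φ ∧
      ∀ j ∈ J, T'.AR l fun x => Complex.exp (-T.lin l (δ j) (Φ x)) := by
  classical
  induction J using Finset.induction_on with
  | empty => exact ⟨T, p, id, Stp.refl h hp, by simp⟩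
  | insert j J _ ih =>
    obtain ⟨T', p', Φ, s, H⟩ := ih fun i hi => hδ i (Finset.mem_insert_of_mem hi)
    have hl' : l <:+ T'.top := s.top ▸ hl
    have hO := T1_ok s.gd.wf hl'
    rcases hδ j (Finset.mem_insert_self _ _) with h0 | h0
    · exact ⟨T', p', Φ, s, fun i hi => (Finset.mem_insert.1 hi).elim
        (fun e => e ▸ (AR.const hO 1).congr fun x _ => by simp [lin_zero h0]) (H i)⟩
    obtain ⟨γ, b, h1, h2⟩ := (s.pb0 hl).lin hO (δ j)
    obtain ⟨T'', p'', Ψ, γ', s', h3, h4⟩ := norm1 s.gd.wf s.lf.pt hl' (fun k hk => s.fre (hW k hk))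
      (h0.pull s.lf hl' h1 h2)
    have hl'' : l <:+ T''.top := s'.top ▸ hl'
    have P := s'.pb0 hl'
    refine ⟨T'', p'', _, s.trans s' (Nat.zero_le _), fun i hi => (Finset.mem_insert.1 hi).elim
      (fun e => e ▸ ?_) fun hi => P.ar (H i hi)⟩
    refine ((AR.mon s'.gd.wf hl'' h3).mul (T1_ok s'.gd.wf hl'') (P.ar (h1.neg.exp hO))).congr
      fun x hx => ?_
    simp only [Function.comp]
    rw [h2 _ (P.maps hx), h4 x hx, neg_add, Complex.exp_add]

theorem exists_min {I : Type*} (hp : T.Pt U p) (hl : l <:+ T.top) (δ : I → ι ⊕ ℕ → ℝ)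
    {J : Finset I} (hJ : J.Nonempty) :
    ∃ j0 ∈ J, ∀ j ∈ J, (∀ a ∈ l, (δ j - δ j0) a = 0) ∨ T.Big U p l (δ j - δ j0) := by
  have : ∀ᶠ i in U, ∃ j0 ∈ (J : Set I), ∀ j ∈ J,
      (T.lin l (δ j0) (p i)).re ≤ (T.lin l (δ j) (p i)).re :=
    .of_forall fun i => J.exists_min_image (fun j => (T.lin l (δ j) (p i)).re) hJ
  obtain ⟨j0, h0, h1⟩ := (Ultrafilter.eventually_exists_mem_iff J.finite_toSet).1 this
  refine ⟨j0, h0, fun j hj => (L2_tri hp hl (δ j - δ j0)).imp id fun h => h.elim id fun h => ?_⟩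
  obtain ⟨i, a, b⟩ := (h1.and (h.eventually_lt_atBot 0)).exists
  rw [lin_sub, Complex.sub_re] at b
  linarith [a j hj]

theorem big_cons (hp : T.Pt U p) {a : ι ⊕ ℕ} (hl : a :: l <:+ T.top) {γ : ι ⊕ ℕ → ℝ}
    (h0 : 0 < γ a) : T.Big U p (a :: l) γ := by
  simp only [Big, Tw.re_lin_val]
  exact Sq.top_of_div (hp.sq hl).1 (hp.sq hl).lin_div h0

/-- a unit plus a small term is a unit -/
theorem mu_small (h : T.Good) (hp : T.Pt U p) (hl : l <:+ T.top) (hW : ∀ k ∈ W, T.Fre l k)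
    {u v : (ι → ℂ) → ℂ} (hu : T.AR l u) (hv : T.AR l v) (hU : T.UU U p W u) {γ δ : ι ⊕ ℕ → ℝ}
    (hδ : T.Big U p l δ) (e : ∀ x ∈ T.D l,
      g x = Complex.exp (-T.lin l γ x) * (u x + Complex.exp (-T.lin l δ x) * v x)) :
    ∃ (T' : Tw ι) (p' : α → ι → ℂ) (Φ : (ι → ℂ) → ι → ℂ), Stp T T' U 0 W p p' Φ ∧
      T'.MU U p' l W (g ∘ Φ) := by
  obtain ⟨T', p', Φ, s, H⟩ := norm_fam {()} h hp hl hW (fun _ => δ) fun _ _ => Or.inr hδ
  have hl' : l <:+ T'.top := s.top ▸ hl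
  have hO := T1_ok s.gd.wf hl'
  have P := s.pb0 hl
  have h1 := (P.ar hu).add hO ((H () (by simp)).mul hO (P.ar hv))
  have h2 : T.UU U p W fun x => u x + Complex.exp (-T.lin l δ x) * v x := by
    obtain ⟨w, c, a1, a2, a3⟩ := hU
    obtain ⟨β, hβ⟩ := hv.ulim (T1_ok h.wf hl) (ev_upd h.wf hp hl hW a1)
    refine ⟨w, c, a1, a2, ?_⟩
    simpa only [lin_upd h.wf hl hW, zero_mul, add_zero] using a3.add ((Big.iff.1 hδ).mul hβ)
  exact ⟨T', p', Φ, s, ((MU.of_unit h1 (h2.pull s.lf fun k hk => (hW k hk).1)).mon_mul s.gd.wf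
    s.lf.pt hl' P (fun k hk => s.fre (hW k hk)) γ).congr fun x hx => (e _ (P.maps hx)).symm⟩

/-- the leading term step -/
theorem lead_step (h : Ctx T U p m W) {a : ι ⊕ ℕ} (h1 : T.lw m <:+ l) (h2 : a :: l <:+ T.lv m)
    (ih : ∀ c, T.AR l c → ¬ EqOn c 0 (T.D l) → Esc T U p m W ∨
      ∃ (T' : Tw ι) (p' : α → ι → ℂ) (Φ : (ι → ℂ) → ι → ℂ), Stp T T' U m W p p' Φ ∧
        T'.MU U p' l W (c ∘ Φ))
    (hg : T.AR (a :: l) g) (h0 : ¬ EqOn g 0 (T.D (a :: l))) : Esc T U p m W ∨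
      ∃ (T' : Tw ι) (p' : α → ι → ℂ) (Φ : (ι → ℂ) → ι → ℂ), Stp T T' U m W p p' Φ ∧
        T'.MU U p' (a :: l) W (g ∘ Φ) := by
  have hl := h2.trans h.top
  obtain ⟨t, γ, c, g1, a1, a2, a3, a4, a5, a6, a7⟩ := J3_lead h.gd hl hg.a hg.r h0
  refine (ih c ⟨a2, a3⟩ a4).imp id ?_
  rintro ⟨T', p', Φ, s, δ, u, b1, b2, b3, b4⟩
  have hl' : a :: l <:+ T'.top := s.top ▸ hl
  have hO := T1_ok s.gd.wf hl'
  have ha := s.gd.wf.not_mem hl'
  have hW : ∀ k ∈ W, T'.Fre (a :: l) k := fun k hk => s.fre ((h.fre k hk).suffix h2)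
  have P := s.sm.pb (a :: l) (h1.trans (List.suffix_cons _ _)) hl
  obtain ⟨C, b, c1, c2, c3⟩ := s.sm.sc a l h1 hl
  have hb : T'.AR (a :: l) b := ⟨c1, c2⟩
  have e1 : ∀ (r : ℝ) (β : ι ⊕ ℕ → ℝ) (x), T'.lin (a :: l) (Function.update β a r) x =
      r * T'.s a x + T'.lin l β x := fun r β x => by
    rw [lin_cons ha, Function.update_self]
    congr 1
    exact Finset.sum_congr rfl fun z hz => by
      rw [Function.update_of_ne fun e : z = a => ha (e ▸ List.mem_toFinset.1 hz)]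
  obtain ⟨T'', p'', Ψ, s', hM⟩ := mu_small (g := fun x => c (Φ x) + T.fr.ex a γ (Φ x) * g1 (Φ x))
    s.gd s.lf.pt hl' hW (AR.lift hO (List.suffix_cons _ _) ⟨b1, b2⟩)
    ((((AR.const hO γ).mul hO hb).neg.exp hO).mul hO (P.ar ⟨a5, a6⟩)) b3
    (γ := Function.update δ a 0) (δ := Function.update (γ • C - δ) a γ)
    (big_cons s.lf.pt hl' (by rwa [Function.update_self])) fun x hx => by
      have e2 : T.fr.ex a γ (Φ x) = Complex.exp (-(γ * T.s a (Φ x))) := rfl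
      have e3 : c (Φ x) = _ := b4 x (D_cons_sub hx)
      rw [e1, e1, e2, e3, c3 x hx, lin_sub, lin_smul, mul_add (Complex.exp _), ← mul_assoc,
        ← mul_assoc, ← Complex.exp_add, ← Complex.exp_add]
      simp only [Complex.ofReal_zero, zero_mul, zero_add, Function.comp]
      congr 3; ring
  have s2 := s.trans (s'.mono (Nat.zero_le m) Finset.Subset.rfl) (by have := h.le; omega)
  have hl'' : a :: l <:+ T''.top := s'.top ▸ hl'
  have P2 := s2.sm.pb (a :: l) (h1.trans (List.suffix_cons _ _)) hl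
  refine ⟨T'', p'', _, s2, (hM.mon_mul s'.gd.wf s'.lf.pt hl'' P2 (fun k hk => s'.fre (hW k hk))
    (Pi.single a t)).congr fun x hx => ?_⟩
  have e4 : ∀ y, T.lin (a :: l) (Pi.single a t) y = t * T.s a y := fun y => by
    rw [lin_cons (h.gd.wf.not_mem hl), Pi.single_eq_same, lin_zero fun z hz =>
      Pi.single_eq_of_ne (fun e : z = a => h.gd.wf.not_mem hl (e ▸ hz)) _, add_zero]
  rw [e4]
  exact (a7 _ (P2.maps hx)).symm

theorem liou_all (h : T.WF) (hg : T.AR [] g) (J : Finset ι) (hJ : ∀ k ∈ J, k ∉ T.Fv)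
    (y : ι → ℂ) (hx : x ∈ T.D []) :
    (fun k => if k ∈ J then y k else x k) ∈ T.D [] ∧ g (fun k => if k ∈ J then y k else x k) = g x := by
  induction J using Finset.induction_on with
  | empty => simpa using hx
  | insert k J _ ih =>
    obtain ⟨h1, h2⟩ := ih fun j hj => hJ j (Finset.mem_insert_of_mem hj)
    have hk := hJ k (Finset.mem_insert_self _ _)
    have e : (fun j => if j ∈ insert k J then y j else x j) =
        Function.update (fun j => if j ∈ J then y j else x j) k (y k) := by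
      funext j
      by_cases e : j = k
      · subst e; simp
      · simp [e]
    rw [e]
    exact ⟨T2_upd h List.nil_suffix (by simp) (fun e => absurd e hk) h1 fun e => absurd e hk,
      (T3_liou h List.nil_suffix (by simp) hk hg.dif hg.a.2 h1 _).trans h2⟩

/-- the bottom of the tower -/
theorem base_nil (h : T.WF) (hW : W = T.Fv) (hg : T.AR [] g) (h0 : ¬ EqOn g 0 (T.D [])) :
    T.UU U p W g := by
  obtain ⟨x, h1, h2, h3⟩ : ∃ x ∈ T.D [], x ∈ Rp ι ∧ g x ≠ 0 := by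
    by_contra! H
    exact h0 (T9_idR h List.nil_suffix hg.dif H)
  have e : ∀ k, ((x k).re : ℂ) = x k := fun k => Complex.ext rfl (by simpa using (h2 k).symm)
  refine ⟨fun k => (x k).re, g x, fun k hk => (Complex.abs_re_le_norm _).trans_lt (h1 k (hW ▸ hk)),
    h3, tendsto_const_nhds.congr fun i => ?_⟩
  rw [← (liou_all h hg Wᶜ (fun k hk => hW ▸ Finset.mem_compl.1 hk) (p i) h1).2]
  congr 1; funext k
  by_cases hk : k ∈ W <;> simp [upd, hk, e]

/-- the statement of the monomialisation -/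
def MS (T : Tw ι) (U : Ultrafilter α) (p : α → ι → ℂ) (m : ℕ) (W : Finset ι)
    (g : (ι → ℂ) → ℂ) : Prop :=
  Esc T U p m W ∨ ∃ (T' : Tw ι) (p' : α → ι → ℂ) (Φ : (ι → ℂ) → ι → ℂ),
    Stp T T' U (m + 1) W p p' Φ ∧ T'.MU U p' (T.lv m) W (g ∘ Φ)

/-- no active variable of the top label -/
theorem step_U (h : Ctx T U p m W) (hV : ∀ k ∈ T.Fv, k ∉ W → T.lab k < m)
    (ih : ∀ j, m = j + 1 → Ctx T U p j W → ∀ g, T.AR (T.lv j) g → ¬ EqOn g 0 (T.D (T.lv j)) →
      MS T U p j W g) (hg : T.AR (T.lv m) g) (h0 : ¬ EqOn g 0 (T.D (T.lv m))) :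
    MS T U p m W g := by
  have key : ∀ q : List (ι ⊕ ℕ), q ++ T.lw m <:+ T.lv m → ∀ c, T.AR (q ++ T.lw m) c →
      ¬ EqOn c 0 (T.D (q ++ T.lw m)) → Esc T U p m W ∨
      ∃ (T' : Tw ι) (p' : α → ι → ℂ) (Φ : (ι → ℂ) → ι → ℂ), Stp T T' U m W p p' Φ ∧
        T'.MU U p' (q ++ T.lw m) W (c ∘ Φ) := by
    intro q
    induction q with
    | nil =>
      intro _ c hc c0
      cases m with
      | zero =>
        refine Or.inr ⟨T, p, id, Stp.refl h.gd h.pt, MU.of_unit hc (base_nil h.gd.wf ?_ hc c0)⟩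
        exact Finset.Subset.antisymm (fun k hk => (h.pas k hk).1) fun k hk =>
          by_contra fun e => Nat.not_lt_zero _ (hV k hk e)
      | succ j =>
        exact (ih j rfl ⟨h.gd, h.sp, h.pt, by have := h.le; omega, fun k hk =>
          ⟨(h.pas k hk).1, by have := (h.pas k hk).2; omega⟩,
          fun k hk e => by have := hV k hk e; omega⟩ c hc c0).imp (fun e => e.succ h) id
    | cons a q ihq =>
      intro hq c hc c0
      exact lead_step h (List.suffix_append _ _) hq (ihq (suffix_tail hq)) hc c0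
  obtain ⟨q, hq⟩ : T.lw m <:+ T.lv m := lw_mono (Nat.le_succ m)
  refine (key q (hq ▸ List.suffix_rfl) g (hq ▸ hg) (hq ▸ h0)).imp id ?_
  rintro ⟨T', p', Φ, s, H⟩
  exact ⟨T', p', Φ, s.mono (Nat.le_succ m) Finset.Subset.rfl, hq ▸ H⟩

end Tw

end Crest.Agent.N207.O
end
end

-- ▼ part N207/O/One
section

/-!
# Row 207, block O (helper84): one variable lemmas on Taylor coefficients along a filter
-/

set_option autoImplicit false

open Set Filter Topology Metric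

noncomputable section

namespace Crest.Agent.N207.O

variable {α : Type*} {F : Filter α} {φ P : α → ℂ → ℂ} {ρ : ℝ}

theorem cauchy_ball {f : ℂ → ℂ} {B R : ℝ} (hd : DifferentiableOn ℂ f (ball 0 ρ))
    (hb : ∀ t ∈ ball (0 : ℂ) ρ, ‖f t‖ ≤ B) (h0 : 0 < R) (hR : R < ρ) (n : ℕ) :
    ‖iteratedDeriv n f 0‖ ≤ n.factorial * B / R ^ n :=
  Complex.norm_iteratedDeriv_le_of_forall_mem_sphere_norm_le n h0
    (hd.diffContOnCl_ball (closedBall_subset_ball hR))
    fun z hz => hb z (sphere_subset_closedBall.trans (closedBall_subset_ball hR) hz)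

theorem der_sub (hρ : 0 < ρ) (hd : ∀ᶠ i in F, DifferentiableOn ℂ (φ i) (ball 0 ρ))
    (hP : ∀ᶠ i in F, DifferentiableOn ℂ (P i) (ball 0 ρ)) {ε : α → ℝ} (hε : Tendsto ε F (𝓝 0))
    (hb : ∀ᶠ i in F, ∀ t ∈ ball (0 : ℂ) ρ, ‖φ i t - P i t‖ ≤ ε i) (n : ℕ) :
    Tendsto (fun i => iteratedDeriv n (φ i) 0 - iteratedDeriv n (P i) 0) F (𝓝 0) := by
  refine squeeze_zero_norm' (a := fun i => n.factorial * ε i / (ρ / 2) ^ n) ?_
    (by simpa using (hε.const_mul (n.factorial : ℝ)).div_const ((ρ / 2) ^ n))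
  filter_upwards [hd, hP, hb] with i h1 h2 h3
  have := cauchy_ball (h1.sub h2) h3 (half_pos hρ) (half_lt_self hρ) n
  rwa [iteratedDeriv_sub
    (h1.analyticAt (ball_mem_nhds _ hρ)).contDiffAt
    (h2.analyticAt (ball_mem_nhds _ hρ)).contDiffAt] at this

theorem ord_zero {B : ℝ} (hd : ∀ᶠ i in F, DifferentiableOn ℂ (φ i) (ball 0 ρ))
    (hb : ∀ᶠ i in F, ∀ t ∈ ball (0 : ℂ) ρ, ‖φ i t‖ ≤ B) {w : ℂ} (hw : ‖w‖ < ρ)
    (h0 : ∀ n : ℕ, Tendsto (fun i => iteratedDeriv n (φ i) 0 / (n.factorial : ℂ)) F (𝓝 0)) :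
    Tendsto (fun i => φ i w) F (𝓝 0) := by
  obtain ⟨R, h1, h2⟩ := exists_between hw
  have hR : 0 < R := (norm_nonneg w).trans_lt h1
  have hs : Summable fun n : ℕ => B * (‖w‖ / R) ^ n :=
    (summable_geometric_of_lt_one (by positivity) ((div_lt_one hR).2 h1)).mul_left B
  have key := tendsto_tsum_of_dominated_convergence (𝓕 := F) (g := fun _ : ℕ => (0 : ℂ))
    (f := fun i (n : ℕ) => iteratedDeriv n (φ i) 0 / (n.factorial : ℂ) * w ^ n) hs
    (fun n => by simpa using (h0 n).mul_const (w ^ n)) (by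
      filter_upwards [hd, hb] with i h3 h4 n
      have h5 := cauchy_ball h3 h4 hR h2 n
      have h6 : (0 : ℝ) < n.factorial := by exact_mod_cast n.factorial_pos
      rw [norm_mul, norm_div, norm_pow, Complex.norm_natCast, div_pow, ← mul_div_right_comm,
        div_le_iff₀ h6]
      calc _ ≤ n.factorial * B / R ^ n * ‖w‖ ^ n := by gcongr
        _ = _ := by ring)
  rw [tsum_zero] at key
  refine key.congr' (hd.mono fun i hi => ?_)
  have := Complex.taylorSeries_eq_on_ball' (z := w) (by simpa using hw) hi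
  simp only [sub_zero] at this
  exact Eq.trans (tsum_congr fun n => by rw [div_eq_inv_mul]) this

theorem der_poly (κ : ℕ → ℂ) (c : ℂ) (d n : ℕ) :
    iteratedDeriv n (fun t : ℂ => ∑ j ∈ Finset.range d, κ j * (c + t) ^ j) 0 =
      ∑ j ∈ Finset.range d, κ j * (j.descFactorial n * c ^ (j - n)) := by
  rw [iteratedDeriv_fun_sum fun j _ => by fun_prop]
  refine Finset.sum_congr rfl fun j _ => ?_
  rw [iteratedDeriv_const_mul_field, iteratedDeriv_comp_const_add n (fun z : ℂ => z ^ j) c]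
  simp only [add_zero, iteratedDeriv_pow]

theorem poly_ord {κ : ℕ → ℂ} {c : ℂ} (hc : c ≠ 0) {e : ℕ}
    (h : (κ (e + 1) ≠ 0 ∧ κ e = 0) ∨ (κ (e + 1) = 0 ∧ ∃ j ≤ e, κ j ≠ 0)) :
    ∃ n ≤ e, ∑ j ∈ Finset.range (e + 2), κ j * (j.descFactorial n * c ^ (j - n)) ≠ 0 := by
  classical
  have hd : ∀ j n : ℕ, n ≤ j → (j.descFactorial n : ℂ) ≠ 0 := fun j n h => by
    exact_mod_cast (Nat.descFactorial_pos.2 h).ne'
  rcases h with ⟨h1, h2⟩ | ⟨h1, h2⟩
  · refine ⟨e, le_rfl, ?_⟩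
    rw [Finset.sum_eq_single (e + 1) (fun j hj hne => ?_) fun h => absurd (by simp) h]
    · exact mul_ne_zero h1 (mul_ne_zero (hd _ _ (by omega)) (pow_ne_zero _ hc))
    · have := Finset.mem_range.1 hj
      rcases (show j = e ∨ j < e by omega) with rfl | h
      · rw [h2, zero_mul]
      · simp [Nat.descFactorial_of_lt h]
  · obtain ⟨j, h3, h4⟩ := h2
    have h5 : κ (Nat.findGreatest (fun j => κ j ≠ 0) e) ≠ 0 :=
      Nat.findGreatest_spec (P := fun j => κ j ≠ 0) h3 h4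
    have h6 := Nat.findGreatest_le (P := fun j => κ j ≠ 0) e
    refine ⟨_, h6, ?_⟩
    rw [Finset.sum_eq_single (Nat.findGreatest (fun j => κ j ≠ 0) e) (fun i hi hne => ?_)
      fun h => absurd (Finset.mem_range.2 (by omega)) h]
    · exact mul_ne_zero h5 (mul_ne_zero (hd _ _ le_rfl) (pow_ne_zero _ hc))
    · have := Finset.mem_range.1 hi
      rcases lt_or_gt_of_ne hne with h | h
      · simp [Nat.descFactorial_of_lt h]
      · rcases (show i = e + 1 ∨ i ≤ e by omega) with rfl | h7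
        · rw [h1, zero_mul]
        · rw [not_not.1 (Nat.findGreatest_is_greatest h h7), zero_mul]

end Crest.Agent.N207.O
end
end

-- ▼ part N207/O/El3
section

/-!
# Row 207, block O (helper47): the lift `E3_new`
-/

set_option autoImplicit false
set_option linter.unusedSectionVars false

open Set Filter Topology Metric

noncomputable section

namespace Crest.Agent.N207.O

variable {ι : Type} [Fintype ι] [DecidableEq ι] {α : Type} {U : Ultrafilter α} {T T' : Tw ι}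
  {p : α → ι → ℂ} {W : Finset ι}

namespace El

/-- the levels below the block `j` -/
def lo (T : Tw ι) : ℕ → List (ι ⊕ ℕ)
  | 0 => []
  | j + 1 => Sum.inr j :: T.lv j

theorem lv_eq (T : Tw ι) (j : ℕ) : T.lv j = (T.B j).map Sum.inl ++ lo T j := by
  cases j <;> simp [Tw.lv, lo]

theorem suffix_cases {β : Type*} {a : β} {l L : List β} : ∀ {Q : List β}, a :: l <:+ Q ++ L →
    a :: l <:+ L ∨ ∃ q, a :: q <:+ Q ∧ l = q ++ L
  | [], h => Or.inl h
  | b :: Q, h => by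
    rcases List.suffix_cons_iff.1 h with h | h
    · cases h; exact Or.inr ⟨Q, List.suffix_rfl, rfl⟩
    · exact (suffix_cases h).imp_right fun ⟨q, h1, h2⟩ => ⟨q, h1.trans (List.suffix_cons _ _), h2⟩

theorem block_split {l₂ : List (ι ⊕ ℕ)} {j : ℕ} (h : l₂ <:+ T.lv j) :
    ∃ n ≤ j, ∃ b₁ b₂, T.B n = b₁ ++ b₂ ∧ l₂ = b₂.map Sum.inl ++ lo T n := by
  have key : ∀ (b : List ι) (L : List (ι ⊕ ℕ)), l₂ <:+ b.map Sum.inl ++ L →
      (∃ b₁ b₂, b = b₁ ++ b₂ ∧ l₂ = b₂.map Sum.inl ++ L) ∨ l₂ <:+ L.tail := fun b L hb => by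
    induction b with
    | nil =>
      rcases L with _ | ⟨c, L⟩
      · exact Or.inr hb
      · exact (List.suffix_cons_iff.1 hb).imp_left fun e => ⟨[], [], rfl, e⟩
    | cons c b ih =>
      rcases List.suffix_cons_iff.1 hb with e | e
      · exact Or.inl ⟨[], c :: b, rfl, e⟩
      · exact (ih e).imp_left fun ⟨b₁, b₂, e1, e2⟩ => ⟨c :: b₁, b₂, by simp [e1], e2⟩
  induction j with
  | zero =>
    rcases key _ _ (lv_eq T 0 ▸ h) with e | e
    · exact ⟨0, le_rfl, e⟩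
    · exact ⟨0, le_rfl, T.B 0, [], by simp, List.suffix_nil.1 e⟩
  | succ j ih =>
    rcases key _ _ (lv_eq T (j + 1) ▸ h) with e | e
    · exact ⟨j + 1, le_rfl, e⟩
    · obtain ⟨n, h1, h2⟩ := ih e
      exact ⟨n, h1.trans (Nat.le_succ _), h2⟩

end El

open El

theorem E3_new (h : T.WF) (hs : T.Sp) (hp : T.Pt U p) (hW : ∀ k ∈ W, k ∈ T.Fv) {j : ℕ}
    (hj : j ≤ T.p) {l₁ l₂ : List (ι ⊕ ℕ)} (hl : T.lv j = l₁ ++ l₂) {σ : α → ℝ}
    (hσ : Tendsto σ U atTop)
    (h₂ : ∀ b ∈ l₂, Tendsto (fun i => (T.s b (p i)).re / σ i) U (𝓝 0))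
    (h₁ : ∀ a ∈ l₁, Tendsto (fun i => σ i / (T.s a (p i)).re) U (𝓝 0))
    (h₃ : j < T.p → Tendsto (fun i => σ i / (T.s (Sum.inr j) (p i)).re) U (𝓝 0)) :
    ∃ (T' : Tw ι) (k' : ι) (Φ : (ι → ℂ) → ι → ℂ),
      T.Lift T' U 0 W p (fun i => Function.update (p i) k' (σ i)) Φ ∧ T'.Fv = T.Fv ∧
      T'.lab = T.lab ∧ T'.s = T.s ∧ k' ∉ T.Fv ∧ Sum.inl k' ∉ T.top ∧
      T'.lv j = l₁ ++ Sum.inl k' :: l₂ ∧ T'.top.toFinset = insert (Sum.inl k') T.top.toFinset ∧
      ∀ x, Φ x = Function.update x k' 0 := by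
  obtain ⟨k, k1, k2⟩ : ∃ k, k ∉ T.Fv ∧ Sum.inl k ∉ T.top := by
    obtain ⟨k, -, hk⟩ := Finset.exists_mem_notMem_of_card_lt_card (t := Finset.univ)
      ((Finset.card_union_le _ _).trans_lt hs)
    exact ⟨k, by simpa using hk⟩
  obtain ⟨n, n1, b₁, b₂, e1, e2⟩ := block_split (T := T) (j := j) ⟨l₁, hl.symm⟩
  obtain ⟨T', hT⟩ : ∃ T' : Tw ι, T' = { T with
    B := Function.update T.B n (b₁ ++ k :: b₂), c := fun j => Function.update (T.c j) (.inl k) 0 } :=
    ⟨_, rfl⟩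
  have eB : T'.B = Function.update T.B n (b₁ ++ k :: b₂) := by rw [hT]
  have ep : T'.p = T.p := by rw [hT]
  have eV : T'.Fv = T.Fv := by rw [hT]
  have eR : T'.R = T.R := by rw [hT]
  have er : T'.r = T.r := by rw [hT]
  have el : T'.lab = T.lab := by rw [hT]
  have eρ : T'.ρ = T.ρ := by rw [hT]
  have ec : ∀ j, T'.c j = Function.update (T.c j) (.inl k) 0 := by rw [hT]; exact fun _ => rfl
  have eu : T'.u = T.u := by rw [hT]
  have es : T'.s = T.s := by rw [hT]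
  have v1 : ∀ m < n, T'.lv m = T.lv m := fun m hm => by
    induction m with
    | zero => simp only [Tw.lv, eB, Function.update_of_ne hm.ne]
    | succ m ih => simp only [Tw.lv, eB, Function.update_of_ne hm.ne, ih (by omega)]
  have v2 : ∀ m, n ≤ m → ∃ q, T.lv m = q ++ l₂ ∧ T'.lv m = q ++ Sum.inl k :: l₂ := fun m hm => by
    induction hm with
    | refl =>
      have : lo T' n = lo T n := by
        cases n with
        | zero => rfl
        | succ n => simp only [lo, v1 n (Nat.lt_succ_self _)]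
      exact ⟨b₁.map Sum.inl, by simp [lv_eq, e1, e2], by simp [lv_eq, eB, e2, this]⟩
    | @step m hm ih =>
      obtain ⟨q, a1, a2⟩ := ih
      have : m + 1 ≠ n := by have : n ≤ m := hm; omega
      exact ⟨(T.B (m + 1)).map Sum.inl ++ Sum.inr m :: q, by simp [Tw.lv, a1],
        by simp [Tw.lv, eB, Function.update_of_ne this, a2]⟩
  have v3 : ∀ m < n, T.lv m <:+ l₂ := fun m hm => by
    obtain ⟨n, rfl⟩ := Nat.exists_eq_add_of_lt hm
    rw [e2]
    exact (lv_suffix T (Nat.le_add_right _ _)).trans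
      ((List.suffix_cons _ _).trans (List.suffix_append _ _))
  obtain ⟨Q, t1, t2⟩ := v2 T.p (n1.trans hj)
  replace t1 : T.top = Q ++ l₂ := t1
  replace t2 : T'.top = Q ++ Sum.inl k :: l₂ := by rw [Tw.top, ep, t2]
  have m1 : ∀ m, ∀ a ∈ T.lv m, a ∈ T'.lv m := fun m a ha => by
    rcases lt_or_ge m n with c | c
    · rwa [v1 m c]
    · obtain ⟨q, a1, a2⟩ := v2 m c
      rw [a1] at ha
      rw [a2]
      exact (List.sublist_cons_self _ _).append_left q |>.subset ha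
  have m2 : ∀ a ∈ T'.top, a = Sum.inl k ∨ a ∈ T.top := fun a ha => by
    rw [t2] at ha
    rw [t1]
    simp only [List.mem_append, List.mem_cons] at ha ⊢
    tauto
  obtain ⟨Φ, hΦ⟩ : ∃ Φ : (ι → ℂ) → ι → ℂ, ∀ x, Φ x = Function.update x k 0 := ⟨_, fun _ => rfl⟩
  have dΦ : Differentiable ℂ Φ := by
    rw [funext hΦ, ← differentiableOn_univ]
    exact dif_update differentiableOn_id (differentiableOn_const _)
  have rΦ : ∀ x ∈ Rp ι, Φ x ∈ Rp ι := fun x hx => hΦ x ▸ update_real hx rfl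
  have is : ∀ a ∈ T.top, Ind k (T.s a) := fun a ha =>
    ind_s h List.suffix_rfl k2 (fun h' => absurd h' k1) ha
  have iu : ∀ m < T.p, ∀ x, T.u m (Φ x) = T.u m x := fun m hm x => by
    rw [hΦ, (ind_su h List.suffix_rfl k2 (fun h' => absurd h' k1) (inr_mem.2 hm)).2]
  have hs' : ∀ a ∈ T.top, ∀ x, T.s a (Φ x) = T'.s a x := fun a ha x => by rw [hΦ, is a ha, es]
  have hlin : ∀ m ≤ T.p, ∀ γ γ' : ι ⊕ ℕ → ℝ, γ' (.inl k) = 0 → (∀ a, a ≠ .inl k → γ' a = γ a) →
      ∀ x, T'.lin (T'.lv m) γ' x = T.lin (T.lv m) γ (Φ x) := fun m hm γ γ' g1 g2 x => by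
    have sb := (lv_top T hm).subset
    rw [← lin_congr (fun a ha => (hs' a (sb ha) x).symm) fun a ha => g2 a fun e => k2 (e ▸ sb ha)]
    rcases lt_or_ge m n with c | c
    · rw [v1 m c]
    · obtain ⟨q, a1, a2⟩ := v2 m c
      rw [a1, a2, Tw.lin, List.toFinset_eq_of_perm _ _ List.perm_middle, List.toFinset_cons,
        Finset.sum_insert_zero (by simp [g1]), Tw.lin]
  have hE : ∀ m < T.p, ∀ x, T'.E m x = T.E m (Φ x) := fun m hm x => by
    rw [Tw.E, Tw.E, eu, iu m hm, eρ, hlin m hm.le _ _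
      (h.ρs m hm _ fun h' => k2 ((lv_top T hm.le).subset h')) fun _ _ => rfl]
  have l2t : l₂ <:+ T.top := ⟨Q, t1.symm⟩
  have low : ∀ l, l <:+ l₂ → Rel T T' l l Φ := fun l hl => by
    simpa using climb0 (T' := T') (Φ := Φ) h (Q := l₂) (l0 := []) (l0' := [])
      (by rwa [List.append_nil]) (Rel.nil (fun x hx i hi => by
        rw [hΦ, Function.update_of_ne fun e : i = k => k1 (e ▸ hi)]
        exact er ▸ hx i (eV ▸ hi)) dΦ.differentiableOn fun x _ => rΦ x) eR.ge (List.Sublist.refl _)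
      (fun a ha x _ => hs' a (l2t.subset (by simpa using ha)) x)
      (fun m hm x _ => hE m (inr_mem.1 (l2t.subset hm)) x) hl
  have hig : ∀ q, q <:+ Q → Rel T T' (q ++ l₂) (q ++ Sum.inl k :: l₂) Φ := fun q hq =>
    climb0 h (t1 ▸ List.suffix_rfl) ((low _ List.suffix_rfl).up (List.suffix_cons _ _)
      (ok_step (low _ List.suffix_rfl).ok (eR ▸ zero_le_one.trans h.R1)
        ((differentiable_apply k).differentiableOn.congr fun x _ => by rw [es, h.sN])
        fun _ e => by cases e)) eR.ge (List.sublist_cons_self _ _)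
      (fun a ha x _ => hs' a (t1 ▸ ha) x) (fun m hm x _ => hE m
        (inr_mem.1 (show _ ∈ T.top from t1 ▸ List.mem_append_left _ hm)) x) hq
  have rel : ∀ m ≤ T.p, Rel T T' (T.lv m) (T'.lv m) Φ := fun m hm => by
    rcases lt_or_ge m n with c | c
    · rw [v1 m c]; exact low _ (v3 m c)
    · obtain ⟨q, a1, a2⟩ := v2 m c
      obtain ⟨q', a3, a4⟩ := suffix_split (List.suffix_append q l₂) (a1 ▸ t1 ▸ lv_top T hm)
      rw [a1, a2, List.append_cancel_right a4]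
      exact hig _ a3
  have wf : T'.WF := by
    refine ⟨eR ▸ h.R1, eV ▸ er ▸ h.r0, ?_, fun i hi h' => ?_, eV ▸ el ▸ ep ▸ h.lab, es ▸ h.sN,
      fun m hm x hx => ?_, fun m hm => ?_, fun m hm x hx hr => ?_, fun m hm i a1 a2 => ?_,
      eρ ▸ h.ρ0, fun m a => ?_, fun m hm a ha => ?_, fun m hm => ?_, fun m m' a1 a2 => ?_⟩
    all_goals simp only [ep, eρ, eu, eV, el] at *
    · rw [t2, List.nodup_middle, ← t1]
      exact List.nodup_cons.2 ⟨k2, h.nd⟩
    · rcases m2 _ h' with e | e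
      · cases e; exact k1 hi
      · exact h.dj i hi e
    · rw [hE m hm, hlin m hm.le (T.c m) _ (by simp [ec]) (fun a ha => by simp [ec, ha]),
        ← hs' _ (inr_mem.2 hm)]
      exact h.sL m hm _ ((rel m hm.le).maps hx)
    · exact A2_congr ((rel m hm.le).cl _ (h.uA m hm)) fun x _ => iu m hm x
    · exact iu m hm x ▸ (rel m hm.le).rr (h.uR m hm) x hx hr
    · exact es ▸ h.ind m hm i (fun h' => a1 (m1 _ _ h')) a2
    · rw [ec]
      by_cases e : a = .inl k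
      · simp [e]
      · simpa [e] using h.c0 m a
    · exact h.ρs m hm a fun h' => ha (m1 _ _ h')
    · exact (h.ρp m hm).imp fun a ha => ⟨m1 _ _ ha.1, ha.2⟩
    · exact (h.ρm m m' a1 a2).imp_right fun ⟨a, ha⟩ => ⟨a, m1 _ _ ha.1, ha.2⟩
  have sp : ∀ a ∈ T.top, ∀ i, T'.s a (Function.update (p i) k (σ i)) = T.s a (p i) :=
    fun a ha i => by rw [es, is a ha]
  have sk : ∀ i, (T'.s (.inl k) (Function.update (p i) k (σ i))).re = σ i := fun i => by
    simp [es, h.sN]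
  have hQ : ∀ a ∈ Q, Tendsto (fun i => σ i / (T.s a (p i)).re) U (𝓝 0) := fun a ha => by
    obtain ⟨t, ht⟩ := lv_top T hj
    have : Q = t ++ l₁ := List.append_cancel_right (bs := l₂) (by rw [← t1, ← ht, hl]; simp)
    rcases List.mem_append.1 (this ▸ ha) with ha | ha
    swap
    · exact h₁ a ha
    obtain ⟨s1, s2, rfl⟩ := List.append_of_mem ha
    have jp : j < T.p := lt_of_le_of_ne hj fun e => by
      have := congrArg List.length ht
      rw [Tw.top, ← e, List.length_append, List.length_append, List.length_cons] at this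
      omega
    have b1 : a :: (s2 ++ T.lv j) <:+ T.top := ⟨s1, by simp [← ht]⟩
    rcases List.suffix_cons_iff.1 (List.suffix_of_suffix_length_le (lv_suffix' T jp) b1
      (by simp)) with e | e
    · rw [← (List.cons.inj e).1]; exact h₃ jp
    · have := (h₃ jp).mul (hp.ord a _ b1 _ (e.subset List.mem_cons_self))
      rw [mul_zero] at this
      refine this.congr' ?_
      filter_upwards [(hp.big _ (inr_mem.2 jp)).eventually_gt_atTop 0] with i hi
      field_simp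
  have tp := rel _ le_rfl
  rw [← ep] at tp
  refine ⟨T', k, Φ, ⟨wf, ⟨fun i => update_real (hp.re i) (by simp), fun i hi => ?_,
    fun i a1 a2 m => ?_, fun a ha => ?_, fun a l hl b hb => ?_⟩, .of_forall fun i => ?_, ep,
    by simp only [Tw.μ, ep, el, eV, le_refl], eV ▸ subset_rfl,
    fun i _ a2 => ⟨eV ▸ a2, by rw [el], by rw [er]⟩, fun i a1 x w => ?_,
    fun i _ => el ▸ le_max_left _ _, dΦ.differentiableOn, fun x _ => rΦ x, fun m _ hm => ?_⟩,
    eV, el, es, k1, k2, ?_, ?_, hΦ⟩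
  · simpa [show i ≠ k from fun e => k1 (e ▸ eV ▸ hi)] using hp.z0 i (eV ▸ hi)
  · have : i ≠ k := fun e => a2 (by simp [t2, e])
    simpa [this] using hp.un i (eV ▸ a1) (fun h' => a2 (by
      rw [Tw.top, ep]; exact m1 _ _ h')) m
  · rcases m2 a ha with rfl | e
    · simpa only [sk] using hσ
    · simpa only [sp a e] using hp.big a e
  · rw [t2] at hl
    rcases suffix_cases hl with e | ⟨q, e, rfl⟩
    · rcases List.suffix_cons_iff.1 e with e | e
      · cases e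
        simpa only [sk, sp b (l2t.subset hb)] using h₂ b hb
      · have e' := e.trans l2t
        simpa only [sp a (e'.subset List.mem_cons_self),
          sp b (e'.subset (List.mem_cons_of_mem _ hb))] using hp.ord a l e' b hb
    · have e' : a :: (q ++ l₂) <:+ T.top := by
        obtain ⟨t, rfl⟩ := e
        exact ⟨t, by simp [t1]⟩
      have ha := e'.subset List.mem_cons_self
      by_cases c : b = .inl k
      · subst c
        simpa only [sk, sp a ha] using hQ a (e.subset List.mem_cons_self)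
      · have hb' : b ∈ q ++ l₂ := by simpa [c] using hb
        simpa only [sp a ha, sp b (e'.subset (List.mem_cons_of_mem _ hb'))] using
          hp.ord a _ e' b hb'
  · rw [hΦ, Function.update_idem, ← hp.un k k1 k2 i, Function.update_eq_self]
  · rw [hΦ, hΦ, Function.update_comm fun e : i = k => k1 (e ▸ hW i a1)]
  · cases m with
    | zero => exact (low [] List.nil_suffix).pb fun _ h => absurd h List.not_mem_nil
    | succ m =>
      have hm' := Nat.le_of_succ_le_succ hm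
      exact (rel m hm').pb fun a ha => ⟨m1 _ _ ha, fun x _ => hs' a ((lv_top T hm').subset ha) x⟩
  · obtain ⟨q, a1, a2⟩ := v2 j n1
    rw [a2, List.append_cancel_right (a1.symm.trans hl)]
  · rw [t1, t2, List.toFinset_eq_of_perm _ _ List.perm_middle, List.toFinset_cons]

end Crest.Agent.N207.O
end
private theorem rz_064490c9df : type_of% @_root_.Crest.Agent.N207.O.El.lo.eq_1 := @_root_.Crest.Agent.N207.O.El.lo.eq_1 -- L22
end

-- ▼ part N207/O/Root
section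

/-!
# Row 207, block O (helper28): the root of a derivative in a free variable (C7)
-/

set_option autoImplicit false
set_option linter.unusedSectionVars false

open Set Filter Topology Metric Complex
open Crest.Agent.N250.H

noncomputable section

namespace Crest.Agent.N207.O

open Fr

section
variable {X X' κ E : Type*} [NormedAddCommGroup X] [NormedSpace ℂ X] [NormedAddCommGroup X']
  [NormedSpace ℂ X'] [NormedAddCommGroup E] [NormedSpace ℂ E] {F : Fr X κ} {F' : Fr X' κ}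
  {l : List κ}

theorem root_cl (hF : F.Ok l) {ρ : ℝ} (hρ : 0 < ρ) {f : X × ℂ → ℂ}
    (hf : (F.prod (ball (0 : ℂ) (3 * ρ))).A l f)
    (hI : (F.prod (ball (0 : ℂ) (3 * ρ))).In l (closedBall 0 (ρ / 16)) fun z => f z - z.2) :
    F.A l fun x => (2 * Real.pi * I : ℂ)⁻¹ •
      ∮ w in C(0, ρ), w * deriv (fun w => f (x, w)) w * (f (x, w))⁻¹ := by
  set U : Set ℂ := ball 0 (2 * ρ) \ closedBall 0 (ρ / 2) with hU
  have hUo : IsOpen U := isOpen_ball.sdiff isClosed_closedBall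
  have hO := ok_prod hUo hF
  have hUn : ∀ w ∈ U, ρ / 2 < ‖w‖ ∧ ‖w‖ < 2 * ρ := fun w hw => by simpa [hU, and_comm] using hw
  have h1 : (F.prod U).A l fun z => z.2 :=
    A.of_nil hO differentiableOn_snd ⟨2 * ρ, fun z hz => (hUn _ hz.2).2.le⟩
  have h2 : (F.prod U).A l fun z => deriv (fun w => f (z.1, w)) z.2 := by
    simpa only [iteratedDeriv_one] using cl_iteratedDeriv hF le_rfl hf 1 (U' := U) hρ
      fun y hy => ball_subset_ball' (by rw [dist_zero_right]; linarith [(hUn y hy).2])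
  have hne : ∀ q ∈ ((F.prod U).prod (ball (0 : ℂ) (ρ / 8))).D [], ρ / 4 ≤ ‖q.1.2 + q.2‖ := by
    intro q hq
    have := norm_sub_le (q.1.2 + q.2) q.2
    rw [add_sub_cancel_right] at this
    linarith [(hUn _ hq.1.2).1, mem_ball_zero_iff.1 hq.2]
  have h3 : (F.prod U).A l fun z => (f z)⁻¹ := by
    have := C0_comp (G := fun q : (X × ℂ) × ℂ => (q.1.2 + q.2)⁻¹) hO isOpen_ball
      (δ := ρ / 16) (by positivity) (K := closedBall 0 (ρ / 16))
      (fun y hy => ball_subset_ball' (ε₂ := ρ / 8) (by rw [mem_closedBall] at hy; linarith))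
      (A.of_nil (ok_prod isOpen_ball hO) (DifferentiableOn.inv (by fun_prop) fun q hq =>
        norm_pos_iff.1 (lt_of_lt_of_le (by positivity) (hne q hq))) ⟨(ρ / 4)⁻¹, fun q hq => by
          rw [norm_inv]; exact inv_anti₀ (by positivity) (hne q hq)⟩)
      (sub_in Subset.rfl (sub_prod (sdiff_subset.trans (ball_subset_ball (by linarith)))
        (sub_refl hF)) hI)
    simpa only [add_sub_cancel] using this
  exact Cl.slice ((linOp_circ hρ (U := U) (fun w hw => by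
    have : ‖w‖ = ρ := by simpa using hw
    simp only [hU, Set.mem_sdiff, mem_ball_zero_iff, mem_closedBall_zero_iff, this]
    constructor <;> linarith) (univ : Set ℂ)).cl hUo hF le_rfl
      (A.mul hO (A.mul hO h1 h2) h3)) (mem_univ 0)

theorem st_pull {Ψ : X' → X} {gb : X → E} (hd : Differentiable ℂ Ψ) :
    ∀ {l : List κ} {g : X → E}, (∀ l₀, l₀ <:+ l → MapsTo Ψ (F'.D l₀) (F.D l₀)) →
    (∀ a l₀, a :: l₀ <:+ l → ∀ x ∈ F'.D (a :: l₀), F.s a (Ψ x) = F'.s a x) →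
    F.St l g gb → F'.St l (g ∘ Ψ) (gb ∘ Ψ)
  | [], _, hm, hs, h => ⟨A9_pull' hm (fun _ _ => hd.differentiableOn) hs h.1,
      A9_pull' hm (fun _ _ => hd.differentiableOn) hs h.2.1,
      fun _ hx => h.2.2 (hm _ List.suffix_rfl hx)⟩
  | a :: l, _, hm, hs, h => by
    obtain ⟨h1, c, g1, γ, h2, h3, h4, h5⟩ := h
    refine ⟨A9_pull' hm (fun _ _ => hd.differentiableOn) hs h1, c ∘ Ψ, g1 ∘ Ψ, γ, h2,
      st_pull hd (fun l₀ h => hm l₀ (h.trans (List.suffix_cons _ _)))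
        (fun a l₀ h => hs a l₀ (h.trans (List.suffix_cons _ _))) h3,
      A9_pull' hm (fun _ _ => hd.differentiableOn) hs h4, fun x hx => ?_⟩
    simpa only [Fr.ex, hs a l List.suffix_rfl x hx, Function.comp] using
      h5 _ (hm _ List.suffix_rfl hx)

end

variable {ι : Type} [Fintype ι] [DecidableEq ι] {α : Type} {U : Ultrafilter α} {T : Tw ι}
  {p : α → ι → ℂ} {l : List (ι ⊕ ℕ)} {W : Finset ι} {k : ι} {g : (ι → ℂ) → ℂ}

namespace Ty

theorem upd_insert (w : ι → ℝ) (x : ι → ℂ) :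
    upd (insert k W) w x = Function.update (upd W w x) k (w k) := by
  funext i
  by_cases e : i = k
  · subst e; simp [upd]
  · simp [upd, e]

theorem upd_ind {β : Type*} {g : (ι → ℂ) → β} (h : ∀ k ∈ W, Ind k g) (w : ι → ℝ) (x : ι → ℂ) :
    g (upd W w x) = g x := by
  induction W using Finset.induction_on with
  | empty => rfl
  | insert k W _ ih =>
    rw [upd_insert, h k (Finset.mem_insert_self _ _),
      ih fun i hi => h i (Finset.mem_insert_of_mem hi)]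

theorem upd_mem (h : T.WF) (hl : l <:+ T.top) (hW : ∀ k ∈ W, k ∈ T.Fv ∧ T.Free l k) {x : ι → ℂ}
    (hx : x ∈ T.D l) : upd W 0 x ∈ T.D l := by
  induction W using Finset.induction_on with
  | empty => exact hx
  | insert k W _ ih =>
    have := hW k (Finset.mem_insert_self _ _)
    rw [upd_insert]
    exact upd_D h hl this.1 this.2 (ih fun i hi => hW i (Finset.mem_insert_of_mem hi))
      (by simpa using h.r0 k this.1)

theorem dif_upd (W : Finset ι) (w : ι → ℝ) : Differentiable ℂ (upd W w) :=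
  differentiable_pi.2 fun i => by
    unfold upd
    split_ifs
    · exact differentiable_const _
    · exact differentiable_apply i

theorem exists_min (h : T.WF) : ∃ m : ℝ, 0 < m ∧ ∀ k ∈ T.Fv, m ≤ T.r k := by
  have : ∀ᶠ m in 𝓝[>] (0 : ℝ), ∀ k ∈ T.Fv, m ≤ T.r k := (eventually_all_finset _).2 fun k hk =>
    nhdsWithin_le_nhds ((ge_mem_nhds (h.r0 k hk)))
  obtain ⟨m, h1, h2⟩ := (this.and self_mem_nhdsWithin).exists
  exact ⟨m, h2, h1⟩

/-- after shrinking, a function of the class with a parameter hardly depends on the point -/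
theorem near_prod {Y E : Type*} [NormedAddCommGroup Y] [NormedSpace ℂ Y] [NormedAddCommGroup E]
    [NormedSpace ℂ E] (h : T.WF) (hl : l <:+ T.top) {V : Set Y} (hV : IsOpen V)
    {G : (ι → ℂ) × Y → E} (hG : (T.fr.prod V).A l G)
    (hW : ∀ k ∈ W, k ∈ T.Fv ∧ T.Free l k ∧ ∀ y, Ind k fun x => G (x, y)) {ε : ℝ} (hε : 0 < ε) :
    ∃ R₀ δ : ℝ, T.R ≤ R₀ ∧ 0 < δ ∧ ∀ R ≥ R₀, ∀ r : ι → ℝ, (∀ k ∈ T.Fv, 0 < r k ∧ r k ≤ T.r k) →
      (∀ k ∈ T.Fv, k ∉ W → r k ≤ δ) → ∀ V' ⊆ V, IsOpen V' → ∀ K : Set E,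
        ∀ x ∈ (T.shr R r).D l, (∀ y ∈ V', G (x, y) ∈ K) →
          ((T.shr R r).fr.prod V').In l (cthickening ε K) G := by
  have hO := ok_prod hV (T1_ok h hl)
  obtain ⟨gb, h0⟩ := A7_St hO hG
  have h1 : (T.fr.prod V).St l G (gb ∘ fun z => (upd W 0 z.1, z.2)) :=
    (st_pull (F := T.fr.prod V) (F' := T.fr.prod V) (((dif_upd W 0).comp differentiable_fst).prodMk differentiable_snd)
      (fun l₀ e z hz => ⟨upd_mem h (e.trans hl)
        (fun k hk => ⟨(hW k hk).1, free_suffix (hW k hk).2.1 e⟩) hz.1, hz.2⟩)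
      (fun a l₀ e z _ => upd_ind (fun k hk => ind_s h hl (hW k hk).1 (hW k hk).2.1
        (e.subset List.mem_cons_self)) 0 z.1) h0).congr
      fun z _ => upd_ind (g := fun x => G (x, z.2)) (fun k hk => (hW k hk).2.2 z.2) 0 z.1
  obtain ⟨R₀, hR₀⟩ := C4_near hO h1 (ε := ε / 3) (by positivity)
  obtain ⟨M, hM0, hM⟩ := h0.A0.2.pos
  obtain ⟨m, hm0, hm⟩ := exists_min h
  set N := 6 * M / ε + 2 with hN
  have hN2 : 2 ≤ N := le_add_of_nonneg_left (by positivity)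
  refine ⟨max R₀ T.R, m / (2 + 2 * N), le_max_right _ _, by positivity,
    fun R hR r hr hδ V' hV' hVo K x hx hK => ?_⟩
  obtain ⟨w1, w2, w3⟩ := T4_shr h ((le_max_right _ _).trans hR) hr
  have hO' := T1_ok w1 (l := l) (by rwa [Tw.shr_top])
  obtain ⟨k1, -, k3⟩ := hR₀ ((T.shr R r).fr.prod V') (ok_prod hVo hO')
    (sub_prod hV' (sub_mono ((le_max_left _ _).trans hR) (w3 l hl)))
  refine k1.mono ((cthickening_subset_of_subset _ (E₂ := cthickening (2 * (ε / 3)) K) ?_).trans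
    ((cthickening_cthickening_subset (by positivity) (by positivity) K).trans
      (cthickening_mono (by linarith) K)))
  rintro _ ⟨⟨x', y⟩, ⟨hx', hy⟩, rfl⟩
  refine mem_cthickening_of_dist_le _ _ _ _ (hK y hy) ?_
  have hs : ∀ z ∈ (T.shr R r).D [], ∀ k ∈ T.Fv, ‖upd W 0 z k‖ ≤ m / (2 + 2 * N) := by
    intro z hz k hk
    by_cases e : k ∈ W
    · simp only [upd, e, if_true, Pi.zero_apply, ofReal_zero, norm_zero]; positivity
    · simpa only [upd, e, if_false] using (hz k hk).le.trans (hδ k hk e)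
  have hx0 : x ∈ (T.shr R r).D [] := Tw.D_suffix List.nil_suffix hx
  have hin : ∀ t ∈ ball (0 : ℂ) N,
      (upd W 0 x + t • (upd W 0 x' - upd W 0 x), y) ∈ (T.fr.prod V).D [] := by
    refine fun t ht => ⟨fun k hk => lt_of_lt_of_le ?_ (hm k hk), hV' hy⟩
    have a1 := hs x hx0 k hk
    have a2 := (norm_sub_le _ _).trans (add_le_add (hs x' hx' k hk) a1)
    have a3 := mul_le_mul (mem_ball_zero_iff.1 ht).le a2 (norm_nonneg _) (by positivity)
    have a4 : m / (2 + 2 * N) * (2 + 2 * N) = m := div_mul_cancel₀ _ (by positivity)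
    have a5 : 0 < m / (2 + 2 * N) := by positivity
    refine (norm_add_le _ _).trans_lt ?_
    simp only [Pi.smul_apply, Pi.sub_apply, norm_smul]
    nlinarith
  have a6 := lip_le (f := fun t : ℂ => gb (upd W 0 x + t • (upd W 0 x' - upd W 0 x), y))
    (h0.A0.1.comp (f := fun t : ℂ => (upd W 0 x + t • (upd W 0 x' - upd W 0 x), y))
      (by fun_prop) hin) (fun t ht => hM _ (hin t ht)) (z := 1)
    (by rw [mem_ball_zero_iff, norm_one]; linarith)
  simp only [one_smul, add_sub_cancel, zero_smul, add_zero, sub_zero, norm_one, mul_one] at a6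
  have a7 : 2 * M / N ≤ ε / 3 := by
    rw [div_le_iff₀ (by positivity), hN]
    have : ε / 3 * (6 * M / ε) = 2 * M := by field_simp; ring
    nlinarith
  have a8 := k3 (x, y) ⟨hx, hy⟩
  rw [← dist_eq_norm] at a6 a8
  exact (dist_triangle_right _ _ (gb (upd W 0 x, y))).trans (by
    simp only [Function.comp] at a8 ⊢; linarith)

end Ty

open Ty

theorem C7_root (h : T.WF) (hp : T.Pt U p) (hl : l <:+ T.top) (hk : k ∈ T.Fv) (hkW : k ∉ W)
    (hf : T.Free l k) (hW : ∀ k ∈ W, k ∈ T.Fv ∧ T.Free l k ∧ Ind k g) (hg : T.fr.A l g)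
    (hr : RR (T.D l) g) {e : ℕ} {c : ℂ} (hc : c ≠ 0)
    (h0 : Tendsto (fun i => tc k e g (p i)) U (𝓝 0))
    (h1 : Tendsto (fun i => tc k (e + 1) g (p i)) U (𝓝 c)) :
    ∃ (R : ℝ) (r : ι → ℝ) (ψ : (ι → ℂ) → ℂ), T.R ≤ R ∧ (∀ k ∈ T.Fv, 0 < r k ∧ r k ≤ T.r k) ∧
      (∀ k ∈ W, r k = T.r k) ∧ (T.shr R r).fr.A l ψ ∧ RR ((T.shr R r).D l) ψ ∧ Ind k ψ ∧
      (∀ k ∈ W, Ind k ψ) ∧ Tendsto (fun i => ψ (p i)) U (𝓝 0) ∧ ∀ x ∈ (T.shr R r).D l,
        iteratedDeriv e (fun w => g (Function.update x k w)) (ψ x) = 0 := by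
  have hO := T1_ok h hl
  have hr0 := h.r0 k hk
  set c' : ℂ := ((e + 1).factorial : ℂ) * c with hc'
  have hfac : ∀ n : ℕ, (n.factorial : ℂ) ≠ 0 := fun n => by exact_mod_cast n.factorial_ne_zero
  have hc0 : c' ≠ 0 := mul_ne_zero (hfac _) hc
  have hci : c.im = 0 := by
    refine tendsto_nhds_unique ((continuous_im.tendsto c).comp h1) (tendsto_const_nhds.congr' ?_)
    filter_upwards [T5_mem h hp hl] with i hi
    exact ((C5_tay h hl hk hf hg hr (e + 1)).1.2 _ hi (hp.re i)).symm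
  set f : (ι → ℂ) × ℂ → ℂ := fun z =>
    c'⁻¹ * iteratedDeriv e (fun w => g (Function.update z.1 k w)) z.2 with hf'
  have hfA : (T.fr.prod (ball (0 : ℂ) (T.r k / 2))).A l f :=
    Cl.const_mul _ (cl_iteratedDeriv hO le_rfl (cl_upd h hl hk hf hg) e (half_pos hr0)
      fun y hy => ball_subset_ball' (by rw [mem_ball] at hy; linarith))
  have hOV := ok_prod (U := ball (0 : ℂ) (T.r k / 2)) isOpen_ball hO
  have hD : (T.fr.prod (ball (0 : ℂ) (T.r k / 2))).A l fun z => f z - z.2 :=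
    Cl.sub hOV hfA (A.of_nil hOV differentiableOn_snd
      ⟨_, fun z hz => (mem_ball_zero_iff.1 hz.2).le⟩)
  obtain ⟨M, hM0, hM⟩ := (A1_bd hOV le_rfl (cl_ds hO le_rfl hfA 2)).pos
  have hWf : ∀ j ∈ W, ∀ x v, (fun w => f (Function.update x j v, w)) = fun w => f (x, w) := by
    intro j hj x v
    have : j ≠ k := fun e => hkW (e ▸ hj)
    simp only [hf', Function.update_comm this, (hW j hj).2.2 _ v]
  set ρ := min (T.r k / 6) (1 / (1152 * M)) with hρ
  have hρ0 : 0 < ρ := by positivity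
  have hρ1 : ball (0 : ℂ) (3 * ρ) ⊆ ball 0 (T.r k / 2) :=
    ball_subset_ball (by linarith [min_le_left (T.r k / 6) (1 / (1152 * M))])
  have hρ2 : ρ * (1152 * M) ≤ 1 := (le_div_iff₀ (by positivity)).1 (min_le_right _ _)
  obtain ⟨R, δ, hR, hδ, H⟩ := near_prod (W := W) h hl isOpen_ball hD (fun j hj =>
    ⟨(hW j hj).1, (hW j hj).2.1, fun y x v => congrArg (· - y) (congrFun (hWf j hj x v) y)⟩)
    (ε := ρ / 32) (by positivity)
  set r : ι → ℝ := fun j => if j ∈ W then T.r j else min δ (T.r j) with hrr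
  have hr1 : ∀ j ∈ T.Fv, 0 < r j ∧ r j ≤ T.r j := fun j hj => by
    have := h.r0 j hj
    by_cases e : j ∈ W <;> simp [hrr, e, this, hδ]
  obtain ⟨w1, w2, w3⟩ := T4_shr h hR hr1
  have hl' : l <:+ (T.shr R r).top := by rwa [Tw.shr_top]
  have hmem : ∀ᶠ i in U, p i ∈ (T.shr R r).D l := T5_mem w1 (by
    have e := T.shr_top R r
    exact ⟨hp.re, hp.z0, e ▸ hp.un, e ▸ hp.big, e ▸ hp.ord⟩) hl'
  have t0 : Tendsto (fun i => f (p i, 0)) U (𝓝 0) := by
    have := h0.const_mul (c'⁻¹ * e.factorial)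
    rw [mul_zero] at this
    refine this.congr fun i => ?_
    simp only [hf', tc]; field_simp [hfac]
  have t1 : Tendsto (fun i => deriv (fun w => f (p i, w)) 0 - 1) U (𝓝 0) := by
    have := (h1.const_mul (c'⁻¹ * (e + 1).factorial)).sub_const 1
    rw [mul_assoc, ← hc', inv_mul_cancel₀ hc0, sub_self] at this
    refine this.congr fun i => ?_
    simp only [hf', tc, deriv_const_mul_field', iteratedDeriv_succ]; field_simp [hfac]
  obtain ⟨i, a1, a2, a3⟩ := (hmem.and ((t0.norm.eventually_le_const (u := ρ / 128)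
    (by simpa using hρ0)).and (t1.norm.eventually_le_const (u := 1 / 384) (by simp)))).exists
  have hI := H R le_rfl r hr1 (fun j _ hj => by simp [hrr, hj]) _ hρ1 isOpen_ball
    (closedBall 0 (ρ / 32)) _ a1 fun y hy => by
      have e1 := ds_expand (fun w => f (p i, w)) 2 y
      simp only [Finset.sum_range_succ, Finset.sum_range_zero, ds_succ 0, ds_zero, dslope_same,
        pow_zero, pow_one, smul_eq_mul, one_mul, zero_add] at e1
      have b1 := hM (p i, y) ⟨w2 l a1, hρ1 hy⟩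
      have b2 := (mem_ball_zero_iff.1 hy).le
      rw [mem_closedBall_zero_iff, show f (p i, y) - y = f (p i, 0) +
        y * (deriv (fun w => f (p i, w)) 0 - 1) + y ^ 2 * ds 2 (fun w => f (p i, w)) y by
          rw [e1]; ring]
      refine norm_add₃_le.trans ?_
      rw [norm_mul y, norm_mul (y ^ 2), norm_pow]
      have b3 := mul_le_mul b2 a3 (norm_nonneg _) (by positivity)
      have b4 := mul_le_mul (pow_le_pow_left₀ (norm_nonneg _) b2 2) b1 (norm_nonneg _)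
        (by positivity)
      nlinarith
  rw [cthickening_closedBall (by positivity) (by positivity),
    show ρ / 32 + ρ / 32 = ρ / 16 by ring] at hI
  have hA := sub_cl (sub_prod hρ1 (w3 l hl)) hfA
  set ψ : (ι → ℂ) → ℂ := fun x => (2 * Real.pi * I : ℂ)⁻¹ •
    ∮ w in C(0, ρ), w * deriv (fun w => f (x, w)) w * (f (x, w))⁻¹ with hψ
  have hrt := fun x (hx : x ∈ (T.shr R r).D l) => root1 hρ0 (slice_diff (A1_diff hA) hx)
    (fun w hw => (mem_closedBall_zero_iff.1 (in_maps hI (x := (x, w)) ⟨hx, hw⟩)).trans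
      (by linarith)) (w₀ := ψ x) rfl
  refine ⟨R, r, ψ, hR, hr1, fun j hj => by simp [hrr, hj], root_cl (T1_ok w1 hl') hρ0 hA hI,
    fun x hx hx' => (hrt x hx).2.2 fun w hw hw0 => ?_, fun x v => ?_, fun j hj x v => ?_, ?_,
    fun x hx => ?_⟩
  · have := iter_real isOpen_ball (slice_upd h hl hk hf hg (w2 l hx))
      (slice_real h hl hk hf hr (w2 l hx) hx') e w (ball_subset_ball (by linarith) (hρ1 hw)) hw0
    simp [hf', hc', this, hci]
  · simp only [hψ, hf', Function.update_idem]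
  · simp only [hψ, fun w => congrFun (hWf j hj x v) w]
  · refine squeeze_zero_norm' (hmem.mono fun i hi => (hrt _ hi).2.1) ?_
    simpa using t0.norm.const_mul 2
  · exact (mul_eq_zero.1 (hrt x hx).1).resolve_left (inv_ne_zero hc0)

end Crest.Agent.N207.O
end
end

-- ▼ part N207/O/Mon2
section

/-!
# Row 207, block O (helper84): new levels, substitutions, the Tschirnhaus step
-/

set_option autoImplicit false
set_option linter.unusedSectionVars false

open Set Filter Topology Metric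

noncomputable section

namespace Crest.Agent.N207.O

variable {ι : Type} [Fintype ι] [DecidableEq ι] {α : Type} {U : Ultrafilter α} {T T' T'' : Tw ι}
  {p p' p'' : α → ι → ℂ} {l l' l'' : List (ι ⊕ ℕ)} {W W' : Finset ι} {k : ι}
  {g g' : (ι → ℂ) → ℂ} {Φ Ψ : (ι → ℂ) → ι → ℂ} {n m : ℕ} {w : ι → ℝ} {x : ι → ℂ}

namespace Tw

theorem MS.pull (s : Stp T T' U (m + 1) W p p' Φ) (hm : m ≤ T.p) (H : MS T' U p' m W (g ∘ Φ)) :
    MS T U p m W g := by
  refine H.imp (fun e => e.pull s.lf hm) ?_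
  rintro ⟨T'', p'', Ψ, s', H⟩
  exact ⟨T'', p'', _, s.trans s' (by omega), s.lv ▸ H⟩

theorem MS.mon (h : Ctx T U p m W) (hP : Pb T' T l (T.lv m) Ψ) (γ : ι ⊕ ℕ → ℝ)
    (H : MS T U p m W g') (e : ∀ x ∈ T.D (T.lv m),
      g x = Complex.exp (-T'.lin l γ (Ψ x)) * g' x) : MS T U p m W g := by
  refine H.imp id ?_
  rintro ⟨T'', p'', Φ, s, H⟩
  have h' := h.stp s
  have hl : T.lv m <:+ T''.top := s.lv ▸ h'.top
  have P := s.pb h.le
  exact ⟨T'', p'', Φ, s, (H.mon_mul s.gd.wf s.lf.pt hl (hP.trans P (T1_ok s.gd.wf hl))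
    (fun k hk => s.fre (h.fre k hk)) γ).congr fun x hx => (e _ (P.maps hx)).symm⟩

theorem Lift.pval (h : T.Lift T' U n W p p' Φ) (hk : k ∈ W) : ∀ᶠ i in U, p' i k = p i k :=
  h.hp.mono fun i hi => by rw [← hi, h.coord hk]

/-- the value of `k` defines a new archimedean class: insert it and remove `k` -/
theorem esc_new (h : Ctx T U p m W) (hk : k ∈ T.Fv) (hkW : k ∉ W) (hm : T.lab k = m)
    {γ : ι ⊕ ℕ → ℝ} {ε η : ℝ} {σ : α → ℝ} {l₁ l₂ : List (ι ⊕ ℕ)} (hl : T.lv m = l₁ ++ l₂)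
    (hσ : Tendsto σ U atTop) (h₂ : ∀ b ∈ l₂, Tendsto (fun i => (T.s b (p i)).re / σ i) U (𝓝 0))
    (h₁ : ∀ a ∈ l₁, Tendsto (fun i => σ i / (T.s a (p i)).re) U (𝓝 0))
    (h₃ : m < T.p → Tendsto (fun i => σ i / (T.s (Sum.inr m) (p i)).re) U (𝓝 0))
    (e : ∀ᶠ i in U, p i k = (ε : ℂ) * Complex.exp (-(T.lin (T.lv m) γ (p i) + (η * σ i : ℝ))) ∧
      ε ≠ 0) : Esc T U p m W := by
  have hi := h.insert hk hm
  obtain ⟨T1, k', Φ, L1, f1, b1, s1, n1, n2, v1, t1, -⟩ :=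
    E3_new h.gd.wf h.sp h.pt (fun j hj => (hi.pas j hj).1) h.le hl hσ h₂ h₁ h₃
  have n3 : Sum.inl k' ∉ T.lv m := fun e => n2 (h.top.subset e)
  have e1 : ∀ i, T1.lin (T1.lv m) (Function.update γ (Sum.inl k') η)
      (Function.update (p i) k' (σ i)) = T.lin (T.lv m) γ (p i) + (η * σ i : ℝ) := fun i => by
    have : (T1.lv m).toFinset = insert (Sum.inl k') (T.lv m).toFinset := by
      rw [v1, hl]; ext z; simp only [List.mem_toFinset, List.mem_append, List.mem_cons,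
        Finset.mem_insert]; tauto
    unfold lin
    rw [this, Finset.sum_insert (by simpa using n3), L1.wf.sN, Function.update_self,
      Function.update_self, add_comm, Complex.ofReal_mul, s1]
    congr 1
    refine Finset.sum_congr rfl fun z hz => ?_
    have hz := List.mem_toFinset.1 hz
    rw [Function.update_of_ne fun e : z = Sum.inl k' => n3 (e ▸ hz),
      (h.gd.wf.ind_s h.top n3 (fun e => absurd e n1) hz).1]
  have t2 : T1.lv m <:+ T1.top := lv_top (L1.pp ▸ h.le)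
  have hF : ∀ j ∈ insert k W, T1.Fre (T1.lv m) j :=
    fun j hj => L1.fre hj (hi.pas j hj).1 (hi.pas j hj).2
  obtain ⟨-, -, hε⟩ := e.exists
  have hε' : (ε : ℂ) ≠ 0 := by exact_mod_cast hε
  obtain ⟨T2, p2, Ψ, γ', s, g0, e2⟩ := norm1 L1.wf L1.pt t2 hF
    (γ := Function.update γ (Sum.inl k') η) (Big.iff.2 (by
      have := (h.pt.z0 k hk).const_mul (ε : ℂ)⁻¹
      rw [mul_zero] at this
      refine this.congr' (e.mono fun i hi => ?_)
      simp only [e1, hi.1, inv_mul_cancel_left₀ hε']))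
  have l2 : T2.lab k = m := by rw [s.sm.lab, b1, hm]
  have F2 : T2.Fv = T.Fv := s.sm.Fv.trans f1
  have t3 : T1.lv m <:+ T2.top := s.top ▸ t2
  have hA := (AR.const (T1_ok s.gd.wf t3) ε).mul (T1_ok s.gd.wf t3) (AR.mon s.gd.wf t3 g0)
  have hI : ∀ j ∈ insert k W, Ind j fun x => (ε : ℂ) * Complex.exp (-T2.lin (T1.lv m) γ' x) :=
    fun j hj x t => by simp only [(s.fre (hF j hj)).lin s.gd.wf t3 γ' x t]
  obtain ⟨T3, p3, Θ, L3, B3, F3, b3⟩ := E5_elim (W := W) s.gd.wf s.lf.pt (F2 ▸ hk) hkW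
    (fun j hj => ⟨F2 ▸ (h.pas j hj).1, by rw [l2, s.sm.lab, b1]; exact (h.pas j hj).2⟩)
    (fun j hj e => by rw [l2, s.sm.lab, b1]; exact h.act j (F2 ▸ hj) e)
    (a := fun x => (ε : ℂ) * Complex.exp (-T2.lin (T1.lv m) γ' x))
    (by rw [l2, s.lv]; exact hA.a) (by rw [l2, s.lv]; exact hA.r)
    ⟨hI k (Finset.mem_insert_self _ _), fun j hj => hI j (Finset.mem_insert_of_mem hj)⟩ (by
      filter_upwards [e, s.lf.hp, s.lf.pval (Finset.mem_insert_self _ _),
        L1.pval (Finset.mem_insert_self _ _), T5_mem s.gd.wf s.lf.pt t3] with i a1 a2 a3 a4 a5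
      rw [a3, a4, a1.1, ← e2 _ a5, a2, e1])
  rw [l2] at L3
  have L := ((L1.trans s.lf (Nat.zero_le _)).mono (Nat.zero_le (m + 1))
    (Finset.subset_insert _ _))
  refine ⟨T3, p3, _, L.trans L3 (by have := h.le; omega), ?_,
    Or.inl ((mu_erase (F2 ▸ hk) s.gd.wf L3.pp F3 b3).trans_le L.mu)⟩
  have := h.sp
  unfold Sp at this ⊢
  rw [F3, F2, top_congr B3 L3.pp, s.top, t1, Finset.card_erase_of_mem hk]
  have c1 : (Finset.univ.filter fun j => Sum.inl j ∈ insert (Sum.inl k') T.top.toFinset) ⊆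
      insert k' (Finset.univ.filter fun j => Sum.inl j ∈ T.top.toFinset) := fun j hj => by
    simpa using hj
  have c2 := (Finset.card_le_card c1).trans (Finset.card_insert_le _ _)
  have c3 := Finset.card_pos.2 ⟨k, hk⟩
  omega

theorem subst1 (h : Ctx T U p m W) (hk : k ∈ T.Fv) (hkW : k ∉ W) (hm : T.lab k = m)
    {a b : (ι → ℂ) → ℂ} (ha : T.AR (T.lv m) a) (hb : T.AR (T.lv m) b)
    (ia : ∀ j ∈ insert k W, Ind j a) (ib : ∀ j ∈ insert k W, Ind j b)
    (b0 : ∀ x, b x ≠ 0) (a0 : Tendsto (fun i => a (p i)) U (𝓝 0))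
    {z : α → ℝ} (hz : Tendsto z U (𝓝 0)) (e : ∀ᶠ i in U, p i k = a (p i) + b (p i) * z i) :
    ∃ (T' : Tw ι) (Φ : (ι → ℂ) → ι → ℂ),
      Stp T T' U (m + 1) W p (fun i => Function.update (p i) k (z i)) Φ ∧
      T'.D (T.lv m) ⊆ T.D (T.lv m) ∧
      ∀ x ∈ T'.D (T.lv m), ∀ t ∈ ball (0 : ℂ) (T'.r k),
        Φ (Function.update x k t) = Function.update x k (a x + b x * t) := by
  subst hm
  obtain ⟨T', Φ, h1, h2, h3, -, h4⟩ := E2_sub h.gd.wf h.pt hk hkW h.pas h.act ha.a hb.a ha.r hb.r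
    ⟨ia k (Finset.mem_insert_self _ _), fun j hj => ia j (Finset.mem_insert_of_mem hj)⟩
    ⟨ib k (Finset.mem_insert_self _ _), fun j hj => ib j (Finset.mem_insert_of_mem hj)⟩
    (fun x _ => b0 x) a0 hz e
  obtain ⟨R, h5, s⟩ := h1.fix h2 (by have := h.le; omega)
  refine ⟨_, Φ, s, (h5 _).trans h3, fun x hx t ht => ?_⟩
  rw [h4 _ (h5 _ ((s.fre (fre_lv hk le_rfl)).mem s.gd.wf (s.top ▸ h.top) hx
    (mem_ball_zero_iff.1 ht))), ia k (Finset.mem_insert_self _ _),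
    ib k (Finset.mem_insert_self _ _), Function.update_idem, Function.update_self]

theorem AR.slice (h : T.WF) (hl : l <:+ T.top) (hk : T.Fre l k) (hg : T.AR l g) (hx : x ∈ T.D l) :
    DifferentiableOn ℂ (fun t => g (Function.update x k t)) (ball 0 (T.r k)) :=
  Ty.slice_upd h hl hk.1 hk.2 hg.a hx

theorem AR.tc (h : T.WF) (hl : l <:+ T.top) (hk : T.Fre l k) (hg : T.AR l g) (d : ℕ) :
    T.AR l (tc k d g) :=
  have := (C5_tay h hl hk.1 hk.2 hg.a hg.r d).1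
  ⟨this.1, this.2⟩

/-- uniform Lipschitz estimate along the filter -/
theorem AR.lip (h : T.WF) (hl : l <:+ T.top) (hk : T.Fre l k) (hg : T.AR l g) :
    ∃ C : ℝ, 0 ≤ C ∧ ∀ x ∈ T.D l, ∀ s t : ℂ, ‖s‖ ≤ T.r k / 2 → ‖t‖ ≤ T.r k / 2 →
      ‖g (Function.update x k s) - g (Function.update x k t)‖ ≤ C * ‖s - t‖ := by
  obtain ⟨C, hC⟩ := C6_lip h hl hk.1 hk.2 hg.a
  have := h.r0 k hk.1
  refine ⟨|C|, abs_nonneg C, fun x hx s t hs ht => ?_⟩
  have h1 := hC _ (hk.mem h hl hx (t := t) (by linarith)) s (by rwa [Function.update_self]) hs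
  rw [Function.update_idem, Function.update_self] at h1
  exact h1.trans (by gcongr; exact le_abs_self C)

theorem AR.lim0 (h : T.WF) (hl : l <:+ T.top) (hk : T.Fre l k) (hg : T.AR l g) {q : α → ι → ℂ}
    (hq : ∀ᶠ i in U, q i ∈ T.D l) (h0 : Tendsto (fun i => q i k) U (𝓝 0)) {c : ℂ}
    (hc : Tendsto (fun i => g (Function.update (q i) k 0)) U (𝓝 c)) :
    Tendsto (fun i => g (q i)) U (𝓝 c) := by
  obtain ⟨C, -, hC⟩ := hg.lip h hl hk
  have r0 := half_pos (h.r0 k hk.1)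
  have : Tendsto (fun i => g (q i) - g (Function.update (q i) k 0)) U (𝓝 0) := by
    refine squeeze_zero_norm' ?_ (by simpa using h0.norm.const_mul C)
    filter_upwards [hq, h0.norm.eventually_le_const (show ‖(0 : ℂ)‖ < T.r k / 2 by rwa [norm_zero])]
      with i a1 a2
    simpa using hC _ a1 (q i k) 0 a2 (by rw [norm_zero]; exact r0.le)
  simpa using this.add hc

theorem tc_upd (hk : k ∉ W) (d : ℕ) : tc k d (g ∘ upd W w) x = tc k d g (upd W w x) := by
  simp only [tc, Function.comp, upd_update hk]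

/-- the Tschirnhaus step -/
theorem tsch (h : Ctx T U p m W) (hk : k ∈ T.Fv) (hkW : k ∉ W) (hm : T.lab k = m)
    (hg : T.AR (T.lv m) g) (hw : ∀ j ∈ W, |w j| < T.r j) {e : ℕ} {c : ℂ} (hc : c ≠ 0)
    (h0 : Tendsto (fun i => tc k e g (upd W w (p i))) U (𝓝 0))
    (h1 : Tendsto (fun i => tc k (e + 1) g (upd W w (p i))) U (𝓝 c)) :
    ∃ (T' : Tw ι) (p' : α → ι → ℂ) (Φ : (ι → ℂ) → ι → ℂ), Stp T T' U (m + 1) W p p' Φ ∧
      Tendsto (fun i => tc k (e + 1) (g ∘ Φ) (upd W w (p' i))) U (𝓝 c) ∧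
      ∀ x ∈ T'.D (T.lv m), tc k e (g ∘ Φ) (upd W w x) = 0 := by
  have hf := fre_lv hk hm.ge
  have hG := hg.upd h.gd.wf h.top h.fre hw
  obtain ⟨R, r, ψ, a1, a2, a3, a4, a5, a6, a7, a8, a9⟩ := C7_root h.gd.wf h.pt h.top hk hkW hf.2
    (fun j hj => ⟨(h.fre j hj).1, (h.fre j hj).2, ind_upd g hj w⟩) hG.a hG.r hc
    (by simpa only [tc_upd hkW] using h0) (by simpa only [tc_upd hkW] using h1)
  obtain ⟨L, S⟩ := E0_shr h.gd.wf h.pt a1 a2 a3
  obtain ⟨R', b1, s1⟩ := L.fix S (Nat.zero_le _)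
  have h' := h.stp s1
  have hψ : ((T.shr R r).shr R' r).AR (T.lv m) ψ :=
    ⟨Fr.Cl.restr (F := (T.shr R r).fr) (F' := ((T.shr R r).shr R' r).fr) rfl (fun l₀ _ => b1 l₀) a4, fun x hx => a5 x (b1 _ hx)⟩
  have hm1 := T5_mem h'.gd.wf h'.pt (s1.top ▸ h.top)
  have e1 : ∀ᶠ i in U, (((p i k - ψ (p i)).re : ℝ) : ℂ) = p i k - ψ (p i) :=
    hm1.mono fun i hi => Complex.ext rfl (by simp [h.pt.re i k, hψ.r _ hi (h.pt.re i)])
  obtain ⟨T2, Φ, s2, d2, f2⟩ := subst1 h' hk hkW hm (a := ψ) (b := fun _ => ((1 : ℝ) : ℂ))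
    (s1.lv ▸ hψ) (AR.const h'.ok 1) (fun j hj => (Finset.mem_insert.1 hj).elim (· ▸ a6) (a7 j))
    (fun _ _ _ _ => rfl) (by simp) a8 (z := fun i => (p i k - ψ (p i)).re)
    (by simpa [Function.comp_def] using
      (Complex.continuous_re.tendsto _).comp ((h.pt.z0 k hk).sub a8))
    (e1.mono fun i hi => by rw [hi]; simp)
  rw [s1.lv] at d2 f2
  have s := (s1.mono (Nat.zero_le _) Finset.Subset.rfl).trans s2 (by have := h.le; omega)
  have t2 : T.lv m <:+ T2.top := s.top ▸ h.top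
  have key : ∀ x ∈ T2.D (T.lv m), ∀ n, tc k n (g ∘ Φ) (upd W w x) =
      iteratedDeriv n (fun t => (g ∘ upd W w) (Function.update x k (ψ x + t))) 0 /
        (n.factorial : ℂ) := fun x hx n => by
    unfold tc
    congr 1
    refine Filter.EventuallyEq.iteratedDeriv_eq n (mem_of_superset
      (ball_mem_nhds _ (s.gd.wf.r0 k (s.fre hf).1)) fun t ht => ?_)
    have := f2 _ (upd_mem s.gd.wf t2 (fun j hj => s.fre (h.fre j hj))
      (s.lf.rad (fun j hj => (h.pas j hj).1) hw) hx) t ht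
    simp only [mem_ofPred_eq, Function.comp, this, upd_ind a7, upd_update hkW, Complex.ofReal_one,
      one_mul]
  refine ⟨T2, _, Φ, s, ?_, fun x hx => ?_⟩
  · obtain ⟨C, -, hC⟩ := hG.lip h.gd.wf h.top hf
    have r0 := h.gd.wf.r0 k hk
    have hm0 := T5_mem h.gd.wf h.pt h.top
    have hs := a8.norm.eventually (gt_mem_nhds (show ‖(0 : ℂ)‖ < T.r k / 4 by simpa using r0))
    have := der_sub (F := U) (ρ := T.r k / 4)
      (φ := fun i t => (g ∘ upd W w) (Function.update (p i) k (ψ (p i) + t)))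
      (P := fun i t => (g ∘ upd W w) (Function.update (p i) k t)) (by positivity)
      (by
        filter_upwards [hm0, hs] with i c1 c2
        refine (hG.slice h.gd.wf h.top hf c1).comp (by fun_prop) fun t ht => ?_
        rw [mem_ball_zero_iff] at ht ⊢
        linarith [norm_add_le (ψ (p i)) t])
      (hm0.mono fun i c1 => (hG.slice h.gd.wf h.top hf c1).mono (ball_subset_ball (by linarith)))
      (ε := fun i => C * ‖ψ (p i)‖) (by simpa using a8.norm.const_mul C) (by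
        filter_upwards [hm0, hs] with i c1 c2 t ht
        rw [mem_ball_zero_iff] at ht
        simpa using hC _ c1 (ψ (p i) + t) t (by linarith [norm_add_le (ψ (p i)) t]) (by linarith))
      (e + 1)
    have := (this.div_const ((e + 1).factorial : ℂ)).add h1
    rw [zero_div, zero_add] at this
    refine this.congr' ((T5_mem s.gd.wf s.lf.pt t2).mono fun i hi => ?_)
    beta_reduce
    rw [key _ hi, ← tc_upd hkW]
    simp only [a6 _ _, Function.update_idem, tc]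
    ring
  · rw [key x hx, iteratedDeriv_comp_const_add e
      (fun s => (g ∘ upd W w) (Function.update x k s)) (ψ x)]
    simp only [add_zero, a9 x (b1 _ (d2 hx)), zero_div]

end Tw

end Crest.Agent.N207.O
end
end

-- ▼ part N207/O/Mon3
section

/-!
# Row 207, block O (helper84): the blow up step and the monomialisation theorem
-/

set_option autoImplicit false
set_option linter.unusedSectionVars false

open Set Filter Topology Metric

noncomputable section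

namespace Crest.Agent.N207.O

variable {ι : Type} [Fintype ι] [DecidableEq ι] {α : Type} {U : Ultrafilter α} {T T' T'' : Tw ι}
  {p p' p'' : α → ι → ℂ} {l l' l'' : List (ι ⊕ ℕ)} {W W' : Finset ι} {k : ι}
  {g g' : (ι → ℂ) → ℂ} {Φ Ψ : (ι → ℂ) → ι → ℂ} {n m : ℕ} {w : ι → ℝ} {x : ι → ℂ}
  {Fv : Finset ι} {Lb : ι → ℕ}

namespace Tw

/-- monomialisation for all towers of a given shape -/
def MI (U : Ultrafilter α) (Fv : Finset ι) (Lb : ι → ℕ) (m : ℕ) (W : Finset ι) : Prop :=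
  ∀ (T : Tw ι) (p : α → ι → ℂ), T.Fv = Fv → T.lab = Lb → Ctx T U p m W →
    ∀ g, T.AR (T.lv m) g → ¬ EqOn g 0 (T.D (T.lv m)) → MS T U p m W g

/-- monomialisation of functions that are regular of order `d` in `k` -/
def RO (U : Ultrafilter α) (Fv : Finset ι) (Lb : ι → ℕ) (m : ℕ) (W : Finset ι) (k : ι) (d : ℕ) :
    Prop :=
  ∀ (T : Tw ι) (p : α → ι → ℂ), T.Fv = Fv → T.lab = Lb → Ctx T U p m W →
    ∀ g, T.AR (T.lv m) g → T.UU U p W (tc k d g) → MS T U p m W g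

theorem multi (IH : MI U T.Fv T.lab m W) (h : Ctx T U p m W) (a : ℕ → (ι → ℂ) → ℂ)
    (ha : ∀ j, T.AR (T.lv m) (a j)) (d : ℕ) : Esc T U p m W ∨
    ∃ (T' : Tw ι) (p' : α → ι → ℂ) (Φ : (ι → ℂ) → ι → ℂ), Stp T T' U (m + 1) W p p' Φ ∧
      ∀ j < d, EqOn (a j ∘ Φ) 0 (T'.D (T.lv m)) ∨ T'.MU U p' (T.lv m) W (a j ∘ Φ) := by
  induction d with
  | zero => exact Or.inr ⟨T, p, id, Stp.refl h.gd h.pt, by simp⟩
  | succ d ih =>
    rcases ih with ih | ⟨T', p', Φ, s, H⟩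
    · exact Or.inl ih
    by_cases h0 : EqOn (a d ∘ Φ) 0 (T'.D (T.lv m))
    · exact Or.inr ⟨T', p', Φ, s, fun j hj =>
        (Nat.lt_succ_iff_lt_or_eq.1 hj).elim (H j) fun e => e ▸ Or.inl h0⟩
    have h' := h.stp s
    rcases IH T' p' s.sm.Fv s.sm.lab h' _ (s.lv ▸ (s.pb h.le).ar (ha d)) (s.lv ▸ h0) with
      e | ⟨T'', p'', Ψ, s', H'⟩
    · exact Or.inl (e.pull s.lf h.le)
    have P := s'.pb h'.le
    rw [s.lv] at H' P
    have s2 := s.trans s' (by have := h.le; omega)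
    refine Or.inr ⟨T'', p'', _, s2, fun j hj =>
      (Nat.lt_succ_iff_lt_or_eq.1 hj).elim (fun hj => (H j hj).imp (fun e x hx => e (P.maps hx))
        fun e => MU.pull (g := a j ∘ Φ) s'.lf (s2.top ▸ h.top) P (fun k hk => (h'.pas k hk).1)
          (fun k hk => s2.fre (h.fre k hk)) e) fun e => e ▸ Or.inr H'⟩

theorem ord_drop (h : T.WF) (hp : T.Pt U p) (hl : l <:+ T.top) (hk : T.Fre l k)
    (hW : ∀ j ∈ W, T.Fre l j) (hw : ∀ j ∈ W, |w j| < T.r j) {e : ℕ} {F : ℕ → (ι → ℂ) → ℂ}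
    (hF : ∀ j, T.AR l (F j)) {c : ℝ} (hc : c ≠ 0) (hg : T.AR l g)
    (he : ∀ x ∈ T.D l, g x = ∑ j ∈ Finset.range (e + 2), F j x * (c + x k) ^ j)
    (hu : ∀ j, ∃ ε : α → ℝ, Tendsto ε U (𝓝 0) ∧ ∀ᶠ i in U, ∀ t ∈ ball (0 : ℂ) (T.r k),
      ‖F j (Function.update (upd W w (p i)) k t) - F j (upd W w (p i))‖ ≤ ε i)
    (hx : ((∃ κ ≠ 0, Tendsto (fun i => F (e + 1) (upd W w (p i))) U (𝓝 κ)) ∧
        Tendsto (fun i => F e (upd W w (p i))) U (𝓝 0)) ∨
      (Tendsto (fun i => F (e + 1) (upd W w (p i))) U (𝓝 0) ∧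
        ∃ j ≤ e, ∃ κ ≠ 0, Tendsto (fun i => F j (upd W w (p i))) U (𝓝 κ))) :
    ∃ n ≤ e, T.UU U p W (tc k n g) := by
  have hq := ev_upd h hp hl hW hw
  choose κ hκ using fun j => (hF j).ulim (T1_ok h hl) hq
  choose ε ε0 hε using hu
  obtain ⟨n, h1, h2⟩ := poly_ord (κ := κ) (c := c) (by exact_mod_cast hc) (e := e) (hx.imp
    (fun ⟨⟨a, a1, a2⟩, a3⟩ => ⟨tendsto_nhds_unique (hκ _) a2 ▸ a1, tendsto_nhds_unique (hκ _) a3⟩)
    fun ⟨a3, j, hj, a, a1, a2⟩ =>
      ⟨tendsto_nhds_unique (hκ _) a3, j, hj, tendsto_nhds_unique (hκ _) a2 ▸ a1⟩)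
  have r0 := h.r0 k hk.1
  have := der_sub (F := U) (ρ := T.r k) (φ := fun i t => g (Function.update (upd W w (p i)) k t))
    (P := fun i t => ∑ j ∈ Finset.range (e + 2), F j (upd W w (p i)) * (c + t) ^ j) r0
    (hq.mono fun i hi => hg.slice h hl hk hi) (.of_forall fun i => by fun_prop)
    (ε := fun i => ∑ j ∈ Finset.range (e + 2), ε j i * (|c| + T.r k) ^ j)
    (by simpa using tendsto_finsetSum (Finset.range (e + 2)) fun j _ =>
      (ε0 j).mul_const ((|c| + T.r k) ^ j)) (by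
      filter_upwards [hq, (Finset.eventually_all (Finset.range (e + 2))).2 fun j _ => hε j]
        with i a1 a2 t ht
      have ht' := mem_ball_zero_iff.1 ht
      rw [he _ (hk.mem h hl a1 ht'), ← Finset.sum_sub_distrib]
      refine (norm_sum_le _ _).trans (Finset.sum_le_sum fun j hj => ?_)
      rw [Function.update_self, ← sub_mul, norm_mul, norm_pow]
      have b1 := a2 j hj t ht
      have b2 : ‖(c : ℂ) + t‖ ≤ |c| + T.r k :=
        (norm_add_le _ _).trans (by rw [Complex.norm_real, Real.norm_eq_abs]; linarith)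
      exact mul_le_mul b1 (by gcongr) (by positivity) ((norm_nonneg _).trans b1)) n
  simp only [der_poly] at this
  have h3 := this.add (tendsto_finsetSum (Finset.range (e + 2)) fun j _ =>
    (hκ j).mul_const ((j.descFactorial n : ℂ) * (c : ℂ) ^ (j - n)))
  simp only [sub_add_cancel, zero_add] at h3
  exact ⟨n, h1, w, _, hw, div_ne_zero h2 (by exact_mod_cast n.factorial_ne_zero), h3.div_const _⟩

/-- the blow up step -/
theorem blow (h : Ctx T U p m W) (hk : k ∈ T.Fv) (hkW : k ∉ W) (hm : T.lab k = m) {e : ℕ}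
    (IH : ∀ n ≤ e, RO U T.Fv T.lab m W k n) {A u : ℕ → (ι → ℂ) → ℂ} {J : Finset ℕ}
    {δ : ℕ → ι ⊕ ℕ → ℝ} (hJ : ∀ j ∈ J, j < e + 2) (he : e + 1 ∈ J)
    (hu : ∀ j, T.AR (T.lv m) (u j)) (hU : ∀ j ∈ J, T.UU U p W (u j))
    (hA : ∀ j ∈ J, ∀ x ∈ T.D (T.lv m), A j x = Complex.exp (-T.lin (T.lv m) (δ j) x) * u j x)
    (hA0 : ∀ j < e + 2, j ∉ J → ∀ x ∈ T.D (T.lv m), A j x = 0)
    (hg : ∀ x ∈ T.D (T.lv m), g x = ∑ j ∈ Finset.range (e + 2), A j x * x k ^ j)
    (hw : ∀ j ∈ W, |w j| < T.r j) {c : ℂ} (hc : c ≠ 0)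
    (h1 : Tendsto (fun i => u (e + 1) (upd W w (p i))) U (𝓝 c))
    (h0 : ∀ x ∈ T.D (T.lv m), A e (upd W w x) = 0)
    {γ : ι ⊕ ℕ → ℝ} {c0 : ℝ} {z : α → ℝ} (c0n : c0 ≠ 0) (hz : Tendsto z U (𝓝 0))
    (hγ : T.Big U p (T.lv m) γ)
    (hv : ∀ᶠ i in U, p i k = Complex.exp (-T.lin (T.lv m) γ (p i)) * ((c0 : ℂ) + z i)) :
    MS T U p m W g := by
  have hi := h.insert hk hm
  have hf := fre_lv hk hm.ge
  obtain ⟨j0, a1, a2⟩ := exists_min h.pt h.top (fun j : ℕ => δ j + (j : ℝ) • γ) ⟨_, he⟩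
  set β : ℕ → ι ⊕ ℕ → ℝ := fun j => (δ j + (j : ℝ) • γ) - (δ j0 + (j0 : ℝ) • γ) with hβ
  obtain ⟨T1, p1, Φ, s1, H1⟩ := norm_fam (Finset.insertNone J) h.gd h.pt h.top hi.fre
    (fun o => o.elim γ β) fun o ho => by
      cases o with
      | none => exact Or.inr hγ
      | some j => exact a2 j (by simpa using ho)
  have c1 := h.stp s1
  have t1 : T.lv m <:+ T1.top := s1.top ▸ h.top
  have O1 := T1_ok s1.gd.wf t1
  have P1 := s1.pb0 h.top
  set M : (ι → ℂ) → ℂ := fun x => Complex.exp (-T.lin (T.lv m) γ (Φ x)) with hM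
  have MA : T1.AR (T.lv m) M := H1 none (by simp)
  have hI : ∀ (γ : ι ⊕ ℕ → ℝ), ∀ j ∈ insert k W, ∀ x t, T.lin (T.lv m) γ
      (Φ (Function.update x j t)) = T.lin (T.lv m) γ (Φ x) :=
    fun γ j hj => s1.lf.ind hj ((hi.fre j hj).lin h.gd.wf h.top γ)
  have MI : ∀ j ∈ insert k W, Ind j M := fun j hj x t => by simp only [hM, hI γ j hj]
  have M0 : Tendsto (fun i => M (p1 i)) U (𝓝 0) :=
    (Big.iff.1 hγ).congr' (s1.lf.hp.mono fun i hi => by simp only [hM, hi])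
  obtain ⟨T2, Ψ, s2, d2, f2⟩ := subst1 c1 (s1.fre hf).1 hkW (s1.sm.lab ▸ hm)
    (a := fun x => c0 * M x) (b := M) (s1.lv ▸ (AR.const O1 c0).mul O1 MA) (s1.lv ▸ MA)
    (fun j hj x t => by simp only [MI j hj x t]) MI (fun _ => Complex.exp_ne_zero _)
    (by simpa using M0.const_mul (c0 : ℂ)) hz (by
      filter_upwards [hv, s1.lf.hp, s1.lf.pval (Finset.mem_insert_self _ _)] with i b1 b2 b3
      rw [b3, b1, hM]; simp only [b2]; ring)
  rw [s1.lv] at d2 f2
  have s := (s1.mono (Nat.zero_le _) (Finset.subset_insert _ _)).trans s2 (by have := h.le; omega)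
  have c2 := h.stp s
  have t2 : T.lv m <:+ T2.top := s.top ▸ h.top
  have O2 := T1_ok s.gd.wf t2
  have P := s.pb h.le
  have P2 := s2.pb c1.le
  rw [s1.lv] at P2
  have f3 := s.fre hf
  have f4 : ∀ x ∈ T2.D (T.lv m), Ψ x = Function.update x k (c0 * M x + M x * x k) := fun x hx => by
    simpa using f2 x hx (x k) (mem_ball_zero_iff.2 (D_nil hx f3.1))
  set G : ℕ → (ι → ℂ) → ℂ := fun j y =>
    if j ∈ J then Complex.exp (-T.lin (T.lv m) (β j) y) * u j y else 0 with hG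
  have GA : ∀ j, T1.AR (T.lv m) (G j ∘ Φ) := fun j => by
    by_cases hj : j ∈ J
    · simpa only [hG, Function.comp_def, if_pos hj, Option.elim_some] using
        (H1 (some j) (by simpa using hj)).mul O1 (P1.ar (hu j))
    · simpa only [hG, Function.comp_def, if_neg hj, Complex.ofReal_zero] using AR.const O1 0
  have HA : T2.AR (T.lv m) fun x =>
      ∑ j ∈ Finset.range (e + 2), ((G j ∘ Φ) ∘ Ψ) x * ((c0 : ℂ) + x k) ^ j :=
    AR.sum O2 _ fun j _ => (P2.ar (GA j)).mul O2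
      (((AR.const O2 c0).add O2 (AR.coord O2 f3.1)).pow O2 j)
  have hval : ∀ (w : ι → ℝ) (j : ℕ), j ∈ J →
      (fun i => Complex.exp (-T.lin (T.lv m) (β j) (p i)) * u j (upd W w (p i))) =ᶠ[U]
        fun i => ((G j ∘ Φ) ∘ Ψ) (upd W w (Function.update (p1 i) k (z i))) := fun w j hj =>
    Filter.EventuallyEq.trans (.of_forall fun i => by
      simp only [hG, if_pos hj, lin_upd h.gd.wf h.top h.fre]) (s.lf.val (G j) w)
  have key : ∀ w : ι → ℝ, (∀ j ∈ W, |w j| < T.r j) → ∀ j, ∃ ε : α → ℝ, Tendsto ε U (𝓝 0) ∧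
      ∀ᶠ i in U, ∀ t ∈ ball (0 : ℂ) (T2.r k),
        ‖((G j ∘ Φ) ∘ Ψ) (Function.update (upd W w (Function.update (p1 i) k (z i))) k t) -
          ((G j ∘ Φ) ∘ Ψ) (upd W w (Function.update (p1 i) k (z i)))‖ ≤ ε i := fun w hw j => by
    obtain ⟨C, C0, hC⟩ := (GA j).lip s1.gd.wf t1 (s1.fre hf)
    have r1 := half_pos (s1.gd.wf.r0 k (s1.fre hf).1)
    have b0 : Tendsto (fun i => ‖M (p1 i)‖ * (|c0| + T2.r k)) U (𝓝 0) := by
      simpa using M0.norm.mul_const (|c0| + T2.r k)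
    refine ⟨fun i => C * (2 * (‖M (p1 i)‖ * (|c0| + T2.r k))),
      by simpa using (b0.const_mul 2).const_mul C, ?_⟩
    filter_upwards [ev_upd s.gd.wf s.lf.pt t2 (fun j hj => s.fre (h.fre j hj))
      (s.lf.rad (fun j hj => (h.pas j hj).1) hw), b0.eventually_le_const r1] with i b1 b2 t ht
    have b3 : M (upd W w (Function.update (p1 i) k (z i))) = M (p1 i) := by
      rw [upd_ind fun j hj => MI j (Finset.mem_insert_of_mem hj),
        MI k (Finset.mem_insert_self _ _)]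
    have b4 : ∀ t : ℂ, ‖t‖ < T2.r k →
        ‖c0 * M (p1 i) + M (p1 i) * t‖ ≤ ‖M (p1 i)‖ * (|c0| + T2.r k) := fun t ht => by
      rw [mul_comm, ← mul_add, norm_mul]
      exact mul_le_mul_of_nonneg_left ((norm_add_le _ _).trans
        (by rw [Complex.norm_real, Real.norm_eq_abs]; linarith)) (norm_nonneg _)
    have b5 := b4 t (mem_ball_zero_iff.1 ht)
    have b6 := b4 _ (D_nil b1 f3.1)
    rw [Function.comp_apply (g := Ψ), Function.comp_apply (g := Ψ), f2 _ b1 t ht, f4 _ b1, b3]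
    exact (hC _ (d2 b1) _ _ (b5.trans b2) (b6.trans b2)).trans
      (mul_le_mul_of_nonneg_left ((norm_sub_le _ _).trans (by linarith)) C0)
  have hW2 : ∀ j ∈ W, T2.Fre (T.lv m) j := fun j hj => s.fre (h.fre j hj)
  obtain ⟨n, n1, n2⟩ : ∃ n ≤ e, T2.UU U (fun i => Function.update (p1 i) k (z i)) W (tc k n fun x =>
      ∑ j ∈ Finset.range (e + 2), ((G j ∘ Φ) ∘ Ψ) x * ((c0 : ℂ) + x k) ^ j) := by
    rcases a2 _ he with b | b
    · refine ord_drop s.gd.wf s.lf.pt t2 f3 hW2 (s.lf.rad (fun j hj => (h.pas j hj).1) hw)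
        (fun j => P2.ar (GA j)) c0n HA (fun _ _ => rfl) (key w hw) (Or.inl ⟨⟨c, hc, ?_⟩, ?_⟩)
      · exact (h1.congr fun i => by simp [lin_zero (γ := β (e + 1)) b]).congr' (hval w _ he)
      · by_cases hj : e ∈ J
        · refine (tendsto_const_nhds.congr' ?_).congr' (hval w _ hj)
          filter_upwards [T5_mem h.gd.wf h.pt h.top, ev_upd h.gd.wf h.pt h.top h.fre hw]
            with i b1 b2
          rw [(mul_eq_zero.1 ((hA e hj _ b2).symm.trans (h0 _ b1))).resolve_left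
            (Complex.exp_ne_zero _), mul_zero]
        · simpa only [hG, Function.comp_def, if_neg hj] using tendsto_const_nhds
    · obtain ⟨w', c', b1, b2, b3⟩ := hU j0 a1
      have b4 : ∀ a ∈ T.lv m, β j0 a = 0 := fun a _ => by simp [hβ]
      have b5 : j0 ≠ e + 1 := by
        rintro rfl
        have : Tendsto (fun _ : α => (0 : ℝ)) U atTop :=
          b.congr fun i => by rw [lin_zero (γ := β (e + 1)) b4, Complex.zero_re]
        exact not_tendsto_const_atTop _ _ this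
      obtain ⟨ξ, hξ⟩ := (hu (e + 1)).ulim h.ok (ev_upd h.gd.wf h.pt h.top h.fre b1)
      refine ord_drop s.gd.wf s.lf.pt t2 f3 hW2 (s.lf.rad (fun j hj => (h.pas j hj).1) b1)
        (fun j => P2.ar (GA j)) c0n HA (fun _ _ => rfl) (key w' b1)
        (Or.inr ⟨?_, j0, by have := hJ j0 a1; omega, c', b2, ?_⟩)
      · exact Tendsto.congr' (hval w' _ he) (by simpa only [zero_mul] using (Big.iff.1 b).mul hξ)
      · exact (b3.congr fun i => by simp [lin_zero b4]).congr' (hval w' _ a1)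
  refine MS.pull s h.le (MS.mon (l := T.lv m) c2 (by rw [s.lv]; exact P) (δ j0 + (j0 : ℝ) • γ)
    (IH n n1 T2 _ s.sm.Fv s.sm.lab c2 _ (s.lv ▸ HA) n2) fun x hx => ?_)
  rw [s.lv] at hx
  have hy := P.maps hx
  have e1 : (Φ ∘ Ψ) x k = Complex.exp (-T.lin (T.lv m) γ ((Φ ∘ Ψ) x)) * (c0 + x k) := by
    rw [Function.comp_apply, s1.lf.coord (Finset.mem_insert_self _ _), f4 x hx,
      Function.update_self, hI γ k (Finset.mem_insert_self _ _)]
    simp only [hM]; ring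
  rw [Function.comp_apply, hg _ hy, Finset.mul_sum]
  refine Finset.sum_congr rfl fun j hj => ?_
  rw [e1, show ((G j ∘ Φ) ∘ Ψ) x = G j ((Φ ∘ Ψ) x) from rfl]
  by_cases hj' : j ∈ J
  · simp only [hG, if_pos hj', hA j hj' _ hy, hβ, lin_sub, lin_add, lin_smul, mul_pow,
      ← Complex.exp_nat_mul]
    have e2 : ∀ a b a0 b0 : ℂ, Complex.exp (-a) * Complex.exp (j * -b) =
        Complex.exp (-(a0 + b0)) * Complex.exp (-(a + ((j : ℝ) : ℂ) * b - (a0 + b0))) :=
      fun a b a0 b0 => by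
        rw [← Complex.exp_add, ← Complex.exp_add]; congr 1; push_cast; ring
    linear_combination (u j ((Φ ∘ Ψ) x) * (c0 + x k) ^ j) * e2 (T.lin (T.lv m) (δ j) ((Φ ∘ Ψ) x))
      (T.lin (T.lv m) γ ((Φ ∘ Ψ) x)) (T.lin (T.lv m) (δ j0) ((Φ ∘ Ψ) x))
      (((j0 : ℝ) : ℂ) * T.lin (T.lv m) γ ((Φ ∘ Ψ) x))
  · simp only [hG, if_neg hj', hA0 j (Finset.mem_range.1 hj) hj' _ hy, zero_mul, mul_zero]

end Tw

end Crest.Agent.N207.O
end
end

-- ▼ part N207/O/Mon4
section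

/-!
# Row 207, block O (helper84): the monomialisation theorem
-/

set_option autoImplicit false
set_option linter.unusedSectionVars false

open Set Filter Topology Metric

noncomputable section

namespace Crest.Agent.N207.O

variable {ι : Type} [Fintype ι] [DecidableEq ι] {α : Type} {U : Ultrafilter α} {T T' T'' : Tw ι}
  {p p' p'' : α → ι → ℂ} {l l' l'' : List (ι ⊕ ℕ)} {W W' : Finset ι} {k : ι}
  {g g' : (ι → ℂ) → ℂ} {Φ Ψ : (ι → ℂ) → ι → ℂ} {n m : ℕ} {w : ι → ℝ} {x : ι → ℂ}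
  {Fv : Finset ι} {Lb : ι → ℕ}

namespace Tw

theorem uu_ind (h : Ctx T U p m W) (hk : T.Fre (T.lv m) k) {a u : (ι → ℂ) → ℂ} (ia : Ind k a)
    {δ : ι ⊕ ℕ → ℝ} (e : ∀ x ∈ T.D (T.lv m), a x = Complex.exp (-T.lin (T.lv m) δ x) * u x)
    (hu : T.UU U p (insert k W) u) : T.UU U p W u := by
  obtain ⟨w, c, h1, h2, h3⟩ := hu
  have hw : ∀ j ∈ W, |w j| < T.r j := fun j hj => h1 j (Finset.mem_insert_of_mem hj)
  refine ⟨w, c, hw, h2, h3.congr' ((ev_upd h.gd.wf h.pt h.top h.fre hw).mono fun i hi => ?_)⟩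
  have h4 := e _ (hk.mem h.gd.wf h.top hi (t := w k)
    (by simpa using h1 k (Finset.mem_insert_self _ _)))
  rw [ia, e _ hi, hk.lin h.gd.wf h.top] at h4
  simp only [upd_insert]
  exact (mul_left_cancel₀ (Complex.exp_ne_zero _) h4).symm

/-- the Newton polygon step -/
theorem newton (h : Ctx T U p m W) (hk : k ∈ T.Fv) (hkW : k ∉ W) (hm : T.lab k = m) {e : ℕ}
    (IH : ∀ n ≤ e, RO U T.Fv T.lab m W k n) {a : ℕ → (ι → ℂ) → ℂ} {u : (ι → ℂ) → ℂ}
    (ia : ∀ j, Ind k (a j)) (hu : T.AR (T.lv m) u)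
    (ha : ∀ j < e + 1, EqOn (a j) 0 (T.D (T.lv m)) ∨ T.MU U p (T.lv m) (insert k W) (a j))
    (hg : ∀ x ∈ T.D (T.lv m),
      g x = ∑ j ∈ Finset.range (e + 1), a j x * x k ^ j + x k ^ (e + 1) * u x)
    (hw : ∀ j ∈ W, |w j| < T.r j) {c : ℂ} (hc : c ≠ 0)
    (h1 : Tendsto (fun i => u (upd W w (p i))) U (𝓝 c))
    (h0 : ∀ x ∈ T.D (T.lv m), a e (upd W w x) = 0) : MS T U p m W g := by
  classical
  rcases L1_class h.gd.wf h.pt hk h.le with b | ⟨γ, c0, z, b1, b2, b3, b4⟩ |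
    ⟨γ, ε, η, σ, l₁, l₂, b1, b2, b3, b4, b5, b6⟩
  · exact Or.inl ⟨T, p, id, (Stp.refl h.gd h.pt).lf, h.sp, Or.inr ⟨k, hk, hkW, hm, b⟩⟩
  swap
  · exact Or.inl (esc_new h hk hkW hm b1 b2 b3 b4 b5 b6)
  have hf := fre_lv hk hm.ge
  set A := Function.update a (e + 1) u with hA
  have key : ∀ j, ∃ (δ : ι ⊕ ℕ → ℝ) (v : (ι → ℂ) → ℂ), T.AR (T.lv m) v ∧ (j = e + 1 → v = u) ∧
      (j < e + 2 → (j = e + 1 ∨ ¬ EqOn (a j) 0 (T.D (T.lv m))) → T.UU U p W v ∧
        ∀ x ∈ T.D (T.lv m), A j x = Complex.exp (-T.lin (T.lv m) δ x) * v x) := fun j => by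
    by_cases hj : j = e + 1
    · refine ⟨0, u, hu, fun _ => rfl, fun _ _ => ⟨⟨w, c, hw, hc, h1⟩, fun x _ => ?_⟩⟩
      simp [hA, hj, lin_zero (γ := 0) fun _ _ => rfl]
    by_cases hj' : j < e + 2 ∧ ¬ EqOn (a j) 0 (T.D (T.lv m))
    · obtain ⟨δ, v, c1, c2, c3, c4⟩ := (ha j (by omega)).resolve_left hj'.2
      exact ⟨δ, v, ⟨c1, c2⟩, fun e => absurd e hj, fun _ _ => ⟨uu_ind h hf (ia j) c4 c3,
        by rwa [hA, Function.update_of_ne hj]⟩⟩
    · exact ⟨0, u, hu, fun _ => rfl, fun c1 c2 => absurd ⟨c1, c2.resolve_left hj⟩ hj'⟩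
  choose δ v k1 k2 k3 using key
  refine blow h hk hkW hm IH (A := A) (u := v) (δ := δ)
    (J := (Finset.range (e + 2)).filter fun j => j = e + 1 ∨ ¬ EqOn (a j) 0 (T.D (T.lv m)))
    (fun j hj => Finset.mem_range.1 (Finset.mem_filter.1 hj).1) (by simp) k1
    (fun j hj => (k3 j (Finset.mem_range.1 (Finset.mem_filter.1 hj).1)
      (Finset.mem_filter.1 hj).2).1)
    (fun j hj => (k3 j (Finset.mem_range.1 (Finset.mem_filter.1 hj).1)
      (Finset.mem_filter.1 hj).2).2)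
    (fun j c1 c2 x hx => ?_) (fun x hx => ?_) hw hc (k2 _ rfl ▸ h1)
    (by rwa [hA, Function.update_of_ne (by omega)]) b1 b2 b3 b4
  · have c3 : ¬ (j = e + 1 ∨ ¬ EqOn (a j) 0 (T.D (T.lv m))) :=
      fun c3 => c2 (Finset.mem_filter.2 ⟨Finset.mem_range.2 c1, c3⟩)
    rw [hA, Function.update_of_ne fun e => c3 (Or.inl e)]
    exact (not_not.1 fun e => c3 (Or.inr e)) hx
  · rw [hg x hx, Finset.sum_range_succ _ (e + 1), hA, Function.update_self, mul_comm (u x)]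
    congr 1
    exact Finset.sum_congr rfl fun j hj => by
      rw [Function.update_of_ne (Finset.mem_range.1 hj).ne]

theorem ind_tc (d : ℕ) (g : (ι → ℂ) → ℂ) : Ind k (tc k d g) := fun x t => by
  simp only [tc, Function.update_idem]

theorem ro_all (hk : k ∈ Fv) (hkW : k ∉ W) (hm : Lb k = m) (IM : MI U Fv Lb m (insert k W))
    (d : ℕ) : RO U Fv Lb m W k d := by
  induction d using Nat.strong_induction_on with
  | _ d ih =>
  rintro T p rfl rfl h g hg ⟨w, c, hw, hc, h1⟩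
  have hf := fre_lv hk hm.ge
  have hq := ev_upd h.gd.wf h.pt h.top h.fre hw
  have z0 : ∀ {T : Tw ι} {p : α → ι → ℂ}, T.Pt U p → k ∈ T.Fv →
      Tendsto (fun i => upd W w (p i) k) U (𝓝 0) := fun hp hk => by
    simpa only [upd_of_not hkW] using hp.z0 k hk
  cases d with
  | zero =>
    exact Or.inr ⟨T, p, id, Stp.refl h.gd h.pt, MU.of_unit hg ⟨w, c, hw, hc,
      hg.lim0 h.gd.wf h.top hf hq (z0 h.pt hk) (by simpa [tc] using h1)⟩⟩
  | succ e =>
    obtain ⟨c', hc'⟩ := (hg.tc h.gd.wf h.top hf e).ulim h.ok hq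
    by_cases h0 : c' = 0
    swap
    · exact ih e (by omega) T p rfl rfl h g hg ⟨w, c', hw, h0, hc'⟩
    obtain ⟨T1, p1, Φ, s1, a1, a2⟩ := tsch h hk hkW hm hg hw hc (h0 ▸ hc') h1
    have c1 := h.stp s1
    have t1 : T.lv m <:+ T1.top := s1.top ▸ h.top
    have g1 := (s1.pb h.le).ar hg
    have f1 := s1.fre hf
    have w1 := s1.lf.rad (fun j hj => (h.pas j hj).1) hw
    have W1 : ∀ j ∈ W, T1.Fre (T.lv m) j := fun j hj => s1.fre (h.fre j hj)
    obtain ⟨-, u, u1, u2, u3⟩ := C5_tay s1.gd.wf t1 f1.1 f1.2 g1.a g1.r (e + 1)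
    have q1 := ev_upd s1.gd.wf s1.lf.pt t1 W1 w1
    have u4 := AR.lim0 s1.gd.wf t1 f1 ⟨u1, u2⟩ q1 (z0 s1.lf.pt f1.1)
      (a1.congr' (q1.mono fun i hi => (u3 _ hi).2.symm))
    have m1 : T1.lab k = m := s1.sm.lab ▸ hm
    refine MS.pull s1 h.le ?_
    rcases multi (T := T1) (by rw [s1.sm.Fv, s1.sm.lab]; exact IM) (c1.insert f1.1 m1)
      (fun j => tc k j (g ∘ Φ)) (fun j => s1.lv ▸ g1.tc s1.gd.wf t1 f1 j) (e + 1) with
      b | ⟨T2, p2, Ψ, s2, b⟩
    · exact Or.inl (b.mono (Finset.subset_insert _ _))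
    have s3 := s2.mono le_rfl (Finset.subset_insert k W)
    have c2 := c1.stp s2
    have P := s2.pb c1.le
    rw [← s2.lv] at b
    rw [← s1.lv] at u1 u2 u3 a2
    have P' : Pb T1 T2 (T1.lv m) (T2.lv m) Ψ := by rw [s2.lv]; exact P
    refine MS.pull s3 c1.le (newton c2 (s2.sm.Fv ▸ f1.1) hkW (s2.sm.lab ▸ m1) (e := e)
      (fun n hn => by rw [s2.sm.Fv, s2.sm.lab, s1.sm.Fv, s1.sm.lab]; exact ih n (by omega))
      (a := fun j => tc k j (g ∘ Φ) ∘ Ψ) (u := u ∘ Ψ)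
      (fun j => s2.lf.ind (Finset.mem_insert_self _ _) (ind_tc j _)) (P'.ar ⟨u1, u2⟩) b
      (fun x hx => ?_) (s3.lf.rad (fun j hj => (c1.pas j hj).1) w1) hc
      (u4.congr' (s3.lf.val u w)) fun x hx => ?_)
    · simpa only [Function.comp_apply, s2.lf.coord (Finset.mem_insert_self k W)] using
        (u3 _ (P'.maps hx)).1
    · rw [Function.comp_apply, upd_com s3.lf.com]
      exact a2 _ (P'.maps hx)

theorem step_W (hk : k ∈ Fv) (hkW : k ∉ W) (hm : Lb k = m) (IM : MI U Fv Lb m (insert k W)) :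
    MI U Fv Lb m W := by
  rintro T p rfl rfl h g hg h0
  rcases IM T p rfl rfl (h.insert hk hm) g hg h0 with
    b | ⟨T1, p1, Φ, s1, γ, u, u1, u2, ⟨w, c, hw, hc, u3⟩, u4⟩
  · exact Or.inl (b.mono (Finset.subset_insert _ _))
  have s := s1.mono le_rfl (Finset.subset_insert k W)
  have c1 := h.stp s
  have t1 : T.lv m <:+ T1.top := s.top ▸ h.top
  have f1 := s.fre (fre_lv hk hm.ge)
  have hu : T1.AR (T.lv m) u := ⟨u1, u2⟩
  have w1 : ∀ j ∈ W, |w j| < T1.r j := fun j hj => hw j (Finset.mem_insert_of_mem hj)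
  have q1 := ev_upd s.gd.wf s.lf.pt t1 (fun j hj => s.fre (h.fre j hj)) w1
  obtain ⟨d, hd⟩ : ∃ d, T1.UU U p1 W (tc k d u) := by
    by_contra! H
    obtain ⟨B, hB⟩ := hu.bd (T1_ok s.gd.wf t1)
    refine hc (tendsto_nhds_unique (by simpa only [upd_insert] using u3) (ord_zero (F := U)
      (φ := fun i t => u (Function.update (upd W w (p1 i)) k t)) (ρ := T1.r k) (B := B)
      (q1.mono fun i hi => hu.slice s.gd.wf t1 f1 hi)
      (q1.mono fun i hi t ht => hB _ (f1.mem s.gd.wf t1 hi (mem_ball_zero_iff.1 ht)))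
      (w := w k) (by simpa using hw k (Finset.mem_insert_self _ _)) fun n => ?_))
    obtain ⟨c', hc'⟩ := (hu.tc s.gd.wf t1 f1 n).ulim (T1_ok s.gd.wf t1) q1
    obtain rfl : c' = 0 := not_not.1 fun e => H n ⟨w, c', w1, e, hc'⟩
    exact hc'
  refine MS.pull s h.le (MS.mon (l := T1.lv m) (Ψ := id) c1
    ((Stp.refl (n := 0) (W := W) s.gd s.lf.pt).pb0 c1.top) γ
    (ro_all hk hkW hm IM d T1 p1 s.sm.Fv s.sm.lab c1 u (s.lv ▸ hu) hd) ?_)
  rw [s.lv]; exact u4

theorem mi_all (m : ℕ) : ∀ W, MI U Fv Lb m W := by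
  induction m using Nat.strong_induction_on with
  | _ m ihm =>
  intro W
  induction hN : ((Fv \ W).filter fun k => Lb k = m).card using Nat.strong_induction_on
    generalizing W with
  | _ N ih =>
  by_cases hV : ∃ k ∈ Fv, k ∉ W ∧ Lb k = m
  · obtain ⟨k, h1, h2, h3⟩ := hV
    refine step_W h1 h2 h3 (ih _ ?_ _ rfl)
    rw [← hN]
    refine Finset.card_lt_card ⟨Finset.filter_subset_filter _
      (Finset.sdiff_subset_sdiff le_rfl (Finset.subset_insert _ _)), fun e => ?_⟩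
    simpa using e (show k ∈ _ by simp [h1, h2, h3])
  · rintro T p rfl rfl h g hg h0
    exact step_U h (fun k h1 h2 => lt_of_le_of_ne (h.act k h1 h2) fun e => hV ⟨k, h1, h2, e⟩)
      (fun j e c => ihm j (by omega) W T p rfl rfl c) hg h0

end Tw

open Tw

/-- **monomialisation** -/
theorem M_fin (h : T.WF) (hs : T.Sp) (hp : T.Pt U p) (hg : T.fr.A T.top g)
    (hr : RR (T.D T.top) g) : ∃ (T' : Tw ι) (p' : α → ι → ℂ) (Φ : (ι → ℂ) → ι → ℂ),
      T.Lift T' U (T.p + 1) ∅ p p' Φ ∧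
        (EqOn (g ∘ Φ) 0 (T'.D T'.top) ∨ T'.MU U p' T'.top ∅ (g ∘ Φ)) := by
  induction hN : T.μ using Nat.strong_induction_on generalizing T p g with
  | _ N ih =>
  have drop : ∀ (T' : Tw ι) (p' : α → ι → ℂ) (Φ : (ι → ℂ) → ι → ℂ),
      T.Lift T' U (T.p + 1) ∅ p p' Φ → T'.Sp → T'.μ < T.μ →
      ∃ (T' : Tw ι) (p' : α → ι → ℂ) (Φ : (ι → ℂ) → ι → ℂ), T.Lift T' U (T.p + 1) ∅ p p' Φ ∧
        (EqOn (g ∘ Φ) 0 (T'.D T'.top) ∨ T'.MU U p' T'.top ∅ (g ∘ Φ)) := fun T' p' Φ L s m => by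
    have a := (L.top le_rfl).ar ⟨hg, hr⟩
    obtain ⟨T'', p'', Ψ, L', b⟩ := ih _ (hN ▸ m) L.wf s L.pt a.a a.r rfl
    exact ⟨T'', p'', _, L.trans (L.pp ▸ L') le_rfl, b⟩
  obtain ⟨R, -, s⟩ := exists_good h hp ∅
  have L0 := s.lf.mono (Nat.zero_le (T.p + 1)) Finset.Subset.rfl
  by_cases h0 : EqOn (g ∘ id) 0 ((T.shr R T.r).D (T.shr R T.r).top)
  · exact ⟨_, _, _, L0, Or.inl h0⟩
  have c : Ctx (T.shr R T.r) U p T.p ∅ := ⟨s.gd, hs.of_sub rfl rfl Finset.Subset.rfl, s.lf.pt,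
    le_rfl, by simp, fun k hk _ => h.lab k hk⟩
  rcases mi_all T.p ∅ _ p rfl rfl c _ ((L0.top le_rfl).ar ⟨hg, hr⟩) h0 with
    ⟨T1, p1, Φ, L, sp, b | ⟨k, b1, b2, b3, b4⟩⟩ | ⟨T1, p1, Φ, s1, b⟩
  · exact drop T1 p1 _ (L0.trans L le_rfl) sp b
  · have O := T1_ok L.wf (lv_top (L.wf.lab k b1))
    have A := AR.const O 0
    obtain ⟨T2, p2, Ψ, L2, d1, d2, d3⟩ := E5_elim (W := ∅) L.wf L.pt b1 b2 (by simp)
      (fun j hj _ => by rw [b3]; exact (L.wf.lab j hj).trans L.pp.le) A.a A.r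
      ⟨fun _ _ => rfl, by simp⟩ (by simpa using b4.2 (by rw [L.pp]; exact lt_irrefl _))
    rw [b3] at L2
    exact drop T2 p2 _ ((L0.trans L le_rfl).trans L2 le_rfl)
      (sp.of_sub d1 L2.pp L2.sub) ((mu_erase b1 L.wf L2.pp d2 d3).trans_le L.mu)
  · exact ⟨T1, p1, _, L0.trans s1.lf le_rfl, Or.inr (by rw [s1.top]; exact b)⟩

end Crest.Agent.N207.O
end
end

-- ▼ part N207/O/Sq2
section

/-!
# Row 207, block O (helper99): insertion of new classes, renormalisation, renumbering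
-/

set_option autoImplicit false
set_option linter.unusedSectionVars false

open Set Filter Topology Function

noncomputable section

namespace Crest.Agent.N207.O.Sq

variable {α κ : Type*} [DecidableEq κ] {U : Ultrafilter α} {v s : κ → α → ℝ} {l t : List κ}
  {a k : κ} {γ : κ → ℝ} {y w σ : α → ℝ} {c g : ℝ}

theorem lin_upd (h : a ∉ l) (γ : κ → ℝ) (g : ℝ) (σ : α → ℝ) (i : α) :
    lin (update v a σ) (a :: l) (update γ a g) i = g * σ i + lin v l γ i := by
  rw [lin_cons h, update_self, update_self, lin_congr (s := v) (γ' := γ)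
    (fun b hb => update_of_ne (ne_of_mem_of_not_mem hb h) _ _)
    fun b hb => update_of_ne (ne_of_mem_of_not_mem hb h) _ _]

theorem lin_ite (h : l ⊆ t) (i : α) :
    lin v t (fun a => if a ∈ l then γ a else 0) i = lin v l γ i := by
  rw [lin_subset h fun a _ hn => if_neg hn]
  exact lin_congr (fun a ha => if_pos ha) (fun _ _ => rfl) i

theorem Rep.mono (h : Rep U v l y) (hl : l ⊆ t) (e : ∀ a ∈ l, s a = v a) : Rep U s t y := by
  obtain ⟨γ, c, h⟩ := h
  exact ⟨fun a => if a ∈ l then γ a else 0, c, h.congr fun i => by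
    rw [lin_ite hl, lin_congr (fun _ _ => rfl) e]⟩

theorem Ord.upd (h : Ord U v l) (hk : k ∉ l) (σ : α → ℝ) : Ord U (update v k σ) l :=
  h.congr fun a ha => by rw [update_of_ne (ne_of_mem_of_not_mem ha hk)]

theorem Ord.ins {l₂ : List κ} : ∀ {l₁ : List κ}, Ord U v (l₁ ++ l₂) → Gap U v l₁ l₂ σ →
    k ∉ l₁ ++ l₂ → Ord U (update v k σ) (l₁ ++ k :: l₂)
  | [], h, G, hk => ⟨by rw [update_self]; exact G.big, fun b hb => by
      rw [update_self, update_of_ne (ne_of_mem_of_not_mem hb hk)]; exact G.lo b hb, h.upd hk σ⟩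
  | a :: l₁, h, G, hk => by
    have h' := h.upd hk σ
    refine ⟨h'.1, fun b hb => ?_, ins h.2.2 ⟨G.big, G.lo, fun b hb => G.hi b (by simp [hb])⟩
      fun e => hk (List.mem_cons_of_mem _ e)⟩
    by_cases e : b = k
    · rw [e, update_self, update_of_ne (ne_of_mem_of_not_mem List.mem_cons_self hk)]
      exact G.hi a (by simp)
    · exact h'.2.1 b (by simpa [e] using hb)

theorem Ord.ins1 (h : Ord U v l) (w : α → ℝ) (hk : k ∉ l) : ∃ s t, Ord U s t ∧
    (∀ a ∈ l, s a = v a) ∧ l ⊆ t ∧ (∀ a ∈ t, a ∈ l ∨ a = k) ∧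
    (∀ P : κ → Bool, P k = false → t.filter P = l.filter P) ∧ Rep U s t w := by
  rcases h.cls w with r | ⟨γ, η, σ, l₁, l₂, rfl, -, G, e⟩
  · exact ⟨v, l, h, fun _ _ => rfl, fun _ h => h, fun _ h => Or.inl h, fun _ _ => rfl, r⟩
  · have o := h.ins G hk
    refine ⟨_, _, o, fun a ha => update_of_ne (ne_of_mem_of_not_mem ha hk) _ _,
      fun a ha => by simp at ha ⊢; tauto, fun a ha => by simp at ha ⊢; tauto,
      fun P hP => by simp [hP], update γ k η, 0, ?_⟩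
    refine tendsto_const_nhds.congr fun i => ?_
    have : lin (update v k σ) (l₁ ++ k :: l₂) (update γ k η) i =
        lin (update v k σ) (k :: (l₁ ++ l₂)) (update γ k η) i := by
      unfold lin; congr 1; ext a; simp
    rw [this, lin_upd hk, e i]; ring

theorem Ord.insMany (h : Ord U v l) {β : Type*} {f : β → κ} (hf : Injective f)
    (hl : ∀ x, f x ∉ l) (y : β → α → ℝ) (S : Finset β) : ∃ s t, Ord U s t ∧
    (∀ a ∈ l, s a = v a) ∧ l ⊆ t ∧ (∀ a ∈ t, a ∈ l ∨ ∃ x ∈ S, a = f x) ∧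
    (∀ P : κ → Bool, (∀ x, P (f x) = false) → t.filter P = l.filter P) ∧
    ∀ x ∈ S, Rep U s t (y x) := by
  classical
  induction S using Finset.induction_on with
  | empty => exact ⟨v, l, h, fun _ _ => rfl, fun _ h => h, fun _ h => Or.inl h, fun _ _ => rfl,
      by simp⟩
  | insert x S hx ih =>
    obtain ⟨s, t, a1, a2, a3, a4, a5, a6⟩ := ih
    obtain ⟨s', t', b1, b2, b3, b4, b5, b6⟩ := a1.ins1 (y x) (k := f x) fun e =>
      (a4 _ e).elim (hl x) fun ⟨z, hz, e⟩ => hx (hf e ▸ hz)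
    refine ⟨s', t', b1, fun a ha => (b2 a (a3 ha)).trans (a2 a ha), fun a ha => b3 (a3 ha),
      fun a ha => ?_, fun P hP => (b5 P (hP x)).trans (a5 P hP), fun z hz => ?_⟩
    · rcases b4 a ha with c | c
      · exact (a4 a c).imp_right fun ⟨z, hz, e⟩ => ⟨z, Finset.mem_insert_of_mem hz, e⟩
      · exact Or.inr ⟨x, Finset.mem_insert_self _ _, c⟩
    · rcases Finset.mem_insert.1 hz with rfl | hz
      · exact b6
      · exact (a6 z hz).mono b3 b2

theorem Ord.top_of_pos (h : Ord U v l) (hp : ∀ b ∈ l, 0 < γ b) :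
    (∀ a ∈ l, γ a = 0) ∨ Tendsto (lin v l γ) U atTop := by
  cases l with
  | nil => simp
  | cons b l => exact Or.inr (top_of_div h.1 h.lin_div (hp b (by simp)))

theorem ratio_small (hv : Tendsto w U atTop) (h1 : Tendsto (fun i => σ i / w i) U (𝓝 1))
    (hy : Tendsto (fun i => y i / w i) U (𝓝 g)) : Tendsto (fun i => y i / σ i) U (𝓝 g) := by
  have := h1.inv₀ one_ne_zero
  simpa using div_trans hv hy (c := 1) (by simpa using this)

/-- **renormalisation**: finitely many positive combinations get nonnegative coefficients -/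
theorem Ord.rn {β : Type*} [Finite β] : ∀ {t : List κ}, Ord U v t → ∀ γ : β → κ → ℝ,
    (∀ x, (∀ a ∈ t, γ x a = 0) ∨ Tendsto (lin v t (γ x)) U atTop) →
    ∃ (s : κ → α → ℝ) (Φ : (κ → ℝ) → κ → ℝ), Ord U s t ∧
      (∀ a ∈ t, Tendsto (fun i => s a i / v a i) U (𝓝 1)) ∧
      (∀ δ i, lin v t δ i = lin s t (Φ δ) i) ∧ ∀ x, ∀ a ∈ t, 0 ≤ Φ (γ x) a
  | [], _, _, _ => ⟨v, id, trivial, by simp, fun _ _ => rfl, by simp⟩
  | a :: l, h, γ, hγ => by
    have h0 : ∀ x, 0 ≤ γ x a := fun x => (hγ x).elim (fun k => (k a (by simp)).ge) h.head_nonneg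
    obtain ⟨N, hN⟩ : ∃ N : ℝ, ∀ x, 0 < γ x a → ∀ b ∈ l, 0 < γ x b + N * γ x a := by
      refine Eventually.exists (f := atTop) (eventually_all.2 fun x => ?_)
      by_cases c : 0 < γ x a
      · simp only [c, forall_true_left]
        refine (eventually_all_finite l.finite_toSet).2 fun b _ => ?_
        exact (tendsto_atTop_add_const_left _ _ (tendsto_id.atTop_mul_const c)).eventually_gt_atTop 0
      · simp [c]
    obtain ⟨s, Φ, a1, a2, a3, a4⟩ := rn h.2.2 (fun x b => γ x b + N * γ x a) fun x => by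
      rcases (h0 x).eq_or_lt with c | c
      · simp only [← c, mul_zero, add_zero]
        exact (hγ x).imp (fun k b hb => k b (by simp [hb])) fun k => by
          rwa [h.lin_cons0 c.symm] at k
      · exact h.2.2.top_of_pos (hN x c)
    set σ : α → ℝ := fun i => v a i - lin v l (fun _ => N) i
    have r : Tendsto (fun i => σ i / v a i) U (𝓝 1) := by
      have := (div_self' h.1).sub (lin_small (γ := fun _ => N) h.2.1)
      rw [sub_zero] at this
      exact this.congr fun i => by simp only [σ, sub_div]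
    have ne : ∀ b ∈ l, b ≠ a := fun b hb => ne_of_mem_of_not_mem hb h.notMem
    refine ⟨update s a σ, fun δ => update (Φ fun b => δ b + N * δ a) a (δ a),
      ⟨by rw [update_self]; exact top_of_div h.1 r one_pos, fun b hb => ?_, a1.upd h.notMem σ⟩,
      fun b hb => ?_, fun δ i => ?_, fun x b hb => ?_⟩
    · rw [update_self, update_of_ne (ne b hb)]
      exact ratio_small h.1 r (by simpa using div_trans (h.2.2.big b hb) (a2 b hb) (h.2.1 b hb))
    · rcases List.mem_cons.1 hb with rfl | hb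
      · rwa [update_self]
      · rw [update_of_ne (ne b hb)]; exact a2 b hb
    · rw [lin_upd h.notMem, ← a3, lin_cons h.notMem]
      simp only [σ, lin, add_mul, Finset.sum_add_distrib, mul_sub, Finset.mul_sum]
      rw [Finset.sum_congr rfl fun b _ => show δ a * (N * v b i) = N * δ a * v b i by ring]
      ring
    · rcases List.mem_cons.1 hb with rfl | hb
      · simp only [update_self]; exact h0 x
      · simp only [update_of_ne (ne b hb)]; exact a4 x b hb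

/-- every representation of `y` has nonnegative coefficients -/
def Pos (U : Ultrafilter α) (s : κ → α → ℝ) (t : List κ) (y : α → ℝ) : Prop :=
  ∀ γ c, Tendsto (fun i => y i - lin s t γ i) U (𝓝 c) → ∀ a ∈ t, 0 ≤ γ a

theorem Ord.rn2 {β : Type*} [Finite β] (h : Ord U v t) (y : β → α → ℝ)
    (hr : ∀ x, Rep U v t (y x)) (hy : ∀ x, Tendsto (y x) U atTop) :
    ∃ s : κ → α → ℝ, Ord U s t ∧ (∀ a ∈ t, Tendsto (fun i => s a i / v a i) U (𝓝 1)) ∧
      (∀ δ, ∃ δ', ∀ i, lin v t δ i = lin s t δ' i) ∧ ∀ x, Pos U s t (y x) := by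
  choose γ c hc using hr
  obtain ⟨s, Φ, a1, a2, a3, a4⟩ := h.rn γ fun x => Or.inr
    (((hy x).atTop_add (hc x).neg).congr fun i => by ring)
  refine ⟨s, a1, a2, fun δ => ⟨_, a3 δ⟩, fun x δ d hd a ha => ?_⟩
  have := a1.uniq (γ := fun a => δ a - Φ (γ x) a) (((hc x).sub hd).congr fun i => by
    rw [lin_sub, a3]; ring) a ha
  linarith [a4 x a ha]

/-- the tied levels -/
def tl (ι : Type*) : ℕ → List (ι ⊕ ℕ)
  | 0 => []
  | p + 1 => Sum.inr p :: tl ι p

theorem mem_tl {ι : Type*} {a : ι ⊕ ℕ} : ∀ {p : ℕ}, a ∈ tl ι p ↔ ∃ j < p, a = Sum.inr j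
  | 0 => by simp [tl]
  | p + 1 => by
    simp only [tl, List.mem_cons, mem_tl (p := p), Nat.lt_succ_iff_lt_or_eq, or_and_right,
      exists_or, exists_eq_left, or_comm]

theorem lin_tl {ι : Type*} [DecidableEq ι] {s : ι ⊕ ℕ → α → ℝ} (γ : ι ⊕ ℕ → ℝ) (i : α) :
    ∀ p, lin s (tl ι p) γ i = ∑ j ∈ Finset.range p, γ (Sum.inr j) * s (Sum.inr j) i
  | 0 => by simp [tl, lin]
  | p + 1 => by rw [tl, lin_cons (by simp [mem_tl]), lin_tl γ i p, Finset.sum_range_succ, add_comm]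

theorem Ord.reidx (ι : Type*) [DecidableEq ι] (hv : ∀ a i, 0 < v a i) : ∀ {t : List κ},
    Ord U v t → ∃ s : ι ⊕ ℕ → α → ℝ, Ord U s (tl ι t.length) ∧ (∀ a i, 0 < s a i) ∧
      (∀ b ∈ tl ι t.length, ∃ c ∈ t, s b = v c) ∧
      ∀ γ, ∃ γ', ∀ i, lin v t γ i = lin s (tl ι t.length) γ' i
  | [], _ => ⟨fun _ _ => 1, trivial, fun _ _ => one_pos, by simp [tl], fun _ => ⟨0, fun _ => rfl⟩⟩
  | a :: l, h => by
    obtain ⟨s, a1, a2, a3, a4⟩ := reidx ι hv h.2.2
    have hn : (Sum.inr l.length : ι ⊕ ℕ) ∉ tl ι l.length := by simp [mem_tl]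
    refine ⟨update s (Sum.inr l.length) (v a), ⟨by rw [update_self]; exact h.1, fun b hb => ?_,
      a1.upd hn _⟩, fun b i => ?_, fun b hb => ?_, fun γ => ?_⟩
    · obtain ⟨c, hc, e⟩ := a3 b hb
      rw [update_self, update_of_ne (ne_of_mem_of_not_mem hb hn), e]
      exact h.2.1 c hc
    · by_cases e : b = Sum.inr l.length
      · rw [e, update_self]; exact hv a i
      · rw [update_of_ne e]; exact a2 b i
    · rcases List.mem_cons.1 hb with rfl | hb
      · exact ⟨a, by simp, update_self _ _ _⟩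
      · obtain ⟨c, hc, e⟩ := a3 b hb
        exact ⟨c, by simp [hc], by rw [update_of_ne (ne_of_mem_of_not_mem hb hn), e]⟩
    · obtain ⟨γ', e⟩ := a4 γ
      exact ⟨update γ' _ (γ a), fun i => by
        rw [lin_cons h.notMem, e]; exact (lin_upd hn _ _ _ _).symm⟩

theorem Ord.tl_lt {ι : Type*} [DecidableEq ι] {s : ι ⊕ ℕ → α → ℝ} {j j' : ℕ} (hj : j < j') :
    ∀ {p : ℕ}, Ord U s (tl ι p) → j' < p →
      Tendsto (fun i => s (Sum.inr j) i / s (Sum.inr j') i) U (𝓝 0)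
  | 0, _, h => absurd h (Nat.not_lt_zero _)
  | p + 1, h, hp => by
    rcases Nat.lt_succ_iff_lt_or_eq.1 hp with c | rfl
    · exact tl_lt hj h.2.2 c
    · exact h.2.1 _ (mem_tl.2 ⟨j, hj, rfl⟩)

theorem Ord.tl_top {ι : Type*} [DecidableEq ι] {s : ι ⊕ ℕ → α → ℝ} {γ : ι ⊕ ℕ → ℝ} :
    ∀ {p : ℕ}, Ord U s (tl ι p) → Tendsto (lin s (tl ι p) γ) U atTop → ∃ J < p,
      0 < γ (Sum.inr J) ∧ lin s (tl ι p) γ = lin s (tl ι (J + 1)) γ ∧ Ord U s (tl ι (J + 1))
  | 0, _, k => absurd (k.congr fun i => lin_nil i)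
      (not_tendsto_atTop_of_tendsto_nhds tendsto_const_nhds)
  | p + 1, h, k => by
    rcases (Ord.head_nonneg h k).eq_or_lt with c | c
    · have e := Ord.lin_cons0 h c.symm
      obtain ⟨J, a1, a2, a3, a4⟩ := tl_top h.2.2 (e ▸ k)
      exact ⟨J, a1.trans (Nat.lt_succ_self _), a2, e.trans a3, a4⟩
    · exact ⟨p, Nat.lt_succ_self _, c, rfl, h⟩

/-- the classes of finitely many sequences -/
theorem exists_classes {β : Type*} [Fintype β] (U : Ultrafilter α) (y : β → α → ℝ) :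
    ∃ p : ℕ, ∀ (ι : Type) [DecidableEq ι], ∃ s : ι ⊕ ℕ → α → ℝ, Ord U s (tl ι p) ∧
      (∀ a i, 0 < s a i) ∧ ∀ x, Rep U s (tl ι p) (y x) := by
  classical
  obtain ⟨v, t, a1, -, -, -, -, a6⟩ := Ord.insMany (U := U) (v := fun (_ : β) _ => (0 : ℝ))
    (l := []) trivial injective_id (by simp) y Finset.univ
  have e : ∀ a ∈ t, v a =ᶠ[U] fun i => max (v a i) 1 := fun a ha =>
    ((a1.big a ha).eventually_ge_atTop 1).mono fun i hi => (max_eq_left hi).symm
  refine ⟨t.length, fun ι _ => ?_⟩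
  obtain ⟨s, b1, b2, -, b4⟩ := Ord.reidx ι (fun a i => one_pos.trans_le (le_max_right _ _))
    (a1.congr e)
  refine ⟨s, b1, b2, fun x => ?_⟩
  obtain ⟨γ, c, hc⟩ := a6 x (Finset.mem_univ _)
  obtain ⟨γ', e'⟩ := b4 γ
  refine ⟨γ', c, hc.congr' ?_⟩
  filter_upwards [(eventually_all_finite t.finite_toSet).2 e] with i hi
  rw [← e']
  exact congrArg _ (Finset.sum_congr rfl fun a ha =>
    congrArg _ (hi a (List.mem_toFinset.1 ha)))

end Crest.Agent.N207.O.Sq

end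
private theorem rz_4228333627 : type_of% @_root_.Crest.Agent.N207.O.Sq.tl.eq_def := @_root_.Crest.Agent.N207.O.Sq.tl.eq_def -- L160
private theorem rz_75724dff92 : type_of% @_root_.Crest.Agent.N207.O.Sq.tl.eq_1 := @_root_.Crest.Agent.N207.O.Sq.tl.eq_1 -- L160
end

-- ▼ part N207/O/Ini1
section

/-!
# Row 207, block O (helper99): the initial tower, part 1: the data at the level of sequences
-/

set_option autoImplicit false
set_option linter.unusedSectionVars false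

open Set Filter Topology Function

noncomputable section

namespace Crest.Agent.N207.O.Ini

open Sq

variable {ι : Type} [Fintype ι] [DecidableEq ι] {α : Type} {U : Ultrafilter α}

theorem lv_congr {T T' : Tw ι} : ∀ {j : ℕ}, (∀ i ≤ j, T.B i = T'.B i) → T.lv j = T'.lv j
  | 0, h => by simp only [Tw.lv, h 0 le_rfl]
  | j + 1, h => by
    simp only [Tw.lv, h _ le_rfl, lv_congr fun i hi => h i (hi.trans j.le_succ)]

/-- a list with the right tied levels is the list of a tower -/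
theorem parse : ∀ (t : List (ι ⊕ ℕ)) (p : ℕ), t.filter Sum.isRight = tl ι p →
    ∃ B : ℕ → List ι, ∀ T : Tw ι, (∀ j ≤ p, T.B j = B j) → T.lv p = t
  | [], 0, _ => ⟨fun _ => [], fun T h => by simp [Tw.lv, h 0 le_rfl]⟩
  | [], p + 1, h => by simp [tl] at h
  | Sum.inl k :: t, p, h => by
    obtain ⟨B, hB⟩ := parse t p (by simpa using h)
    refine ⟨update B p (k :: B p), fun T hT => ?_⟩
    rw [← hB { T with B := B } fun _ _ => rfl]
    have e := hT p le_rfl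
    rw [update_self] at e
    cases p with
    | zero => simp [Tw.lv, e]
    | succ p =>
      have : T.lv p = Tw.lv { T with B := B } p := lv_congr fun i hi => by
        rw [hT i (by omega), update_of_ne (by omega)]
      simp [Tw.lv, e, this]
  | Sum.inr j :: t, 0, h => by simp [tl] at h
  | Sum.inr j :: t, p + 1, h => by
    obtain ⟨rfl, h'⟩ : j = p ∧ t.filter Sum.isRight = tl ι p := by simpa [tl] using h
    obtain ⟨B, hB⟩ := parse t j h'
    refine ⟨update B (j + 1) [], fun T hT => ?_⟩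
    have e := hT _ le_rfl
    rw [update_self] at e
    simp [Tw.lv, e, hB T fun i hi => by rw [hT i (by omega), update_of_ne (by omega)]]

theorem filter_tl : ∀ p, (tl ι p).filter Sum.isRight = tl ι p
  | 0 => rfl
  | p + 1 => by simp [tl, filter_tl p]

/-- the data of a tower at the level of sequences -/
structure SD (U : Ultrafilter α) (p : ℕ) (lv : ℕ → List (ι ⊕ ℕ)) (ρ c : ℕ → ι ⊕ ℕ → ℝ)
    (s : ι ⊕ ℕ → α → ℝ) (W : ℕ → α → ℝ) : Prop where
  ord : Ord U s (lv p)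
  ρ0 : ∀ j a, 0 ≤ ρ j a
  c0 : ∀ j a, 0 ≤ c j a
  ρs : ∀ j < p, ∀ a, a ∉ lv j → ρ j a = 0
  cs : ∀ j < p, ∀ a, a ∉ lv j → c j a = 0
  ρp : ∀ j < p, ∃ a ∈ lv j, 0 < ρ j a
  ρm : ∀ j j', j < j' → j' < p → (∀ a, ρ j a ≤ ρ j' a) ∧ ∃ a ∈ lv j', ρ j a < ρ j' a
  W0 : ∀ j i, 0 < W j i
  Ws : ∀ j < p, ∀ i, W j i = s (Sum.inr j) i + lin s (lv j) (c j) i
  Wl : ∀ j < p, ∃ u, Tendsto (fun i => Real.log (W j i) - lin s (lv j) (ρ j) i) U (𝓝 u)

/-- coefficients of `∑ g j W j` -/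
def cv (c : ℕ → ι ⊕ ℕ → ℝ) (J : ℕ) (g : ℕ → ℝ) (a : ι ⊕ ℕ) : ℝ :=
  ∑ j ∈ Finset.range (J + 1), g j * ((Pi.single (Sum.inr j) 1 : ι ⊕ ℕ → ℝ) a + c j a)

/-- the data of one length -/
structure LD (U : Ultrafilter α) (p : ℕ) (ρ c : ℕ → ι ⊕ ℕ → ℝ) (W : ℕ → α → ℝ) (y : α → ℝ)
    (J : ℕ) (g : ℕ → ℝ) (b : ℝ) : Prop where
  Jp : J < p
  g0 : 0 < g J
  lim : Tendsto (fun i => y i - ∑ j ∈ Finset.range (J + 1), g j * W j i) U (𝓝 b)
  dom : ∀ a, 4 * ρ J a ≤ cv c J g a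

section
variable {κ : Type*} [DecidableEq κ] {v : κ → α → ℝ} {t : List κ} {y z : α → ℝ} {a : κ}

theorem lin_single (ha : a ∈ t) (i : α) : lin v t (Pi.single a 1) i = v a i := by
  rw [lin, Finset.sum_eq_single a (fun b _ hb => by simp [Pi.single_eq_of_ne hb])
    fun h => absurd (List.mem_toFinset.2 ha) h]
  simp

theorem lin_cmul (r : ℝ) (γ : κ → ℝ) (i : α) : lin v t (fun a => r * γ a) i = r * lin v t γ i := by
  simp [lin, Finset.mul_sum, mul_assoc]

theorem rep_sub (h : Rep U v t y) (h' : Rep U v t z) (r : ℝ) : Rep U v t fun i => y i - r * z i := by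
  obtain ⟨γ, c, h⟩ := h
  obtain ⟨γ', c', h'⟩ := h'
  exact ⟨fun a => γ a - r * γ' a, _, (h.sub (h'.const_mul r)).congr fun i => by
    rw [lin_sub, lin_cmul]; ring⟩

theorem rep_lin (γ : κ → ℝ) : Rep U v t (lin v t γ) := ⟨γ, 0, by simp⟩

theorem restr (v : κ → α → ℝ) (δ : κ → ℝ) (h : ∀ a ∈ t, 0 ≤ δ a) : ∃ δ' : κ → ℝ,
    (∀ a, 0 ≤ δ' a) ∧ (∀ a ∉ t, δ' a = 0) ∧ ∀ i, lin v t δ i = lin v t δ' i :=
  ⟨fun a => if a ∈ t then δ a else 0, fun a => by
    dsimp only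
    split_ifs with ha
    exacts [h a ha, le_rfl], fun a ha => if_neg ha, fun i => (lin_ite (List.Subset.refl t) i).symm⟩

theorem exists_pos {γ : κ → ℝ} {c : ℝ} (hy : Tendsto y U atTop)
    (h : Tendsto (fun i => y i - lin v t γ i) U (𝓝 c)) (h0 : ∀ a, 0 ≤ γ a) : ∃ a, 0 < γ a := by
  by_contra! hn
  simp only [lin_zero fun a _ => (hn a).antisymm (h0 a), sub_zero] at h
  exact not_tendsto_atTop_of_tendsto_nhds h hy
end

theorem log_div {W : α → ℝ} (h : Tendsto W U atTop) :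
    Tendsto (fun i => Real.log (W i) / W i) U (𝓝 0) := by
  simpa [comp_def] using (Real.tendsto_pow_log_div_mul_add_atTop 1 0 1 one_ne_zero).comp h

theorem log_sub {W V : α → ℝ} (hW : ∀ i, 0 < W i) (hV : ∀ i, 0 < V i)
    (h : Tendsto (fun i => V i / W i) U (𝓝 0)) :
    Tendsto (fun i => Real.log (W i) - 1 * Real.log (V i)) U atTop :=
  (tendsto_neg_atBot_atTop.comp (Real.tendsto_log_nhdsGT_zero.comp (tendsto_nhdsWithin_iff.2
    ⟨h, Eventually.of_forall fun i => div_pos (hV i) (hW i)⟩))).congr fun i => by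
    simp [Real.log_div (hV i).ne' (hW i).ne']

theorem data {m : ℕ} {L : Fin m → α → ℝ} (hL : ∀ e, Tendsto (L e) U atTop) : ∃ p : ℕ,
    ∀ (ι : Type) [Fintype ι] [DecidableEq ι] (fr : Fin p → ι), Injective fr →
    ∃ (B : ℕ → List ι) (ρ c : ℕ → ι ⊕ ℕ → ℝ) (s : ι ⊕ ℕ → α → ℝ) (W : ℕ → α → ℝ),
      ∀ T : Tw ι, T.B = B → SD U p T.lv ρ c s W ∧ (∀ k, Sum.inl k ∈ T.lv p → k ∈ range fr) ∧
        ∀ e, ∃ J g b, LD U p ρ c W (L e) J g b := by
  obtain ⟨p, hp⟩ := exists_classes U L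
  refine ⟨p, fun ι _ _ fr hfr => ?_⟩
  obtain ⟨v₀, o₀, pos, rL⟩ := hp ι
  set W : ℕ → α → ℝ := fun j => v₀ (Sum.inr j) with hW
  have mj : ∀ j < p, (Sum.inr j : ι ⊕ ℕ) ∈ tl ι p := fun j hj => mem_tl.2 ⟨j, hj, rfl⟩
  have Wt : ∀ j < p, Tendsto (W j) U atTop := fun j hj => o₀.big _ (mj j hj)
  obtain ⟨v, t, o, ev, st, mt, ft, rw'⟩ := o₀.insMany (f := fun j : Fin p => Sum.inl (fr j))
    (Sum.inl_injective.comp hfr) (by simp [mem_tl]) (fun j i => Real.log (W j i)) Finset.univ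
  have rw : ∀ j < p, Rep U v t fun i => Real.log (W j i) := fun j hj =>
    rw' ⟨j, hj⟩ (Finset.mem_univ _)
  obtain ⟨B, hB⟩ := parse t p ((ft _ fun _ => rfl).trans (filter_tl p))
  choose γ b hb using rL
  choose J J1 J2 J3 J4 using fun e => o₀.tl_top (γ := γ e)
    (((hL e).atTop_add (hb e).neg).congr fun i => by ring)
  have yt : ∀ e, Tendsto (fun i => lin v₀ (tl ι p) (γ e) i - 4 * Real.log (W (J e) i)) U atTop :=
    fun e => by
      have := (Ord.lin_div (γ := γ e) (J4 e)).sub ((log_div (Wt _ (J1 e))).const_mul 4)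
      rw [mul_zero, sub_zero] at this
      exact top_of_div (Wt _ (J1 e)) (this.congr fun i => by rw [J3 e, tl]; ring) (J2 e)
  obtain ⟨s, os, rs, tr, ps⟩ := o.rn2 (β := (Fin p × Fin p) ⊕ Fin p ⊕ Fin m) (Sum.elim
    (fun q i => Real.log (W q.2 i) - (if q.1 < q.2 then 1 else 0) * Real.log (W q.1 i))
    (Sum.elim (fun j => W j) fun e i => lin v₀ (tl ι p) (γ e) i - 4 * Real.log (W (J e) i)))
    (by
      rintro (q | j | e)
      · exact rep_sub (rw _ q.2.2) (rw _ q.1.2) _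
      · exact Rep.mono ⟨Pi.single (Sum.inr j) 1, 0, by simp [lin_single (mj j j.2), hW]⟩ st ev
      · exact rep_sub ((rep_lin _).mono st ev) (rw _ (J1 e)) 4)
    (by
      rintro (q | j | e)
      · by_cases c : q.1 < q.2
        · simp only [Sum.elim_inl, if_pos c]
          exact log_sub (pos _) (pos _) (o₀.tl_lt c q.2.2)
        · simp only [Sum.elim_inl, if_neg c, zero_mul, sub_zero]
          exact Real.tendsto_log_atTop.comp (Wt _ q.2.2)
      · exact Wt _ j.2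
      · exact yt e)
  have Wr : ∀ j < p, Tendsto (fun i => W j i / s (Sum.inr j) i) U (𝓝 1) := fun j hj =>
    ratio_small (Wt j hj) (by simpa only [ev _ (mj j hj)] using rs _ (st (mj j hj)))
      (div_self' (Wt j hj))
  have e1 : ∀ j, ∃ (ρ : ι ⊕ ℕ → ℝ) (u : ℝ), (∀ a, 0 ≤ ρ a) ∧ (j < p → (∀ a ∉ t, ρ a = 0) ∧
      Tendsto (fun i => Real.log (W j i) - lin s t ρ i) U (𝓝 u)) := fun j => by
    by_cases hj : j < p
    · obtain ⟨δ, u, h⟩ := rw j hj
      obtain ⟨δ', e⟩ := tr δ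
      simp only [e] at h
      obtain ⟨ρ, a1, a2, a3⟩ := restr s δ' (ps (Sum.inl (⟨j, hj⟩, ⟨j, hj⟩)) δ' u (by simpa using h))
      exact ⟨ρ, u, a1, fun _ => ⟨a2, by simpa only [a3] using h⟩⟩
    · exact ⟨0, 0, fun _ => le_rfl, fun h => absurd h hj⟩
  have e2 : ∀ j, ∃ c : ι ⊕ ℕ → ℝ, (∀ a, 0 ≤ c a) ∧ (j < p → (∀ a ∉ t, c a = 0) ∧
      ∀ i, W j i = lin s t c i) := fun j => by
    by_cases hj : j < p
    · obtain ⟨δ', e⟩ := tr (Pi.single (Sum.inr j) 1)
      simp only [lin_single (st (mj j hj)), ev _ (mj j hj)] at e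
      obtain ⟨ρ, a1, a2, a3⟩ := restr s δ' (ps (Sum.inr (Sum.inl ⟨j, hj⟩)) δ' 0 (by simp [hW, e]))
      exact ⟨ρ, a1, fun _ => ⟨a2, fun i => (e i).trans (a3 i)⟩⟩
    · exact ⟨0, fun _ => le_rfl, fun h => absurd h hj⟩
  choose ρ u ρ0 hρ using e1
  choose c c0 hc using e2
  refine ⟨B, ρ, fun j => update (c j) (Sum.inr j) 0, s, W, fun T hT => ?_⟩
  have et : T.lv p = t := hB T fun j _ => by rw [hT]
  have sf : ∀ j < p, Sum.inr j :: T.lv j <:+ t := fun j hj => et ▸ Tw.inr_lv_suffix hj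
  have nm : ∀ j, Sum.inr j ∉ T.lv j := fun j h => lt_irrefl _ (Tw.inr_mem_lv.1 h)
  have ρs : ∀ j < p, ∀ a, a ∉ T.lv j → ρ j a = 0 := fun j hj a ha => by
    have k := os.supp (sf j hj) (hρ j hj).2 (g := 0)
      (by simpa using div_trans (Wt j hj) (log_div (Wt j hj)) (Wr j hj))
    by_cases h1 : a ∈ t
    · by_cases h2 : a = Sum.inr j
      · rw [h2]; exact k.2
      · exact k.1 a h1 (by simp [h2, ha])
    · exact (hρ j hj).1 a h1
  have k2 : ∀ j < p, (∀ a, a ∉ Sum.inr j :: T.lv j → c j a = 0) ∧ c j (Sum.inr j) = 1 :=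
    fun j hj => by
      have k := os.supp (sf j hj) (y := W j) (γ := c j) (c := 0) (by simp [(hc j hj).2]) (Wr j hj)
      exact ⟨fun a ha => by_cases (fun h1 => k.1 a h1 ha) ((hc j hj).1 a), k.2⟩
  have k3 : ∀ j < p, ∀ a, (Pi.single (Sum.inr j) 1 : ι ⊕ ℕ → ℝ) a +
      update (c j) (Sum.inr j) 0 a = c j a := fun j hj a => by
    by_cases h : a = Sum.inr j
    · simp [h, (k2 j hj).2]
    · simp [h]
  refine ⟨⟨et ▸ os, ρ0, fun j a => ?_, ρs, fun j hj a ha => ?_, fun j hj => ?_,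
    fun j j' h hj => ?_, fun j => pos _, fun j hj i => ?_, fun j hj => ⟨u j, ?_⟩⟩,
    fun k hk => ?_, fun e => ⟨J e, fun j => γ e (Sum.inr j), b e, J1 e, J2 e, ?_, fun a => ?_⟩⟩
  · by_cases h : a = Sum.inr j
    · simp [h]
    · simp [h, c0]
  · by_cases h : a = Sum.inr j
    · simp [h]
    · rw [update_of_ne h]; exact (k2 j hj).1 a (by simp [h, ha])
  · obtain ⟨a, ha⟩ := exists_pos (Real.tendsto_log_atTop.comp (Wt j hj)) (hρ j hj).2 (ρ0 j)
    exact ⟨a, by_contra fun hn => ha.ne' (ρs j hj a hn), ha⟩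
  · have hj0 := h.trans hj
    have k : Tendsto (fun i => Real.log (W j' i) - 1 * Real.log (W j i) -
        lin s t (fun a => ρ j' a - ρ j a) i) U (𝓝 (u j' - u j)) :=
      ((hρ j' hj).2.sub (hρ j hj0).2).congr fun i => by rw [lin_sub]; ring
    have k1 : ∀ a, 0 ≤ ρ j' a - ρ j a := fun a => by
      by_cases ha : a ∈ t
      · exact ps (Sum.inl (⟨j, hj0⟩, ⟨j', hj⟩)) _ _ (by simpa [h] using k) a ha
      · rw [(hρ j hj0).1 a ha, (hρ j' hj).1 a ha, sub_zero]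
    obtain ⟨a, ha⟩ := exists_pos (log_sub (pos _) (pos _) (o₀.tl_lt h hj)) k k1
    exact ⟨fun a => sub_nonneg.1 (k1 a), a, by_contra fun hn => by
      rw [ρs j' hj a hn] at ha; linarith [ρ0 j a], sub_pos.1 ha⟩
  · rw [(hc j hj).2, lin_subset (sf j hj).subset fun a _ => (k2 j hj).1 a, lin_cons (nm j),
      (k2 j hj).2, one_mul]
    exact congrArg _ (lin_congr (fun a ha =>
      (update_of_ne (ne_of_mem_of_not_mem ha (nm j)) _ _).symm) (fun _ _ => rfl) i)
  · simpa only [lin_subset (suffix_tail (sf j hj)).subset fun a _ => ρs j hj a] using (hρ j hj).2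
  · rcases mt _ (et ▸ hk) with h | ⟨j, -, h⟩
    · simp [mem_tl] at h
    · exact ⟨j, (Sum.inl.inj h).symm⟩
  · exact (hb e).congr fun i => by rw [J3 e, lin_tl]
  · have e3 : cv (fun j => update (c j) (Sum.inr j) 0) (J e) (fun j => γ e (Sum.inr j)) =
        fun a => ∑ j ∈ Finset.range (J e + 1), γ e (Sum.inr j) * c j a := funext fun a =>
      Finset.sum_congr rfl fun j hj => by
        rw [k3 j (by have := Finset.mem_range.1 hj; have := J1 e; omega)]
    rw [e3]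
    by_cases ha : a ∈ t
    · refine sub_nonneg.1 (ps (Sum.inr (Sum.inr e)) (fun a => ∑ j ∈ Finset.range (J e + 1),
        γ e (Sum.inr j) * c j a - 4 * ρ (J e) a) _ ((((hρ _ (J1 e)).2).const_mul (-4)).congr
          fun i => ?_) a ha)
      have : lin s t (fun a => ∑ j ∈ Finset.range (J e + 1), γ e (Sum.inr j) * c j a) i =
          lin v₀ (tl ι p) (γ e) i := by
        rw [J3 e, lin_tl, lin]
        simp only [Finset.sum_mul]
        rw [Finset.sum_comm]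
        refine Finset.sum_congr rfl fun j hj => ?_
        have := (hc j (by have := Finset.mem_range.1 hj; have := J1 e; omega)).2 i
        simp only [hW] at this
        rw [this, lin, Finset.mul_sum]
        simp only [mul_assoc]
      simp only [Sum.elim_inr]
      rw [lin_sub, lin_cmul, this]; ring
    · rw [(hρ _ (J1 e)).1 a ha, mul_zero]
      exact Finset.sum_nonneg fun j hj => by
        rw [(hc j (by have := Finset.mem_range.1 hj; have := J1 e; omega)).1 a ha, mul_zero]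

end Crest.Agent.N207.O.Ini

end
end

-- ▼ part N207/O/Ini2
section

/-!
# Row 207, block O (helper99): the initial tower, part 2: Dulac series of a length
-/

set_option autoImplicit false
set_option linter.unusedSectionVars false

open Set Filter Topology Function

noncomputable section

namespace Crest.Agent.N207.O.Ini

variable {ι : Type} [Fintype ι] [DecidableEq ι] {T : Tw ι} {l l' : List (ι ⊕ ℕ)}
  {γ γ' : ι ⊕ ℕ → ℝ}

/-- a positive combination of points of `Om R` lies in `J.Om C` -/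
theorem om {κ : Type*} (S : Finset κ) {γ : κ → ℝ} (hγ : ∀ a ∈ S, 0 ≤ γ a) {a₀ : κ} (h0 : a₀ ∈ S)
    (hp : 0 < γ a₀) (B C : ℝ) : ∃ R₀ : ℝ, ∀ R ≥ R₀, ∀ (w : κ → ℂ) (b : ℂ),
      (∀ a ∈ S, w a ∈ Om R) → ‖b‖ ≤ B → ∑ a ∈ S, (γ a : ℂ) * w a + b ∈ J.Om C := by
  set G := ∑ a ∈ S, γ a
  have G0 : 0 ≤ G := Finset.sum_nonneg hγ
  set K := Real.log (1 + G + |B|)
  have K0 : 0 ≤ K := Real.log_nonneg (by linarith [abs_nonneg B])
  set δ := 1 / (2 * (|C| + 1)) with hδ
  have δ0 : 0 < δ := by positivity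
  have ev : ∀ᶠ R : ℝ in atTop, 0 < R ∧ 2 * ((|C| + 1) * (1 + K) + B) ≤ γ a₀ * R ∧
      ∀ a ∈ S, 0 < γ a → 1 ≤ δ * γ a * R := by
    refine (eventually_gt_atTop 0).and (((tendsto_id.const_mul_atTop hp).eventually_ge_atTop _).and
      ((eventually_all_finset S).2 fun a _ => ?_))
    by_cases c : 0 < γ a
    · exact ((tendsto_id.const_mul_atTop (mul_pos δ0 c)).eventually_ge_atTop 1).mono
        fun _ h _ => h
    · simp [c]
  obtain ⟨R₀, hR⟩ := eventually_atTop.1 ev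
  refine ⟨R₀, fun R hR₀ w b hw hb => ?_⟩
  obtain ⟨R0, R1, R2⟩ := hR R hR₀
  set y := ∑ a ∈ S, γ a * (w a).re
  have y1 : ∀ a ∈ S, γ a * (w a).re ≤ y := fun a ha => Finset.single_le_sum
    (f := fun a => γ a * (w a).re) (fun a ha => mul_nonneg (hγ a ha) (R0.trans (hw a ha).1).le) ha
  have y2 : γ a₀ * R < y := (mul_lt_mul_of_pos_left (hw a₀ h0).1 hp).trans_le (y1 a₀ h0)
  have y0 : 0 < y := (mul_pos hp R0).trans y2
  have e1 : 1 ≤ Real.exp (δ * y) := Real.one_le_exp (by positivity)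
  have n1 : ∀ a ∈ S, ‖(γ a : ℂ) * w a‖ ≤ γ a * Real.exp (δ * y) := fun a ha => by
    rw [norm_mul, Complex.norm_real, Real.norm_eq_abs, abs_of_nonneg (hγ a ha)]
    rcases (hγ a ha).eq_or_lt with c | c
    · simp [← c]
    · refine mul_le_mul_of_nonneg_left ((Real.le_exp_log _).trans (Real.exp_le_exp.2 ?_)) c.le
      have a1 := (hw a ha).2
      have a2 := R0.trans (hw a ha).1
      have a3 := mul_le_mul_of_nonneg_right (R2 a ha c) a2.le
      have a4 := mul_le_mul_of_nonneg_left (y1 a ha) (mul_pos δ0 R0).le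
      exact le_of_mul_le_mul_left (by nlinarith) R0
  have n2 : 1 + ‖∑ a ∈ S, (γ a : ℂ) * w a + b‖ ≤ (1 + G + |B|) * Real.exp (δ * y) := by
    have := (norm_add_le _ b).trans (add_le_add ((norm_sum_le _ _).trans (Finset.sum_le_sum n1))
      (hb.trans (le_abs_self B)))
    rw [← Finset.sum_mul] at this
    nlinarith [abs_nonneg B]
  have n3 : Real.log (1 + ‖∑ a ∈ S, (γ a : ℂ) * w a + b‖) ≤ K + δ * y := by
    refine (Real.log_le_log (by positivity) n2).trans_eq ?_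
    rw [Real.log_mul (by positivity) (Real.exp_ne_zero _), Real.log_exp]
  have n4 : 0 ≤ Real.log (1 + ‖∑ a ∈ S, (γ a : ℂ) * w a + b‖) :=
    Real.log_nonneg (le_add_of_nonneg_right (norm_nonneg _))
  have n5 : (∑ a ∈ S, (γ a : ℂ) * w a + b).re = y + b.re := by simp [y]
  have n6 := (abs_le.1 ((Complex.abs_re_le_norm b).trans hb)).1
  have n7 : (|C| + 1) * (δ * y) = y / 2 := by rw [hδ]; field_simp
  show C * _ < _
  rw [n5]
  nlinarith [le_abs_self C, mul_le_mul_of_nonneg_left n3 (show 0 ≤ |C| + 1 by positivity)]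

theorem clin_subset (h : l ⊆ l') (h0 : ∀ a, a ∉ l → γ a = 0) (x : ι → ℂ) :
    T.lin l' γ x = T.lin l γ x :=
  (Finset.sum_subset (fun a ha => List.mem_toFinset.2 (h (List.mem_toFinset.1 ha)))
    fun a _ hn => by rw [h0 a (by simpa using hn)]; simp).symm

theorem clin_comb (r r' : ℝ) (x : ι → ℂ) :
    T.lin l (fun a => r * γ a - r' * γ' a) x = r * T.lin l γ x - r' * T.lin l γ' x := by
  simp [Tw.lin, Finset.mul_sum, sub_mul, mul_assoc]

theorem A_exp {X κ : Type*} [NormedAddCommGroup X] [NormedSpace ℂ X] {F : Fr X κ} {b : X → ℂ}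
    (h : F.A [] b) (z : ℂ) : F.A [] fun x => Complex.exp (z * b x) := by
  obtain ⟨h1, C, hC⟩ := h
  refine ⟨(h1.const_mul z).cexp, Real.exp (‖z‖ * C), fun x hx => ?_⟩
  rw [Complex.norm_exp]
  refine Real.exp_le_exp.2 ((Complex.re_le_norm _).trans ?_)
  rw [norm_mul]
  exact mul_le_mul_of_nonneg_left (hC x hx) (norm_nonneg _)

/-- a length on the tower -/
def Lam (T : Tw ι) (J : ℕ) (g : ℕ → ℝ) (b : (ι → ℂ) → ℂ) (x : ι → ℂ) : ℂ :=
  ∑ j ∈ Finset.range (J + 1), (g j : ℂ) * Complex.exp (T.E j x) + b x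

/-- hypotheses on the length -/
structure LT (T : Tw ι) (J : ℕ) (g : ℕ → ℝ) (b : (ι → ℂ) → ℂ) : Prop where
  wf : T.WF
  cs : ∀ j < T.p, ∀ a, a ∉ T.lv j → T.c j a = 0
  uA : ∀ j < T.p, T.fr.A [] (T.u j)
  bA : T.fr.A [] b
  Jp : J < T.p
  g0 : 0 < g J
  dom : ∀ a, 4 * T.ρ J a ≤ cv T.c J g a

namespace LT

variable {J : ℕ} {g : ℕ → ℝ} {b : (ι → ℂ) → ℂ} (h : LT T J g b)
include h

theorem sf : Sum.inr J :: T.lv J <:+ T.top := Tw.inr_lv_suffix h.Jp

theorem cv0 (a : ι ⊕ ℕ) : 0 ≤ cv T.c J g a := le_trans (by linarith [h.wf.ρ0 J a]) (h.dom a)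

theorem cv_top : cv T.c J g (Sum.inr J) = g J := by
  rw [cv, Finset.sum_range_succ, Finset.sum_eq_zero fun j hj => ?_,
    h.cs J h.Jp _ (by simp [Tw.inr_mem_lv])]
  · simp
  · have := Finset.mem_range.1 hj
    rw [h.cs j (this.trans h.Jp) _ (by simp [Tw.inr_mem_lv, this.le])]
    simp [this.ne']

theorem lam_lin (hl : Sum.inr J :: T.lv J <:+ l) {x : ι → ℂ} (hx : x ∈ T.D l) :
    Lam T J g b x = T.lin l (cv T.c J g) x + b x := by
  unfold Lam
  congr 1
  simp only [Tw.lin, cv, Complex.ofReal_sum, Finset.sum_mul]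
  rw [Finset.sum_comm]
  refine Finset.sum_congr rfl fun j hj => ?_
  have hj' : j ≤ J := Nat.lt_succ_iff.1 (Finset.mem_range.1 hj)
  have jp := hj'.trans_lt h.Jp
  have s1 : T.lv j <:+ l := (Tw.lv_suffix hj').trans (suffix_tail hl)
  have m1 : Sum.inr j ∈ l := hl.subset (by
    rcases hj'.eq_or_lt with e | e
    · simp [e]
    · simp [Tw.inr_mem_lv, e])
  have e := h.wf.sL j jp x (Tw.D_suffix s1 hx)
  rw [← clin_subset s1.subset (h.cs j jp), eq_sub_iff_add_eq] at e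
  rw [← e, Tw.lin]
  simp only [Complex.ofReal_mul, Complex.ofReal_add, mul_assoc, add_mul, ← Finset.mul_sum,
    Finset.sum_add_distrib]
  congr 2
  rw [Finset.sum_eq_single (Sum.inr j) (fun b _ hb => by simp [Pi.single_eq_of_ne hb])
    fun h => absurd (List.mem_toFinset.2 m1) h]
  simp

theorem unit : ∃ k : (ι → ℂ) → ℂ, T.fr.A (T.lv J) k ∧
    ∀ x, Lam T J g b x = Complex.exp (T.lin (T.lv J) (T.ρ J) x) * k x := by
  have sJ := suffix_tail h.sf
  have ok := T1_ok h.wf sJ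
  refine ⟨fun x => ∑ j ∈ Finset.range (J + 1), (g j : ℂ) * (Complex.exp (-T.lin (T.lv J)
    (fun a => (1 : ℝ) * T.ρ J a - (1 : ℝ) * T.ρ j a) x) * Complex.exp (1 * T.u j x)) +
    Complex.exp (-T.lin (T.lv J) (T.ρ J) x) * b x, Fr.Cl.add ok (Fr.Cl.sum ok _ fun j hj => ?_)
      ((T7_mon h.wf sJ (h.wf.ρ0 J)).mul ok (A4_lift ok List.nil_suffix h.bA)), fun x => ?_⟩
  · have hj' : j ≤ J := Nat.lt_succ_iff.1 (Finset.mem_range.1 hj)
    refine Fr.Cl.const_mul _ ((T7_mon h.wf sJ fun a => ?_).mul ok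
      (A4_lift ok List.nil_suffix (A_exp (h.uA j (hj'.trans_lt h.Jp)) 1)))
    rcases hj'.eq_or_lt with e | e
    · simp [e]
    · linarith [(h.wf.ρm j J e h.Jp).1 a]
  · rw [mul_add, ← mul_assoc, ← Complex.exp_add, add_neg_cancel, Complex.exp_zero, one_mul,
      Finset.mul_sum, Lam]
    congr 1
    refine Finset.sum_congr rfl fun j hj => ?_
    have hj' : j ≤ J := Nat.lt_succ_iff.1 (Finset.mem_range.1 hj)
    rw [clin_comb, clin_subset (Tw.lv_suffix hj').subset (h.wf.ρs j (hj'.trans_lt h.Jp)),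
      mul_left_comm, ← Complex.exp_add, ← Complex.exp_add, Tw.E]
    congr 2
    push_cast; ring

theorem mon {q j : ℕ} (hj : j ≤ 2 * q) :
    T.fr.Cl (Sum.inr J :: T.lv J) (q * g J / 2) fun x => N207.J.mon q j (Lam T J g b x) := by
  obtain ⟨k, k1, k2⟩ := h.unit
  have ok := T1_ok h.wf h.sf
  have a1 := T7_mon h.wf (suffix_tail h.sf) (γ := fun a => q / 2 * cv T.c J g a - j * T.ρ J a)
    fun a => by
      have : (j : ℝ) ≤ 2 * q := by exact_mod_cast hj
      nlinarith [h.dom a, h.wf.ρ0 J a, mul_le_mul_of_nonneg_left (h.dom a) (Nat.cast_nonneg q)]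
  have a2 := ((a1.mul ok.1 (A4_lift ok.1 List.nil_suffix (A_exp h.bA (-(q : ℂ) / 2)))).mul ok.1
    (k1.pow ok.1 j)).up ok
  refine A2_congr (A5_ex ok (t := q * g J / 2) (by have := h.g0; positivity) a2) fun x hx => ?_
  have e := h.lam_lin List.suffix_rfl hx
  rw [Tw.lin_cons (h.wf.not_mem h.sf), h.cv_top] at e
  simp only [N207.J.mon, Fr.ex, smul_eq_mul, clin_comb]
  conv_rhs => rw [k2 x, mul_pow, ← k2 x, e, ← Complex.exp_nat_mul]
  simp only [← mul_assoc, ← Complex.exp_add]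
  congr 2
  simp only [Tw.fr]
  push_cast; ring

theorem re_ge : ∃ B : ℝ, ∀ x ∈ T.D (Sum.inr J :: T.lv J),
    g J * (T.s (Sum.inr J) x).re - B ≤ (Lam T J g b x).re := by
  obtain ⟨B, hB⟩ := h.bA.2
  refine ⟨B, fun x hx => ?_⟩
  rw [h.lam_lin List.suffix_rfl hx, Tw.lin_cons (h.wf.not_mem h.sf), h.cv_top, Complex.add_re,
    Complex.add_re, Complex.re_ofReal_mul, Tw.re_lin]
  have : 0 ≤ ∑ a ∈ (T.lv J).toFinset, cv T.c J g a * (T.s a x).re :=
    Finset.sum_nonneg fun a ha => mul_nonneg (h.cv0 a) (by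
      linarith [h.wf.R1, (Tw.D_cst hx (List.mem_cons_of_mem _ (List.mem_toFinset.1 ha))).1.1])
  linarith [(abs_le.1 ((Complex.abs_re_le_norm _).trans
    (hB x (Tw.D_suffix List.nil_suffix hx)))).1]

theorem st {C : ℝ} (hm : MapsTo (Lam T J g b) (T.D (Sum.inr J :: T.lv J)) (N207.J.Om C)) {E : Type}
    [NormedAddCommGroup E] [NormedSpace ℂ E] {N : ℂ → E} {c : ℕ → ℕ → E} (hN : N207.J.Dul C N c) :
    T.fr.St T.top (fun x => N (Lam T J g b x)) fun _ => c 0 0 := by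
  have ok := T1_ok h.wf h.sf
  have g0 := h.g0
  obtain ⟨B, hB⟩ := h.re_ge
  have dL : DifferentiableOn ℂ (Lam T J g b) (T.D (Sum.inr J :: T.lv J)) :=
    ((Tw.diff_lin (fun _ ha => ok.diff_mem ha) _).add
      (h.bA.1.mono (Tw.D_suffix List.nil_suffix))).congr fun x hx => h.lam_lin List.suffix_rfl hx
  have a1 : T.fr.A (Sum.inr J :: T.lv J) fun x =>
      T.fr.ex (Sum.inr J) (-(g J / 2)) x • (N (Lam T J g b x) - c 0 0) := by
    refine A6_series ok (β := fun q => -(g J / 2) + ((q + 1 : ℕ) : ℝ) * g J / 2)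
      (T := fun q x => T.fr.ex (Sum.inr J) (-(g J / 2)) x • ∑ j ∈ Finset.range (2 * (q + 1) + 1),
        N207.J.mon (q + 1) j (Lam T J g b x) • c (q + 1) j) (fun q => by
          push_cast; nlinarith [mul_nonneg (Nat.cast_nonneg (α := ℝ) q) g0.le]) ?_
      (fun q => Fr.Cl.ex_smul ok _ (Fr.Cl.sum ok _ fun j hj => A3_clm
        (ContinuousLinearMap.toSpanSingleton ℂ (c (q + 1) j))
        (h.mon (Nat.lt_succ_iff.1 (Finset.mem_range.1 hj)))))
      ((ok.diff_ex _).smul ((hN.diff.comp dL hm).sub_const _)) fun K => ?_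
    · exact tendsto_atTop_add_const_left _ _ (((tendsto_natCast_atTop_atTop.comp
        (tendsto_add_atTop_nat 1)).atTop_mul_const g0).atTop_div_const two_pos)
    · obtain ⟨N₀, hN₀⟩ := exists_nat_ge (4 * K / g J + 2)
      refine ⟨N₀, fun n hn => ?_⟩
      obtain ⟨A, hA⟩ := hN.est (n + 1)
      refine ⟨|A| * Real.exp ((n + 1) * B / 4), fun x hx => ?_⟩
      have e := (hA _ (hm hx)).trans (mul_le_mul_of_nonneg_right (le_abs_self A) (Real.exp_pos _).le)
      rw [N207.J.psum, Finset.sum_range_succ'] at e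
      simp only [mul_zero, zero_add, Finset.range_one, Finset.sum_singleton, N207.J.mon_zero,
        one_smul] at e
      rw [← Finset.smul_sum, ← smul_sub, norm_smul, Fr.norm_ex, sub_sub, add_comm (c 0 0)]
      refine (mul_le_mul_of_nonneg_left e (Real.exp_pos _).le).trans ?_
      rw [mul_left_comm, mul_assoc, ← Real.exp_add, ← Real.exp_add]
      refine mul_le_mul_of_nonneg_left (Real.exp_le_exp.2 ?_) (abs_nonneg _)
      have r0 := ok.re hx
      have r1 := hB x hx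
      have n1 : 4 * K / g J + 2 ≤ n := hN₀.trans (by exact_mod_cast hn)
      rw [← le_sub_iff_add_le, div_le_iff₀ g0] at n1
      have n0 : (0 : ℝ) ≤ n + 1 := by positivity
      simp only [Tw.fr] at r0 ⊢
      push_cast
      nlinarith [mul_le_mul_of_nonneg_left r1 n0, mul_le_mul_of_nonneg_right n1 r0,
        mul_nonneg g0.le r0]
  have e : ∀ x, N (Lam T J g b x) = c 0 0 + T.fr.ex (Sum.inr J) (g J / 2) x •
      T.fr.ex (Sum.inr J) (-(g J / 2)) x • (N (Lam T J g b x) - c 0 0) := fun x => by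
    rw [smul_smul, ← Fr.ex_add, add_neg_cancel, Fr.ex_zero, one_smul, add_sub_cancel]
  refine Fr.St.lift (T1_ok h.wf List.suffix_rfl) h.sf ⟨A2_congr (Fr.Cl.add ok (Fr.Cl.const ok _)
    (A3_mono (A5_ex ok (half_pos g0).le a1) (half_pos g0).le)) fun x _ => (e x).symm,
    fun _ => c 0 0, _, g J / 2, half_pos g0, Fr.St.of_nil ok.1 (Fr.Cl.const (l := []) ?_ _), a1,
    fun x _ => e x⟩
  exact ok.suffix List.nil_suffix

end LT

end Crest.Agent.N207.O.Ini

end
end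

-- ▼ part N207/O/Ini3
section

/-!
# Row 207, block O (helper99): the initial tower `I1_ini`
-/

set_option autoImplicit false
set_option linter.unusedSectionVars false

open Set Filter Topology Function

noncomputable section

namespace Crest.Agent.N207.O

namespace Ini

variable {ι : Type} [Fintype ι] [DecidableEq ι] {T : Tw ι}

theorem exists_s (T : Tw ι) (u : ℕ → (ι → ℂ) → ℂ) : ∀ p : ℕ, ∃ s : ι ⊕ ℕ → (ι → ℂ) → ℂ,
    (∀ k x, s (Sum.inl k) x = x k) ∧ ∀ j < p, ∀ x, s (Sum.inr j) x =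
      Complex.exp (∑ a ∈ (T.lv j).toFinset, (T.ρ j a : ℂ) * s a x + u j x) -
        ∑ a ∈ (T.lv j).toFinset, (T.c j a : ℂ) * s a x
  | 0 => ⟨Sum.elim (fun k x => x k) 0, fun _ _ => rfl, by simp⟩
  | p + 1 => by
    obtain ⟨s, h1, h2⟩ := exists_s T u p
    set f : (ι → ℂ) → ℂ := fun x =>
      Complex.exp (∑ a ∈ (T.lv p).toFinset, (T.ρ p a : ℂ) * s a x + u p x) -
        ∑ a ∈ (T.lv p).toFinset, (T.c p a : ℂ) * s a x
    have e : ∀ j < p + 1, ∀ (γ : ι ⊕ ℕ → ℝ) x, ∑ a ∈ (T.lv j).toFinset,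
        (γ a : ℂ) * update s (Sum.inr p) f a x = ∑ a ∈ (T.lv j).toFinset, (γ a : ℂ) * s a x :=
      fun j hj γ x => Finset.sum_congr rfl fun a ha => by
        rw [update_of_ne]
        rintro rfl
        have := Tw.inr_mem_lv.1 (List.mem_toFinset.1 ha)
        omega
    refine ⟨update s (Sum.inr p) f, fun k x => by rw [update_of_ne (by simp), h1], fun j hj x => ?_⟩
    rw [e j hj, e j hj]
    rcases Nat.lt_succ_iff_lt_or_eq.1 hj with c | rfl
    · rw [update_of_ne (by simp [c.ne]), h2 j c]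
    · rw [update_self]

theorem ind_lv {P : ι ⊕ ℕ → Prop} {n : ℕ} (h1 : ∀ k, Sum.inl k ∈ T.lv n → P (Sum.inl k))
    (h2 : ∀ j < n, (∀ a ∈ T.lv j, P a) → P (Sum.inr j)) : ∀ a ∈ T.lv n, P a := by
  have key : ∀ j, j ≤ n → ∀ a ∈ T.lv j, P a := fun j => by
    induction j using Nat.strong_induction_on with
    | _ j ih =>
      rintro hj (k | i) ha
      · exact h1 k ((Tw.lv_suffix hj).subset ha)
      · have := Tw.inr_mem_lv.1 ha
        exact h2 i (by omega) (ih i this (by omega))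
  exact key n le_rfl

theorem A_ent : ∀ {l : List (ι ⊕ ℕ)} {g : (ι → ℂ) → ℂ}, Differentiable ℂ g →
    Bd (T.D []) g → T.fr.A l g
  | [], _, h, hb => ⟨h.differentiableOn, hb⟩
  | a :: l, g, h, hb => ⟨h.differentiableOn, fun t => if t = 0 then g else 0, fun t => by
      dsimp only
      split_ifs
      exacts [A_ent h hb, Fr.Cl.zero], fun t ht => if_neg ht.ne,
      fun K => ⟨{0}, 0, fun t _ ht => if_neg (by simpa using ht), fun x _ => by
        simp [Fr.ex_zero]⟩⟩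

theorem A_coord {k : ι} (hk : k ∈ T.Fv) (c : ℝ) (l : List (ι ⊕ ℕ)) :
    T.fr.A l fun x => (c : ℂ) + x k :=
  A_ent (by fun_prop) ⟨‖(c : ℂ)‖ + T.r k, fun x hx =>
    (norm_add_le _ _).trans (by linarith [hx k hk])⟩

theorem rr_coord (k : ι) (c : ℝ) (S : Set (ι → ℂ)) : RR S fun x => (c : ℂ) + x k :=
  fun x _ hx => by simp [hx k]

theorem sp_of (h : T.WF) {k : ι} (h1 : k ∉ T.Fv) (h2 : Sum.inl k ∉ T.top) : T.Sp := by
  rw [Tw.Sp, ← Finset.card_union_of_disjoint (Finset.disjoint_left.2 fun k h1 h2 =>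
    h.dj k h1 (List.mem_toFinset.1 (Finset.mem_filter.1 h2).2))]
  exact Finset.card_lt_univ_of_notMem (x := k) (by simp [h1, h2])

end Ini

open Ini Sq

variable {α : Type} {U : Ultrafilter α}

theorem I1_ini {n m : ℕ} {θ : α → Fin n → ℝ} {θ₀ : Fin n → ℝ} (hθ : Tendsto θ U (𝓝 θ₀))
    {L : α → Fin m → ℝ} (hL : ∀ e, Tendsto (fun i => L i e) U atTop) :
    ∃ (ι : Type) (_ : Fintype ι) (_ : DecidableEq ι) (T : Tw ι) (p : α → ι → ℂ) (κ : Fin n → ι)
      (Λ : Fin m → (ι → ℂ) → ℂ), T.WF ∧ T.Sp ∧ T.Pt U p ∧ (∀ k, κ k ∈ T.Fv) ∧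
      (∀ᶠ i in U, (∀ k, (θ i k : ℂ) = θ₀ k + p i (κ k)) ∧ ∀ e, (L i e : ℂ) = Λ e (p i)) ∧
      (∀ e, ∃ (γ : ι ⊕ ℕ → ℝ) (b : (ι → ℂ) → ℂ), T.fr.A T.top b ∧ RR (T.D T.top) b ∧
        ∀ x ∈ T.D T.top, Λ e x = T.lin T.top γ x + b x) ∧
      ∀ (e : Fin m) (C : ℝ), ∃ R₀ : ℝ, ∀ R ≥ R₀, ∀ r : ι → ℝ,
        (∀ k ∈ T.Fv, 0 < r k ∧ r k ≤ T.r k) → MapsTo (Λ e) ((T.shr R r).D T.top) (J.Om C) ∧
        ∀ (E : Type) [NormedAddCommGroup E] [NormedSpace ℂ E] (N : ℂ → E) (c : ℕ → ℕ → E),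
          J.Dul C N c → (T.shr R r).fr.St T.top (fun x => N (Λ e x)) fun _ => c 0 0 := by
  obtain ⟨p, hp⟩ := data (L := fun e i => L i e) hL
  set ι := (Fin n ⊕ Fin m ⊕ Fin p) ⊕ Option (Fin p)
  obtain ⟨B, ρ, c, s, W, hD⟩ := hp ι (fun j => Sum.inr (some j))
    (Sum.inr_injective.comp (Option.some_injective _))
  let T₀ : Tw ι := ⟨p, B, ∅, 0, 0, 0, 0, ρ, c, 0⟩
  obtain ⟨D₀, -, hL₀⟩ := hD T₀ rfl
  choose uc huc using D₀.Wl
  choose J g b hJ using hL₀
  let ku : Fin p → ι := fun j => Sum.inl (Sum.inr (Sum.inr j))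
  let kb : Fin m → ι := fun e => Sum.inl (Sum.inr (Sum.inl e))
  let u : ℕ → (ι → ℂ) → ℂ := fun j x => if h : j < p then (uc j h : ℂ) + x (ku ⟨j, h⟩) else 0
  have hu : ∀ j (h : j < p), u j = fun x => (uc j h : ℂ) + x (ku ⟨j, h⟩) := fun j h =>
    funext fun x => dif_pos h
  obtain ⟨S, S1, S2⟩ := exists_s T₀ u p
  let T : Tw ι := ⟨p, B, Finset.univ.filter fun k => k.isLeft, 0, 1, 1, S, ρ, c, u⟩
  have el : T₀.lv = T.lv := funext fun j => lv_congr fun _ _ => rfl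
  rw [el] at S2 huc
  obtain ⟨D, fr, -⟩ := hD T rfl
  have mF : ∀ k, Sum.inl k ∈ T.Fv := fun k => by simp [T]
  have nF : ∀ k, Sum.inr k ∉ T.Fv := fun k => by simp [T]
  have sL : ∀ j < p, ∀ x, T.s (Sum.inr j) x =
      Complex.exp (T.E j x) - T.lin (T.lv j) (T.c j) x := S2
  have wf : T.WF := by
    refine ⟨le_rfl, fun _ _ => one_pos, D.ord.nodup, fun k hk h => ?_, fun _ _ => Nat.zero_le _, S1,
      fun j hj x _ => sL j hj x, fun j hj => ?_, fun j hj => ?_, fun j hj k hk hf => ?_, D.ρ0, D.c0,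
      D.ρs, D.ρp, D.ρm⟩
    · obtain ⟨j, rfl⟩ := fr k h
      exact nF _ hk
    · show T.fr.A _ (u j)
      rw [hu j hj]; exact A_coord (mF _) _ _
    · show RR _ (u j)
      rw [hu j hj]; exact rr_coord _ _ _
    · have hf' : k ∉ T.Fv := hf.resolve_right (Nat.not_lt_zero _)
      have iu : ∀ j < p, Ind k (T.u j) := fun j hj x w => by
        show u j _ = u j _
        simp only [hu j hj]
        rw [update_of_ne (ne_of_mem_of_not_mem (mF _) hf')]
      have st : ∀ j < p, (∀ a ∈ T.lv j, Ind k (T.s a)) → Ind k (T.s (Sum.inr j)) :=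
        fun j hj h x w => by
          rw [sL j hj, sL j hj, Tw.E, Tw.E, Tw.ind_lin h, Tw.ind_lin h, iu j hj]
      exact ⟨st j hj (ind_lv (fun k' hk' x w => by
        show S _ _ = S _ _
        rw [S1, S1, update_of_ne (by rintro rfl; exact hk hk')]) fun i hi => st i (hi.trans hj)), iu j hj⟩
  let pr : α → ι → ℝ := fun i => Sum.elim (Sum.elim (fun k => θ i k - θ₀ k) (Sum.elim
    (fun e => L i e - ∑ j ∈ Finset.range (J e + 1), g e j * W j i - b e)
    fun j => Real.log (W j i) - lin s (T.lv j) (ρ j) i - uc j j.2))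
    fun o => if Sum.inl (Sum.inr o) ∈ T.top.toFinset then s (Sum.inl (Sum.inr o)) i else 0
  have cl : ∀ (l : List (ι ⊕ ℕ)) (γ : ι ⊕ ℕ → ℝ) i, (∀ a ∈ l, T.s a (fun k => pr i k) = s a i) →
      T.lin l γ (fun k => pr i k) = (lin s l γ i : ℝ) := fun l γ i h => by
    rw [Tw.lin, lin, Complex.ofReal_sum]
    exact Finset.sum_congr rfl fun a ha => by rw [h a (List.mem_toFinset.1 ha), Complex.ofReal_mul]
  have cE : ∀ j < p, ∀ i, (∀ a ∈ T.lv j, T.s a (fun k => pr i k) = s a i) →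
      Complex.exp (T.E j fun k => pr i k) = W j i := fun j hj i h => by
    rw [Tw.E, cl _ _ i h, ← Real.exp_log (D.W0 j i), Complex.ofReal_exp]
    congr 1
    rw [show T.u j = _ from hu j hj, show T.ρ j = ρ j from rfl]
    simp only [pr, ku, Sum.elim_inl, Sum.elim_inr]
    push_cast; ring
  have val : ∀ i, ∀ a ∈ T.top, T.s a (fun k => pr i k) = s a i := fun i =>
    ind_lv (fun k hk => by
      obtain ⟨j, rfl⟩ := fr k hk
      show S _ _ = _
      rw [S1]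
      exact congrArg _ (if_pos (List.mem_toFinset.2 hk))) fun j hj h => by
      rw [sL j hj, cE j hj i h, cl _ _ i h, D.Ws j hj i]
      push_cast; ring
  have lt : ∀ e, ∀ R ≥ (1 : ℝ), ∀ r : ι → ℝ, (∀ k ∈ T.Fv, 0 < r k ∧ r k ≤ T.r k) →
      LT (T.shr R r) (J e) (g e) fun x => (b e : ℂ) + x (kb e) := fun e R hR r hr =>
    ⟨(T4_shr wf hR hr).1, fun j hj a ha => D.cs j hj a (by rwa [T.shr_lv] at ha), fun j hj => by
      show (T.shr R r).fr.A _ (u j)
      rw [hu j hj]; exact A_coord (T := T.shr R r) (mF _) _ _,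
      A_coord (T := T.shr R r) (mF _) _ _, (hJ e).Jp, (hJ e).g0, (hJ e).dom⟩
  have lt0 : ∀ e, LT T (J e) (g e) fun x => (b e : ℂ) + x (kb e) := fun e =>
    lt e 1 le_rfl 1 fun _ _ => ⟨one_pos, le_rfl⟩
  refine ⟨ι, inferInstance, inferInstance, T, fun i k => pr i k, fun k => Sum.inl (Sum.inl k),
    fun e => Lam T (J e) (g e) fun x => (b e : ℂ) + x (kb e), wf, ?_,
    ⟨fun i k => Complex.ofReal_im _, fun k hk => ?_, fun k hk hn i => ?_, fun a ha => ?_,
      fun a l hl d hd => ?_⟩, fun k => mF _, Eventually.of_forall fun i => ⟨fun k => ?_, fun e => ?_⟩,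
    fun e => ⟨_, _, A_coord (mF _) _ _, rr_coord _ _ _, fun x hx => (lt0 e).lam_lin (lt0 e).sf hx⟩,
    fun e C => ?_⟩
  · refine sp_of wf (k := Sum.inr none) (nF _) fun h => ?_
    obtain ⟨j, hj⟩ := fr _ h
    cases hj
  · refine (Complex.continuous_ofReal.tendsto' 0 0 rfl).comp ?_
    rcases k with (k | e | j) | k
    · exact tendsto_sub_nhds_zero_iff.2 (tendsto_pi_nhds.1 hθ k)
    · exact tendsto_sub_nhds_zero_iff.2 (hJ e).lim
    · exact tendsto_sub_nhds_zero_iff.2 (huc j j.2)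
    · exact absurd hk (nF k)
  · rcases k with k | k
    · exact absurd (mF k) hk
    · exact (congrArg _ (if_neg fun h => hn (List.mem_toFinset.1 h))).trans Complex.ofReal_zero
  · simp only [val _ a ha, Complex.ofReal_re]
    exact D.ord.big a ha
  · simp only [val _ a (hl.subset (by simp)), val _ d (hl.subset (by simp [hd])), Complex.ofReal_re]
    exact (D.ord.suffix hl).2.1 d hd
  · simp [pr]
  · dsimp only
    rw [Lam, Finset.sum_congr rfl fun j hj => by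
      have hj' : j < p := by have := Finset.mem_range.1 hj; have := (hJ e).Jp; omega
      rw [cE j hj' i fun a ha => val i a ((Tw.lv_top hj'.le).subset ha)]]
    simp only [pr, kb, Sum.elim_inl, Sum.elim_inr]
    push_cast; ring
  · obtain ⟨R₀, hR₀⟩ := om (Sum.inr (J e) :: T.lv (J e)).toFinset (fun a _ => (lt0 e).cv0 a)
      (a₀ := Sum.inr (J e)) (by simp) ((lt0 e).cv_top ▸ (lt0 e).g0) (‖(b e : ℂ)‖ + 1) C
    refine ⟨max R₀ 1, fun R hR r hr => ?_⟩
    have l := lt e R ((le_max_right _ _).trans hR) r hr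
    have eL : Lam (T.shr R r) (J e) (g e) (fun x => (b e : ℂ) + x (kb e)) =
        Lam T (J e) (g e) fun x => (b e : ℂ) + x (kb e) := by
      funext x; simp only [Lam, T.shr_E]
    have hm : MapsTo (Lam (T.shr R r) (J e) (g e) fun x => (b e : ℂ) + x (kb e))
        ((T.shr R r).D (Sum.inr (J e) :: (T.shr R r).lv (J e))) (N207.J.Om C) := fun x hx => by
      rw [l.lam_lin List.suffix_rfl hx]
      rw [T.shr_lv] at hx ⊢
      exact hR₀ R ((le_max_left _ _).trans hR) (fun a => T.s a x) _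
        (fun a ha => (Tw.D_cst hx (List.mem_toFinset.1 ha)).1) ((norm_add_le _ _).trans (by
          have : ‖x (kb e)‖ < r (kb e) := Tw.D_nil hx (mF _)
          have : r (kb e) ≤ 1 := (hr _ (mF _)).2
          linarith))
    dsimp only
    rw [← eL, ← T.shr_top R r]
    exact ⟨hm.mono_left (Tw.D_suffix l.sf), fun E _ _ N c hN => l.st hm hN⟩

end Crest.Agent.N207.O

end
end

-- ▼ part N207/O/Fin2

/-! # Row 207, block O: the weak Lojasiewicz inequality on trees -/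

set_option autoImplicit false

namespace Crest.Agent.N207.O

theorem ost : OST :=
  ost_of (fun _ _ _ _ _ _ _ _ h hs hp hg hr => M_fin h hs hp hg hr)
    fun _ _ _ _ _ _ hθ _ hL => I1_ini hθ hL

end Crest.Agent.N207.O
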