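import Crest.Agent.N207.O.Sec1b

/-! Row 207, block O (helper76): the section on the real ray. -/

set_option autoImplicit false

namespace Crest.Agent.N207.O.Q

open Set Filter Finset
open scoped Topology

/-- real value -/
noncomputable def oo (σ : ℕ → ℂ → ℂ) (a : ℕ) (x : ℝ) : ℝ := (σ a x).re
/-- real derivative -/
noncomputable def dd (σ : ℕ → ℂ → ℂ) (a : ℕ) (x : ℝ) : ℝ := (deriv (σ a) x).re
/-- linear form of the values -/
noncomputable def fo (β : ℕ → ℝ) (n : ℕ) (σ : ℕ → ℂ → ℂ) (x : ℝ) : ℝ :=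
  ∑ i ∈ range n, β i * oo σ i x
/-- linear form of the derivatives -/
noncomputable def fd (β : ℕ → ℝ) (n : ℕ) (σ : ℕ → ℂ → ℂ) (x : ℝ) : ℝ :=
  ∑ i ∈ range n, β i * dd σ i x
/-- the exponential of a tie -/
noncomputable def WW (ρ : ℕ → ℕ → ℝ) (σ u : ℕ → ℂ → ℂ) (a : ℕ) (x : ℝ) : ℝ :=
  Real.exp (fo (ρ a) a σ x + (u a x).re)
/-- its logarithmic derivative -/
noncomputable def bb (ρ : ℕ → ℕ → ℝ) (σ u : ℕ → ℂ → ℂ) (a : ℕ) (x : ℝ) : ℝ :=
  fd (ρ a) a σ x + (deriv (u a) x).re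

variable {J : ℕ} {td : ℕ → Prop} {ρ cc : ℕ → ℕ → ℝ} {γ C R τ T R1 : ℝ} {p : ℕ → ℝ}
  {σ u : ℕ → ℂ → ℂ} {Z : ℕ → Set ℂ}

/-- facts at a real point, level `a` -/
structure Lv (td : ℕ → Prop) (ρ cc : ℕ → ℕ → ℝ) (τ : ℝ) (σ u : ℕ → ℂ → ℂ) (a : ℕ) (x : ℝ) :
    Prop where
  im : (σ a x).im = 0
  dim : (deriv (σ a) x).im = 0
  d1 : 1 ≤ dd σ a x
  tied : td a → ‖deriv (u a) x‖ ≤ τ / 8 ∧
    dd σ a x = WW ρ σ u a x * bb ρ σ u a x - fd (cc a) a σ x ∧
    oo σ a x = WW ρ σ u a x - fo (cc a) a σ x ∧ τ / 2 ≤ bb ρ σ u a x ∧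
    (∀ b < a, dd σ b x ≤ dd σ a x) ∧ 2 * fd (cc a) a σ x ≤ WW ρ σ u a x * bb ρ σ u a x ∧
    Complex.exp (ph ρ σ u a x) = WW ρ σ u a x ∧ (ph ρ σ u a x).im = 0

theorem norm_of_im {z : ℂ} (h : z.im = 0) (h' : 0 ≤ z.re) : ‖z‖ = z.re := by
  rw [← Complex.abs_re_eq_norm.2 h, abs_of_nonneg h']

theorem wsum_ge {β f : ℕ → ℝ} {n i : ℕ} {m τ : ℝ} (hβ : ∀ i, 0 ≤ β i) (hm : 0 ≤ m)
    (hf : ∀ i < n, m ≤ f i) (hi : i < n) (hτ : τ ≤ β i) : τ * m ≤ ∑ i ∈ range n, β i * f i := by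
  have h1 : β i * f i ≤ ∑ i ∈ range n, β i * f i :=
    single_le_sum (f := fun i => β i * f i)
      (fun j hj => mul_nonneg (hβ j) (hm.trans (hf j (by simpa using hj)))) (by simpa)
  have h2 := hf i hi
  have h3 := hβ i
  nlinarith

theorem wsum_ext {β f : ℕ → ℝ} {m n : ℕ} (h : ∀ i, m ≤ i → β i = 0) (hn : m ≤ n) :
    ∑ i ∈ range n, β i * f i = ∑ i ∈ range m, β i * f i := by
  symm
  refine sum_subset (range_mono hn) fun i _ hi => ?_
  rw [h i (by simpa using hi)]; simp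

theorem Sec.dAt (h : Sec J td ρ cc γ C R p σ u Z) {i n : ℕ} (hi : i ≤ n) (hiJ : i < J)
    (hn : n ≤ J) {s : ℂ} (hs : s ∈ Z n) : DifferentiableAt ℂ (σ i) s :=
  (h.diffOn' hi hiJ hn).differentiableAt ((h.Zo n hn).mem_nhds hs)

theorem Sec.uAt (h : Sec J td ρ cc γ C R p σ u Z) {a : ℕ} (ha : a < J) (hta : td a) {s : ℂ}
    (hs : s ∈ Z a) : DifferentiableAt ℂ (u a) s :=
  ((h.dec a ha hta).diffOn h.toZs ha.le).differentiableAt ((h.Zo a ha.le).mem_nhds hs)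

theorem Sec.ph_hasDerivAt (h : Sec J td ρ cc γ C R p σ u Z) {a : ℕ} (ha : a < J) (hta : td a)
    {s : ℂ} (hs : s ∈ Z a) : HasDerivAt (ph ρ σ u a)
      (∑ i ∈ range a, (ρ a i : ℂ) * deriv (σ i) s + deriv (u a) s) s :=
  (lf_hasDerivAt fun i hi => h.dAt hi.le (by omega) ha.le hs).add (h.uAt ha hta hs).hasDerivAt

theorem Sec.tied_deriv (h : Sec J td ρ cc γ C R p σ u Z) {a : ℕ} (ha : a < J) (hta : td a)
    {s : ℂ} (hs : s ∈ Z a) : deriv (σ a) s = Complex.exp (ph ρ σ u a s) *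
      (∑ i ∈ range a, (ρ a i : ℂ) * deriv (σ i) s + deriv (u a) s) -
      ∑ i ∈ range a, (cc a i : ℂ) * deriv (σ i) s := by
  rw [(EventuallyEq.deriv_eq (mem_of_superset ((h.Zo a ha.le).mem_nhds hs) (h.tied a ha hta) :
    σ a =ᶠ[𝓝 s] fun s => Complex.exp (ph ρ σ u a s) - lf (cc a) a σ s))]
  exact ((h.ph_hasDerivAt ha hta hs).cexp.sub
    (lf_hasDerivAt fun i hi => h.dAt hi.le (by omega) ha.le hs)).deriv

theorem Sec.free_deriv1 (h : Sec J td ρ cc γ C R p σ u Z) {a : ℕ} (ha : a < J) {s : ℂ}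
    (hs : s ∈ Z a) (h1 : ∀ s ∈ Z a, σ a s = p a + s) : deriv (σ a) s = 1 := by
  rw [(EventuallyEq.deriv_eq (mem_of_superset ((h.Zo a ha.le).mem_nhds hs) h1 :
    σ a =ᶠ[𝓝 s] fun s => p a + s))]
  simp

theorem Sec.free_deriv2 (h : Sec J td ρ cc γ C R p σ u Z) {a m : ℕ} (ha : a < J) {s : ℂ}
    (hs : s ∈ Z a) (h1 : ∀ s ∈ Z a, σ a s = p a + σ m s) : deriv (σ a) s = deriv (σ m) s := by
  rw [(EventuallyEq.deriv_eq (mem_of_superset ((h.Zo a ha.le).mem_nhds hs) h1 :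
    σ a =ᶠ[𝓝 s] fun s => p a + σ m s)), deriv_const_add]

/-- the constants of the exponents -/
structure Cn (J : ℕ) (ρ cc : ℕ → ℕ → ℝ) (τ T : ℝ) : Prop where
  τ0 : 0 < τ
  τ1 : τ ≤ 1
  T0 : 0 ≤ T
  k1 : ∀ a < J, ∀ b < J, ρ a b ≤ T ∧ cc a b ≤ T
  k2 : ∀ a < J, ∀ b, 0 < ρ a b → τ ≤ ρ a b
  k3 : ∀ a < J, ∀ b < J, ∀ i, ρ a i < ρ b i → τ ≤ ρ b i - ρ a i

theorem Ex.cn (h : Ex J td ρ cc) : ∃ τ T, Cn J ρ cc τ T := by
  obtain ⟨τ, T, h1, h2, h3, h4, h5, h6⟩ := h.consts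
  exact ⟨τ, T, h1, h2, h3, h4, h5, h6⟩

theorem Ex.lt_of_pos (h : Ex J td ρ cc) {a i : ℕ} (hi : 0 < ρ a i) : i < a := by
  by_contra hc; rw [h.supp a i (by omega)] at hi; exact lt_irrefl _ hi

theorem Ex.gap (hE : Ex J td ρ cc) (hK : Cn J ρ cc τ T) {a b : ℕ} (hb : b < a) (ha : a < J)
    (htb : td b) (hta : td a) {f : ℕ → ℝ} {m : ℝ} (hm : 0 ≤ m) (hf : ∀ i < a, m ≤ f i) :
    ∑ i ∈ range b, ρ b i * f i + τ * m ≤ ∑ i ∈ range a, ρ a i * f i := by
  obtain ⟨m1, i, m2⟩ := hE.inc b a hb ha htb hta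
  have h1 := wsum_ge (fun j => sub_nonneg.2 (m1 j)) hm hf
    (hE.lt_of_pos ((hE.rho_nn b i).trans_lt m2)) (hK.k3 b (by omega) a ha i m2)
  simp only [sub_mul, sum_sub_distrib] at h1
  rw [wsum_ext (hE.supp b) hb.le] at h1
  linarith

theorem Ex.gap0 (hE : Ex J td ρ cc) (hK : Cn J ρ cc τ T) {a : ℕ} (ha : a < J)
    (hta : td a) {f : ℕ → ℝ} {m : ℝ} (hm : 0 ≤ m) (hf : ∀ i < a, m ≤ f i) :
    τ * m ≤ ∑ i ∈ range a, ρ a i * f i := by
  obtain ⟨i, hi⟩ := hE.pos a ha hta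
  exact wsum_ge (hE.rho_nn a) hm hf (hE.lt_of_pos hi) (hK.k2 a ha i hi)

theorem pt_step (hE : Ex J td ρ cc) (hS : Sec J td ρ cc γ C R p σ u Z) (hK : Cn J ρ cc τ T)
    (hR : 0 ≤ R1) (hQ : 4 * (J * T + 1) ≤ τ * Real.exp (τ * R1 - 2 * C)) {a : ℕ} (ha : a < J)
    {x : ℝ} (hx : (x : ℂ) ∈ Z a) (hud : td a → ‖deriv (u a) x‖ ≤ τ / 8)
    (big : ∀ b < a, R1 ≤ oo σ b x) (ih : ∀ b < a, Lv td ρ cc τ σ u b x)
    (ihr : ∀ y : ℝ, (y : ℂ) ∈ Z a → ∀ b < a, (σ b y).im = 0) : Lv td ρ cc τ σ u a x := by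
  have hτ := hK.τ0
  have hτ1 := hK.τ1
  have hT0 := hK.T0
  have hC := hS.C0
  by_cases hta : td a
  swap
  · rcases hS.free a ha hta with h1 | ⟨m, rfl, -, h1⟩
    · have := hS.free_deriv1 ha hx h1
      exact ⟨by simp [h1 x hx], by simp [this], by simp [dd, this], fun h => absurd h hta⟩
    · have := hS.free_deriv2 ha hx h1
      have L := ih m (by omega)
      exact ⟨by simp [h1 x hx, L.im], by rw [this, L.dim], by rw [dd, this]; exact L.d1,
        fun h => absurd h hta⟩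
  have hud := hud hta
  have hpim : ∀ y : ℝ, (y : ℂ) ∈ Z a → (ph ρ σ u a y).im = 0 := fun y hy => by
    simp only [ph, Complex.add_im, lf_im, hS.re a ha hta y hy, add_zero]
    exact sum_eq_zero fun i hi => by rw [ihr y hy i (by simpa using hi), mul_zero]
  have him : ∀ y : ℝ, (y : ℂ) ∈ Z a → (σ a y).im = 0 := fun y hy => by
    rw [hS.tied a ha hta y hy, Complex.sub_im, Complex.exp_im, hpim y hy, Real.sin_zero, mul_zero,
      lf_im, zero_sub, neg_eq_zero]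
    exact sum_eq_zero fun i hi => by rw [ihr y hy i (by simpa using hi), mul_zero]
  have hexp : Complex.exp (ph ρ σ u a x) = WW ρ σ u a x := by
    rw [WW, Complex.ofReal_exp]
    congr 1
    apply Complex.ext
    · simp [ph, lf_re, fo, oo]
    · simp [hpim x hx]
  have hoo : oo σ a x = WW ρ σ u a x - fo (cc a) a σ x := by
    rw [oo, hS.tied a ha hta x hx, hexp]; simp [lf_re, fo, oo]
  have hdd : dd σ a x = WW ρ σ u a x * bb ρ σ u a x - fd (cc a) a σ x := by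
    rw [dd, hS.tied_deriv ha hta hx, hexp]; simp [bb, fd, dd]
  have v1 := abs_le.1 ((Complex.abs_re_le_norm _).trans hud)
  have v3 := abs_le.1 ((Complex.abs_re_le_norm _).trans (hS.bd a ha hta x hx))
  have w2 : τ / 2 ≤ bb ρ σ u a x := by
    have h1 := hE.gap0 hK ha hta zero_le_one (fun i hi => (ih i hi).d1)
    unfold bb fd; linarith
  set Q := Real.exp (τ * R1 - 2 * C) with hQd
  have hQ0 : 0 < Q := Real.exp_pos _
  have w1 : Q ≤ WW ρ σ u a x := by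
    have h1 := hE.gap0 hK ha hta hR big
    exact Real.exp_le_exp.2 (by unfold fo; linarith)
  have w3 : τ * Q ≤ 2 * (WW ρ σ u a x * bb ρ σ u a x) := by nlinarith
  have hlow : ∀ b < a, τ * Q * dd σ b x ≤ 2 * (WW ρ σ u a x * bb ρ σ u a x) := by
    intro b
    induction b using Nat.strong_induction_on with
    | _ b ib =>
    intro hb'
    have L := ih b hb'
    have xb : (x : ℂ) ∈ Z b := hS.anti hb'.le ha.le hx
    by_cases htb : td b
    · obtain ⟨u4, u5, -, -, -, -⟩ := L.tied htb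
      have h1 := hE.gap hK hb' ha htb hta zero_le_one (fun i hi => (ih i hi).d1)
      have h2 := hE.gap hK hb' ha htb hta hR big
      have v2 := abs_le.1 ((Complex.abs_re_le_norm _).trans u4)
      have v4 := abs_le.1 ((Complex.abs_re_le_norm _).trans (hS.bd b (by omega) htb x xb))
      have h3 : bb ρ σ u b x ≤ bb ρ σ u a x := by unfold bb fd; linarith
      have h4 : Q * WW ρ σ u b x ≤ WW ρ σ u a x := by
        rw [hQd, WW, ← Real.exp_add]; exact Real.exp_le_exp.2 (by unfold fo; linarith)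
      have h5 : 0 < WW ρ σ u b x := Real.exp_pos _
      have h8 : 0 ≤ fd (cc b) b σ x := sum_nonneg fun i hi => mul_nonneg (hE.cc_nn b i)
        (by linarith [(ih i (by simp at hi; omega)).d1])
      have h6 : Q * dd σ b x ≤ WW ρ σ u a x * bb ρ σ u a x :=
        calc Q * dd σ b x ≤ Q * (WW ρ σ u b x * bb ρ σ u a x) := mul_le_mul_of_nonneg_left
              (by linarith [mul_le_mul_of_nonneg_left h3 h5.le]) hQ0.le
          _ ≤ _ := by rw [← mul_assoc]; exact mul_le_mul_of_nonneg_right h4 (by linarith)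
      have h7 : 0 ≤ Q * dd σ b x := mul_nonneg hQ0.le (by linarith [L.d1])
      nlinarith
    · rcases hS.free b (by omega) htb with h1 | ⟨m, rfl, -, h1⟩
      · rw [dd, hS.free_deriv1 (by omega) xb h1]; simpa using w3
      · rw [dd, hS.free_deriv2 (by omega) xb h1]; exact ib m (by omega) (by omega)
  have hJT : 0 ≤ (J : ℝ) * T := by positivity
  have w4 : 0 < WW ρ σ u a x * bb ρ σ u a x := by linarith
  have hcc : 2 * fd (cc a) a σ x ≤ WW ρ σ u a x * bb ρ σ u a x := by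
    have h1 : τ * Q * fd (cc a) a σ x ≤ ∑ i ∈ range a, T * (2 * (WW ρ σ u a x * bb ρ σ u a x)) := by
      rw [fd, mul_sum]
      refine sum_le_sum fun i hi => ?_
      have hi : i < a := by simpa using hi
      rw [mul_left_comm]
      exact mul_le_mul (hK.k1 a ha i (by omega)).2 (hlow i hi)
        (mul_nonneg (by positivity) (by linarith [(ih i hi).d1])) hT0
    rw [sum_const, card_range, nsmul_eq_mul] at h1
    have haJ : (a : ℝ) ≤ J := by exact_mod_cast ha.le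
    have h2 : (a : ℝ) * (T * (2 * (WW ρ σ u a x * bb ρ σ u a x))) ≤
        J * (T * (2 * (WW ρ σ u a x * bb ρ σ u a x))) :=
      mul_le_mul_of_nonneg_right haJ (by positivity)
    have h3 : τ * Q * (2 * fd (cc a) a σ x) ≤ τ * Q * (WW ρ σ u a x * bb ρ σ u a x) := by nlinarith
    exact le_of_mul_le_mul_left h3 (by positivity)
  refine ⟨him x hx, deriv_im_zero ((hS.Zo a ha.le).mem_nhds hx) (hS.dAt le_rfl ha ha.le hx) him,
    by linarith, fun _ => ⟨hud, hdd, hoo, w2, fun b hb => ?_, hcc, hexp, hpim x hx⟩⟩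
  have h1 := hlow b hb
  have h2 := (ih b hb).d1
  nlinarith

/-- all scales are real at the real points -/
theorem Sec.im_zero (hS : Sec J td ρ cc γ C R p σ u Z) :
    ∀ a < J, ∀ y : ℝ, (y : ℂ) ∈ Z a → (σ a y).im = 0 := by
  intro a
  induction a using Nat.strong_induction_on with
  | _ a ih =>
  intro ha y hy
  have ihr : ∀ b < a, (σ b y).im = 0 := fun b hb => ih b hb (by omega) y (hS.anti hb.le ha.le hy)
  have z : ∀ β : ℕ → ℝ, (lf β a σ y).im = 0 := fun β => by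
    rw [lf_im]; exact sum_eq_zero fun i hi => by rw [ihr i (by simpa using hi), mul_zero]
  by_cases hta : td a
  · rw [hS.tied a ha hta y hy, Complex.sub_im, Complex.exp_im, ph, Complex.add_im, z, z,
      hS.re a ha hta y hy]
    simp
  · rcases hS.free a ha hta with h1 | ⟨m, rfl, -, h1⟩
    · simp [h1 y hy]
    · simp [h1 y hy, ihr m (by omega)]


end Crest.Agent.N207.O.Q
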