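import Crest.Agent.N207.O.El1
import Crest.Agent.N207.O.Comp
import Crest.Agent.N207.O.Kit2
import Crest.Agent.N207.O.Alg3
import Crest.Agent.N207.O.Tay

-- ▼ part N207/O/Unt1
section

/-!
# Row 207, block O (helper88): un-tying a variable, part 1 (the new tower, base relation)
-/

set_option autoImplicit false
set_option linter.unusedSectionVars false

open Set Filter Topology Metric Function

noncomputable section

namespace Crest.Agent.N207.O.Unt

open El Fr

variable {ι : Type} [Fintype ι] [DecidableEq ι] {T : Tw ι} {k : ι} {β : ι ⊕ ℕ → ℝ} {t R : ℝ}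
  {x : ι → ℂ} {a : ι ⊕ ℕ} {l : List (ι ⊕ ℕ)} {v : (ι → ℂ) → ℂ}

theorem dif_upd {X : Type*} [NormedAddCommGroup X] [NormedSpace ℂ X] {S : Set X}
    {φ : X → ι → ℂ} {ψ : X → ℂ} (hφ : DifferentiableOn ℂ φ S) (hψ : DifferentiableOn ℂ ψ S) :
    DifferentiableOn ℂ (fun x => update (φ x) k (ψ x)) S := by
  refine differentiableOn_pi.2 fun i => ?_
  by_cases h : i = k
  · subst h; simpa using hψ
  · simpa [update_of_ne h] using differentiableOn_pi.1 hφ i

theorem rp_upd (hx : x ∈ Rp ι) {w : ℂ} (hw : w.im = 0) : update x k w ∈ Rp ι := fun i => by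
  by_cases h : i = k
  · subst h; simpa using hw
  · simpa [update_of_ne h] using hx i

/-- the monomial -/
def mm (T : Tw ι) (k : ι) (t : ℝ) (x : ι → ℂ) : ℂ :=
  Complex.exp (-((t : ℂ) * T.s (Sum.inr (T.lab k)) (update x k 0))) *
    Complex.exp (-T.lin (T.lv (T.lab k)) (T.ρ (T.lab k)) x)

/-- the change of chart -/
def Ph (T : Tw ι) (k : ι) (t : ℝ) (x : ι → ℂ) : ι → ℂ := update x k (mm T k t x * x k)

/-- the change of the tied scale -/
def bb (T : Tw ι) (k : ι) (t : ℝ) (x : ι → ℂ) : ℂ :=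
  T.s (Sum.inr (T.lab k)) (Ph T k t x) - T.s (Sum.inr (T.lab k)) (update x k 0)

/-- the new tower -/
def unt (T : Tw ι) (k : ι) (t : ℝ) (β : ι ⊕ ℕ → ℝ) (R : ℝ) : Tw ι :=
  { T with
    lab := update T.lab k (T.lab k + 1)
    r := update T.r k (T.r k / 2)
    R := R
    s := Sum.elim (fun k' x => x k')
      fun i x => T.s (Sum.inr i) (Ph T k t x) - β (Sum.inr i) * bb T k t x
    u := fun i x => if i = T.lab k then T.u i (update x k 0) else
      T.u i (Ph T k t x) + (∑ a ∈ (T.lv i).toFinset, T.ρ i a * β a : ℝ) * bb T k t x }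

theorem unt_lv : (unt T k t β R).lv = T.lv := lv_congr rfl

theorem unt_top : (unt T k t β R).top = T.top := top_congr rfl rfl

/-- standing hypotheses -/
structure Ctx (T : Tw ι) (k : ι) (β : ι ⊕ ℕ → ℝ) : Prop where
  wf : T.WF
  hk : k ∈ T.Fv
  hj : T.lab k < T.p
  b0 : ∀ k', β (Sum.inl k') = 0
  b1 : ∀ i < T.lab k, β (Sum.inr i) = 0
  b2 : β (Sum.inr (T.lab k)) = 1
  b3 : ∀ i, T.lab k < i → i < T.p → β (Sum.inr i) = -∑ a ∈ (T.lv i).toFinset, T.c i a * β a

theorem exists_ctx (h : T.WF) (hk : k ∈ T.Fv) (hj : T.lab k < T.p) : ∃ β, Ctx T k β := by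
  have key : ∀ N : ℕ, ∃ β : ι ⊕ ℕ → ℝ, (∀ k', β (Sum.inl k') = 0) ∧
      (∀ i < T.lab k, β (Sum.inr i) = 0) ∧ β (Sum.inr (T.lab k)) = 1 ∧
      ∀ i, T.lab k < i → i < N → β (Sum.inr i) = -∑ a ∈ (T.lv i).toFinset, T.c i a * β a := by
    intro N
    induction N with
    | zero =>
      exact ⟨Pi.single (Sum.inr (T.lab k)) 1, fun k' => by simp, fun i hi => by simp [hi.ne],
        by simp, fun i _ hi => absurd hi (Nat.not_lt_zero _)⟩
    | succ N ih =>
      obtain ⟨β, h0, h1, h2, h3⟩ := ih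
      by_cases hN : T.lab k < N
      · have e : ∀ i ≤ N, ∀ z, ∑ a ∈ (T.lv i).toFinset, T.c i a * update β (Sum.inr N) z a =
            ∑ a ∈ (T.lv i).toFinset, T.c i a * β a := fun i hi z =>
          Finset.sum_congr rfl fun a ha => by
            rw [update_of_ne]
            rintro rfl
            exact absurd (inr_mem.1 (List.mem_toFinset.1 ha)) (not_lt.2 hi)
        refine ⟨update β (Sum.inr N) (-∑ a ∈ (T.lv N).toFinset, T.c N a * β a),
          fun k' => by simp [h0], fun i hi => ?_, ?_, fun i hi hi' => ?_⟩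
        · rw [update_of_ne (by simp; omega), h1 i hi]
        · rw [update_of_ne (by simp; omega), h2]
        · rw [e i (by omega)]
          by_cases hiN : i = N
          · rw [hiN, update_self]
          · rw [update_of_ne (by simpa using hiN), h3 i hi (by omega)]
      · exact ⟨β, h0, h1, h2, fun i hi hi' => by omega⟩
  obtain ⟨β, h0, h1, h2, h3⟩ := key T.p
  exact ⟨β, h, hk, hj, h0, h1, h2, h3⟩

namespace Ctx

variable (c : Ctx T k β)
include c

theorem lo : T.lv (T.lab k) <:+ T.top := lv_top T c.hj.le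

theorem l0 : Sum.inr (T.lab k) :: T.lv (T.lab k) <:+ T.top := lv_suffix' T c.hj

theorem nk (hl : l <:+ T.top) : Sum.inl k ∉ l := fun h => c.wf.dj k c.hk (hl.subset h)

theorem free (hl : l <:+ T.lv (T.lab k)) : k ∈ T.Fv → T.Free l k := fun _ _ h =>
  inr_mem.1 (hl.subset h)

theorem ind_lo (ha : a ∈ T.lv (T.lab k)) : Ind k (T.s a) :=
  (c.wf.ind_s c.lo (c.nk c.lo) (c.free List.suffix_rfl) ha).1

theorem lin_lo (γ : ι ⊕ ℕ → ℝ) : Ind k (T.lin (T.lv (T.lab k)) γ) :=
  Tw.ind_lin (fun _ ha => c.ind_lo ha) γ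

theorem ind_mm : Ind k (mm T k t) := fun x w => by simp only [mm, update_idem, c.lin_lo _ x w]

theorem upd (hl : l <:+ T.lv (T.lab k)) (hx : x ∈ T.D l) {w : ℂ} (hw : ‖w‖ < T.r k) :
    update x k w ∈ T.D l :=
  T2_upd c.wf (hl.trans c.lo) (c.nk (hl.trans c.lo)) (c.free hl) hx fun _ => hw

theorem upd0 (hx : x ∈ T.D (T.lv (T.lab k))) : update x k 0 ∈ T.D (T.lv (T.lab k)) :=
  c.upd List.suffix_rfl hx (by simpa using c.wf.r0 k c.hk)

theorem beta_lo (ha : a ∈ T.lv (T.lab k)) : β a = 0 := by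
  rcases a with k' | i
  · exact c.b0 k'
  · exact c.b1 i (inr_mem.1 ha)

theorem s_Ph (ha : a ∈ T.top) (x : ι → ℂ) :
    T.s a (Ph T k t x) = (unt T k t β R).s a x + β a * bb T k t x := by
  rcases a with k' | i
  · have : k' ≠ k := by rintro rfl; exact c.nk List.suffix_rfl ha
    simp [unt, c.wf.sN, Ph, update_of_ne this, c.b0]
  · simp [unt]

theorem s_lo (ha : a ∈ T.lv (T.lab k)) : (unt T k t β R).s a = T.s a := by
  funext x
  have := c.s_Ph (t := t) (R := R) (c.lo.subset ha) x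
  rw [c.beta_lo ha, Ph, c.ind_lo ha] at this
  simpa using this.symm

theorem s_j (x : ι → ℂ) :
    (unt T k t β R).s (Sum.inr (T.lab k)) x = T.s (Sum.inr (T.lab k)) (update x k 0) := by
  simp [unt, c.b2, bb]

theorem lin_Ph (hl : l <:+ T.top) (γ : ι ⊕ ℕ → ℝ) (x : ι → ℂ) : T.lin l γ (Ph T k t x) =
    (unt T k t β R).lin l γ x + (∑ a ∈ l.toFinset, γ a * β a : ℝ) * bb T k t x := by
  simp only [Tw.lin, Complex.ofReal_sum, Finset.sum_mul, ← Finset.sum_add_distrib]
  refine Finset.sum_congr rfl fun a ha => ?_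
  rw [c.s_Ph (R := R) (hl.subset (List.mem_toFinset.1 ha))]
  push_cast; ring

theorem lin_eq (γ : ι ⊕ ℕ → ℝ) (hl : l <:+ T.lv (T.lab k)) (x : ι → ℂ) :
    (unt T k t β R).lin l γ x = T.lin l γ x :=
  lin_congr (fun a ha => by rw [c.s_lo (hl.subset ha)]) fun _ _ => rfl

theorem E_ne {i : ℕ} (hi : i ≠ T.lab k) (hp : i ≤ T.p) (x : ι → ℂ) :
    (unt T k t β R).E i x = T.E i (Ph T k t x) := by
  rw [Tw.E, Tw.E, unt_lv, c.lin_Ph (R := R) (lv_top T hp)]
  simp only [unt, if_neg hi]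
  ring

theorem E_lo {i : ℕ} (hi : i < T.lab k) (x : ι → ℂ) : (unt T k t β R).E i x = T.E i x := by
  rw [c.E_ne hi.ne (hi.trans c.hj).le, Ph,
    c.wf.ind_E c.lo (c.nk c.lo) (c.free List.suffix_rfl) (inr_mem.2 hi)]

theorem u_lo {i : ℕ} (hi : i < T.lab k) (x : ι → ℂ) : (unt T k t β R).u i x = T.u i x := by
  have := c.E_lo (t := t) (R := R) hi x
  rw [Tw.E, Tw.E, unt_lv, c.lin_eq _ (lv_suffix T hi.le)] at this
  exact add_left_cancel this

theorem u_j (x : ι → ℂ) : (unt T k t β R).u (T.lab k) x = T.u (T.lab k) (update x k 0) := by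
  simp [unt]

theorem E_j (x : ι → ℂ) : (unt T k t β R).E (T.lab k) x = T.E (T.lab k) (update x k 0) := by
  rw [Tw.E, Tw.E, unt_lv, c.lin_eq _ List.suffix_rfl, c.u_j, c.lin_lo]; rfl

theorem r_le (k' : ι) (hk' : k' ∈ T.Fv) : (unt T k t β R).r k' ≤ T.r k' := by
  by_cases h : k' = k
  · subst h
    have := c.wf.r0 k' hk'
    simp only [unt, update_self]; linarith
  · simp [unt, update_of_ne h]

theorem rel0 (hR : T.R ≤ R) (hl : l <:+ T.lv (T.lab k)) : Rel T (unt T k t β R) l l id := by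
  have := climb0 (T' := unt T k t β R) (Φ := id) c.wf (Q := T.lv (T.lab k)) (l0 := []) (l0' := [])
    (by simpa using c.lo)
    (Rel.nil (fun x hx k' hk' => (hx k' hk').trans_le (c.r_le k' hk')) differentiableOn_id
      fun _ _ h => h) hR (List.Sublist.refl _)
    (fun a ha x _ => by rw [c.s_lo (by simpa using ha)]; rfl)
    (fun i hi x _ => c.E_lo (inr_mem.1 hi) x) hl
  simpa using this

theorem sub0 (hR : T.R ≤ R) (hx : x ∈ (unt T k t β R).D (Sum.inr (T.lab k) :: T.lv (T.lab k))) :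
    x ∈ T.D (T.lv (T.lab k)) := (c.rel0 hR List.suffix_rfl).maps (D_cons hx).1

theorem dif_s0 : DifferentiableOn ℂ (fun x => T.s (Sum.inr (T.lab k)) (update x k 0))
    (T.D (T.lv (T.lab k))) :=
  (dif_s c.wf c.l0).comp (dif_upd differentiableOn_id (differentiableOn_const _)) fun _ => c.upd0

theorem ok0 (hR : T.R ≤ R) : (unt T k t β R).fr.Ok (Sum.inr (T.lab k) :: T.lv (T.lab k)) := by
  have H := c.rel0 (t := t) hR List.suffix_rfl
  refine ok_step H.ok (le_trans (by linarith [c.wf.R1]) hR)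
    ((c.dif_s0.mono H.maps).congr fun x _ => c.s_j x) fun j hj => ?_
  cases hj
  exact ((((dif_E c.wf c.hj).comp (dif_upd differentiableOn_id (differentiableOn_const _))
    fun _ => c.upd0).mono H.maps).congr fun x _ => c.E_j x).continuousOn

theorem mm_eq (x : ι → ℂ) : mm T k t x = (unt T k t β R).fr.ex (Sum.inr (T.lab k)) t x *
    Complex.exp (-T.lin (T.lv (T.lab k)) (T.ρ (T.lab k)) x) := by
  simp only [mm, ex, Tw.fr, c.s_j]

theorem xk_lt (hx : x ∈ (unt T k t β R).D l) : ‖x k‖ < T.r k / 2 := by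
  simpa [unt] using Tw.D_nil hx (k := k) c.hk

theorem mx_le (hR : T.R ≤ R) (ht : 0 ≤ t)
    (hx : x ∈ (unt T k t β R).D (Sum.inr (T.lab k) :: T.lv (T.lab k))) :
    ‖mm T k t x * x k‖ ≤ T.r k / 2 := by
  have h1 := (c.ok0 hR).norm_ex_le hx ht
  have h2 : ‖Complex.exp (-T.lin (T.lv (T.lab k)) (T.ρ (T.lab k)) x)‖ ≤ 1 := by
    rw [Complex.norm_exp, Real.exp_le_one_iff, Complex.neg_re, neg_nonpos]
    exact re_lin (by linarith [c.wf.R1]) (c.wf.ρ0 _) (c.sub0 hR hx)
  rw [c.mm_eq (R := R), norm_mul, norm_mul]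
  calc _ ≤ 1 * 1 * (T.r k / 2) := by gcongr; exact (c.xk_lt hx).le
    _ = _ := by ring

theorem A_xk (ho : (unt T k t β R).fr.Ok l) : (unt T k t β R).fr.A l fun x => x k :=
  A.of_nil ho (differentiableOn_apply k _) ⟨T.r k / 2, fun _ hx => (c.xk_lt hx).le⟩

theorem s0_im (hx : x ∈ T.D (T.lv (T.lab k))) (hr : x ∈ Rp ι) :
    (T.s (Sum.inr (T.lab k)) x).im = 0 := by
  rw [c.wf.sL _ c.hj x hx, Complex.sub_im, Complex.exp_im, rr_E c.wf c.hj x hx hr,
    rr_lin (T6_real c.wf c.lo) _ x hx hr]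
  simp

theorem mm_im (hx : x ∈ T.D (T.lv (T.lab k))) (hr : x ∈ Rp ι) : (mm T k t x).im = 0 := by
  have h1 := c.s0_im (c.upd0 hx) (rp_upd hr rfl)
  have h2 := rr_lin (T6_real c.wf c.lo) (T.ρ (T.lab k)) x hx hr
  simp [mm, Complex.exp_im, h1, h2]

/-- the base relation -/
theorem base (hR : T.R ≤ R) (ht : 0 < t) : Rel T (unt T k t β R) (T.lv (T.lab k))
    (Sum.inr (T.lab k) :: T.lv (T.lab k)) (Ph T k t) := by
  have ho := c.ok0 (t := t) hR
  have r0 := c.wf.r0 k c.hk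
  have hg1 : (unt T k t β R).fr.A (Sum.inr (T.lab k) :: T.lv (T.lab k)) fun x =>
      Complex.exp (-T.lin (T.lv (T.lab k)) (T.ρ (T.lab k)) x) * x k :=
    A.mul ho (((c.rel0 hR List.suffix_rfl).cl _ (T7_mon c.wf c.lo (c.wf.ρ0 _))).up ho) (c.A_xk ho)
  have e : ∀ x, mm T k t x * x k = (unt T k t β R).fr.ex (Sum.inr (T.lab k)) t x •
      (Complex.exp (-T.lin (T.lv (T.lab k)) (T.ρ (T.lab k)) x) * x k) := fun x => by
    rw [c.mm_eq (R := R), smul_eq_mul, mul_assoc]
  have hA : (unt T k t β R).fr.A (Sum.inr (T.lab k) :: T.lv (T.lab k)) fun x => mm T k t x * x k :=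
    A2_congr (A3_mono (A5_ex ho ht.le hg1) ht.le) fun x _ => (e x).symm
  refine ⟨ho, fun x hx => c.upd List.suffix_rfl (c.sub0 hR hx) ((c.mx_le hR ht.le hx).trans_lt
    (by linarith)), dif_upd differentiableOn_id (A1_diff hA), fun x hx hr => rp_upd hr ?_,
    fun g hg => ?_⟩
  · simp [c.mm_im (c.sub0 hR hx) hr, hr k]
  have hI : (unt T k t β R).fr.In (Sum.inr (T.lab k) :: T.lv (T.lab k))
      (closedBall 0 (T.r k / 2)) fun x => mm T k t x * x k :=
    ⟨hA, fun x hx => by simpa only [mem_closedBall, dist_zero_right] using c.mx_le hR ht.le hx,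
      0, _, t, ht, In.lift ho.1 List.nil_suffix ⟨Cl.zero, fun _ _ => by simp; linarith⟩, hg1,
      fun x _ => (e x).trans (zero_add _).symm⟩
  have hG : ((unt T k t β R).fr.prod (ball (0 : ℂ) (T.r k))).A (T.lv (T.lab k))
      (g ∘ fun z : (ι → ℂ) × ℂ => update z.1 k z.2) :=
    A9_pull' (F := T.fr)
      (fun l hl z hz => c.upd hl ((c.rel0 hR hl).maps hz.1) (by simpa using hz.2))
      (fun _ _ => dif_upd differentiableOn_fst differentiableOn_snd)
      (fun a l hl z _ => by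
        have ha := hl.subset List.mem_cons_self
        change T.s a _ = (unt T k t β R).s a z.1
        rw [c.s_lo ha, c.ind_lo ha]) hg
  exact C1_comp1 ho isOpen_ball (δ := T.r k / 4) (by linarith)
    (by rw [cthickening_closedBall (by linarith) (by linarith)]
        exact closedBall_subset_ball (by linarith))
    (hG.up (ho.prod isOpen_ball)) hI

end Ctx

end Crest.Agent.N207.O.Unt
end
end

-- ▼ part N207/O/Unt2

/-!
# Row 207, block O (helper88): un-tying a variable, part 2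
-/

set_option autoImplicit false
set_option linter.unusedSectionVars false

open Set Filter Topology Metric Function

noncomputable section

namespace Crest.Agent.N207.O

namespace Unt

open El Fr

variable {ι : Type} [Fintype ι] [DecidableEq ι] {T : Tw ι} {k : ι} {β : ι ⊕ ℕ → ℝ} {t R : ℝ}
  {x : ι → ℂ} {a : ι ⊕ ℕ} {l : List (ι ⊕ ℕ)} {v : (ι → ℂ) → ℂ}

theorem Om_add {R R' B : ℝ} (hR : 1 ≤ R) (hB : 0 ≤ B) (h : 2 * R + B ≤ R') {w e : ℂ}
    (hw : w ∈ Om R') (he : ‖e‖ ≤ B) : w + e ∈ Om R := by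
  have h1 : -B ≤ e.re := by
    have := Complex.abs_re_le_norm e; have := neg_abs_le e.re; linarith
  have h2 := hw.1
  have h3 := hw.2
  have h4 : w.re ≤ ‖w‖ := Complex.re_le_norm w
  have h5 : 0 ≤ Real.log ‖w‖ := Real.log_nonneg (by linarith)
  have h6 : (w + e).re ≤ ‖w + e‖ := Complex.re_le_norm _
  rw [Complex.add_re] at h6
  have h7 : Real.log ‖w + e‖ ≤ 1 + Real.log ‖w‖ := by
    have : ‖w + e‖ ≤ 2 * ‖w‖ := (norm_add_le _ _).trans (by linarith)
    refine (Real.log_le_log (by linarith) this).trans ?_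
    rw [Real.log_mul two_ne_zero (by linarith)]
    have := Real.log_two_lt_d9
    linarith
  refine ⟨by rw [Complex.add_re]; linarith, ?_⟩
  rw [Complex.add_re]
  nlinarith

theorem sd_add {T' : Tw ι} {Φ : (ι → ℂ) → ι → ℂ} {B : ℝ} (h1 : 1 ≤ T.R) (hB : 0 ≤ B)
    (hR : (T.R + 1) * (B + 1) ≤ T'.R) {y : ι → ℂ} (hy : y ∈ T'.Sd l) (hD : y ∈ T'.D l)
    (hr : Φ y ∈ Rp ι) (hs : ∀ a ∈ l, ‖T.s a (Φ y) - T'.s a y‖ ≤ B) : Φ y ∈ T.Sd l := by
  refine ⟨hr, hy.2.imp_of_mem fun {a b} ha hb hab => ?_⟩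
  have e1 := (Complex.abs_re_le_norm _).trans (hs a ha)
  have e2 := (Complex.abs_re_le_norm _).trans (hs b hb)
  rw [Complex.sub_re, abs_le] at e1 e2
  have e3 := (s_om hD hb).1
  have e4 : T.R + 1 ≤ T'.R := by nlinarith
  have e5 : T.R * (T.s b (Φ y)).re ≤ T.R * ((T'.s b y).re + B) := by gcongr; linarith
  have e6 : (T.R + 1) * (T'.s b y).re ≤ T'.R * (T'.s b y).re := by gcongr; linarith
  nlinarith

/-- first order Taylor formula for the tied scale -/
structure Tay (T : Tw ι) (k : ι) (v : (ι → ℂ) → ℂ) (M : ℝ) : Prop where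
  A : T.fr.A (T.lv (T.lab k)) v
  rr : RR (T.D (T.lv (T.lab k))) v
  M0 : 0 < M
  bd : ∀ x ∈ T.D (T.lv (T.lab k)), ‖v x‖ ≤ M
  eq : ∀ x ∈ T.D (T.lv (T.lab k)), T.s (Sum.inr (T.lab k)) x - T.s (Sum.inr (T.lab k)) (update x k 0)
    = Complex.exp (T.lin (T.lv (T.lab k)) (T.ρ (T.lab k)) x) * (x k * v x)

/-- the bound for the corrections -/
def Bc (T : Tw ι) (k : ι) (β : ι ⊕ ℕ → ℝ) (M : ℝ) : ℝ :=
  (∑ a ∈ T.top.toFinset, |β a|) * (T.r k * M)

namespace Ctx

variable (c : Ctx T k β)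
include c

theorem tay : ∃ v M, Tay T k v M := by
  have ho := T1_ok c.wf c.lo
  obtain ⟨-, v, h1, h2, h3⟩ := C5_tay c.wf c.lo c.hk (c.free List.suffix_rfl c.hk)
    (C3_exp ho (c.wf.uA _ c.hj))
    (fun x hx hr => by simp [Complex.exp_im, c.wf.uR _ c.hj x hx hr]) 1
  obtain ⟨M, hM0, hM⟩ := (A1_bd ho le_rfl h1).pos
  refine ⟨v, M, h1, h2, hM0, hM, fun x hx => ?_⟩
  have e := (h3 x hx).1
  simp only [Finset.range_one, Finset.sum_singleton, tc, iteratedDeriv_zero, Nat.factorial_zero,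
    Nat.cast_one, div_one, pow_zero, mul_one, pow_one] at e
  rw [c.wf.sL _ c.hj x hx, c.wf.sL _ c.hj _ (c.upd0 hx), Tw.E, Tw.E, c.lin_lo, c.lin_lo,
    Complex.exp_add, Complex.exp_add, e]
  ring

variable {M : ℝ} (y : Tay T k v M) (hR : T.R ≤ R) (ht : 0 < t)
include y hR ht

theorem bb_eq (hx : x ∈ (unt T k t β R).D (Sum.inr (T.lab k) :: T.lv (T.lab k))) : bb T k t x =
    (unt T k t β R).fr.ex (Sum.inr (T.lab k)) t x • (x k * v (Ph T k t x)) := by
  have e := y.eq _ ((c.base hR ht).maps hx)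
  rw [Ph, update_idem, update_self, c.lin_lo, c.mm_eq (R := R)] at e
  rw [bb, Ph, c.mm_eq (R := R), e, Complex.exp_neg, smul_eq_mul]
  field_simp

theorem bb_A : (unt T k t β R).fr.A (Sum.inr (T.lab k) :: T.lv (T.lab k)) (bb T k t) :=
  A2_congr (A3_mono (A5_ex (c.ok0 hR) ht.le (A.mul (c.ok0 hR) (c.A_xk (c.ok0 hR))
    ((c.base hR ht).cl v y.A))) ht.le) fun _ hx => (c.bb_eq y hR ht hx).symm

theorem bb_le (hx : x ∈ (unt T k t β R).D (Sum.inr (T.lab k) :: T.lv (T.lab k))) :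
    ‖bb T k t x‖ ≤ T.r k * M := by
  have r0 := c.wf.r0 k c.hk
  have := c.xk_lt hx
  rw [c.bb_eq y hR ht hx, norm_smul, norm_mul]
  calc _ ≤ 1 * (T.r k * M) := by
        gcongr
        · exact (c.ok0 hR).norm_ex_le hx ht.le
        · linarith
        · exact y.bd _ ((c.base hR ht).maps hx)
    _ = _ := one_mul _

omit y in
theorem bb_rr : RR ((unt T k t β R).D (Sum.inr (T.lab k) :: T.lv (T.lab k))) (bb T k t) :=
  fun x hx hr => by
    rw [bb, Complex.sub_im, c.s0_im ((c.base hR ht).maps hx) ((c.base hR ht).rea x hx hr),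
      c.s0_im (c.upd0 (c.sub0 hR hx)) (rp_upd hr rfl), sub_self]

theorem cor_le (ha : a ∈ T.top)
    (hx : x ∈ (unt T k t β R).D (Sum.inr (T.lab k) :: T.lv (T.lab k))) :
    ‖β a * bb T k t x‖ ≤ Bc T k β M := by
  rw [norm_mul, Complex.norm_real, Real.norm_eq_abs]
  exact mul_le_mul (Finset.single_le_sum (f := fun a => |β a|) (fun _ _ => abs_nonneg _)
    (List.mem_toFinset.2 ha)) (c.bb_le y hR ht hx) (norm_nonneg _)
    (Finset.sum_nonneg fun _ _ => abs_nonneg _)

omit hR ht in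
theorem Bc0 : 0 ≤ Bc T k β M :=
  mul_nonneg (Finset.sum_nonneg fun _ _ => abs_nonneg _) (mul_pos (c.wf.r0 k c.hk) y.M0).le

variable (hB : (T.R + 1) * (Bc T k β M + 2) ≤ R)
include hB

/-- all lists above the tie -/
theorem rel (h1 : Sum.inr (T.lab k) :: T.lv (T.lab k) <:+ l) (h2 : l <:+ T.top) :
    Rel T (unt T k t β R) l l (Ph T k t) := by
  have B0 := c.Bc0 y
  have R1 := c.wf.R1
  have H := c.base hR ht
  have hom : ∀ a ∈ T.top, ∀ x ∈ (unt T k t β R).D (Sum.inr (T.lab k) :: T.lv (T.lab k)),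
      (unt T k t β R).s a x ∈ Om R → T.s a (Ph T k t x) ∈ Om T.R := fun a ha x hx h => by
    rw [c.s_Ph (R := R) ha]
    exact Om_add R1 B0 (by nlinarith) h (c.cor_le y hR ht ha hx)
  have hsd : ∀ l, Sum.inr (T.lab k) :: T.lv (T.lab k) <:+ l → l <:+ T.top →
      ∀ z ∈ (unt T k t β R).Sd l, z ∈ (unt T k t β R).D l → Ph T k t z ∈ T.Sd l :=
    fun l h1 h2 z hz hD => by
      have hD' := D_suffix h1 hD
      refine sd_add R1 B0 (le_trans (by nlinarith) hB) hz hD (H.rea z hD' hz.1) fun a ha => ?_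
      rw [c.s_Ph (R := R) (h2.subset ha), add_sub_cancel_left]
      exact c.cor_le y hR ht (h2.subset ha) hD'
  have hA : ∀ a, (unt T k t β R).fr.A (Sum.inr (T.lab k) :: T.lv (T.lab k))
      fun x => β a * bb T k t x := fun a => (c.bb_A y hR ht).const_mul _
  have hj : Sum.inr (T.lab k) ∈ T.top := c.l0.subset List.mem_cons_self
  obtain ⟨c1, c2⟩ := corr_of_A H.ok (hA (Sum.inr (T.lab k)))
  have H0 := Rel.step c.wf c.l0 H (fun x _ => c.s_Ph hj x)
    (fun x hx => hom _ hj x hx (D_cons hx).2.1) c1 c2 (hsd _ List.suffix_rfl c.l0)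
  obtain ⟨q, rfl⟩ := h1
  refine climb c.wf h2 H0 (by change 0 ≤ R; linarith) (fun a ha => ⟨_, hA a, fun x hx => ?_⟩)
    (fun i hi x _ => c.E_ne ?_ ?_ x) (fun q' hq' => hsd _ (List.suffix_append _ _) ?_)
    List.suffix_rfl
  · have ha' : a ∈ T.top := h2.subset (List.mem_append_left _ ha)
    exact ⟨c.s_Ph ha' x, hom a ha' x hx⟩
  · rintro rfl
    exact (List.nodup_append.1 (h2.sublist.nodup c.wf.nd)).2.2 _ hi _ List.mem_cons_self rfl
  · exact (inr_mem.1 (h2.subset (List.mem_append_left _ hi))).le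
  · obtain ⟨s, rfl⟩ := hq'
    exact List.IsSuffix.trans ⟨s, by simp⟩ h2

end Ctx

/-- coordinates that commute with everything -/
theorem Ctx.ind_mm' (c : Ctx T k β) {k' : ι} (hk : k' ≠ k) (h1 : Sum.inl k' ∉ T.lv (T.lab k))
    (h2 : k' ∉ T.Fv ∨ T.lab k < T.lab k') : Ind k' (mm T k t) ∧
      (∀ x w, Ph T k t (update x k' w) = update (Ph T k t x) k' w) ∧ Ind k' (bb T k t) := by
  have i1 := (c.wf.ind _ c.hj k' h1 h2).1
  have i2 : Ind k' (T.lin (T.lv (T.lab k)) (T.ρ (T.lab k))) := Tw.ind_lin (fun a ha =>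
    (c.wf.ind_s c.lo h1 (fun hf i hi => (inr_mem.1 hi).trans (h2.resolve_left fun h => h hf))
      ha).1) _
  have i3 : Ind k' (mm T k t) := fun x w => by simp only [mm, update_comm hk, i1 _ w, i2 x w]
  have i4 : ∀ x w, Ph T k t (update x k' w) = update (Ph T k t x) k' w := fun x w => by
    rw [Ph, Ph, i3 x w, update_of_ne hk.symm, update_comm hk]
  exact ⟨i3, i4, fun x w => by simp only [bb, i4, update_comm hk, i1 _ w]⟩

theorem Ctx.wf' (c : Ctx T k β) {M : ℝ} (y : Tay T k v M) (hR : T.R ≤ R) (ht : 0 < t)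
    (hB : (T.R + 1) * (Bc T k β M + 2) ≤ R) : (unt T k t β R).WF := by
  have h := c.wf
  have hu : ∀ i < T.p, (unt T k t β R).fr.A (T.lv i) ((unt T k t β R).u i) ∧
      RR ((unt T k t β R).D (T.lv i)) ((unt T k t β R).u i) := by
    intro i hi
    rcases lt_trichotomy i (T.lab k) with h1 | rfl | h1
    · have H := c.rel0 (t := t) hR (lv_suffix T h1.le)
      rw [show (unt T k t β R).u i = T.u i ∘ id from funext (c.u_lo h1)]
      exact ⟨H.cl _ (h.uA i hi), H.rr (h.uR i hi)⟩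
    · have H := c.rel0 (t := t) hR List.suffix_rfl
      obtain ⟨⟨h1, h2⟩, -⟩ := C5_tay h c.lo c.hk (c.free List.suffix_rfl c.hk) (h.uA _ hi)
        (h.uR _ hi) 0
      rw [show (unt T k t β R).u (T.lab k) = tc k 0 (T.u (T.lab k)) ∘ id from
        funext fun x => by simp [c.u_j, tc]]
      exact ⟨H.cl _ h1, H.rr h2⟩
    · have H := c.rel y hR ht hB (lv_suffix' T h1) (lv_top T hi.le)
      simp only [unt, if_neg h1.ne']
      refine ⟨A3_add H.ok (H.cl _ (h.uA i hi))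
        ((A4_lift H.ok (lv_suffix' T h1) (c.bb_A y hR ht)).const_mul _), fun x hx hr => ?_⟩
      have e1 : (T.u i (Ph T k t x)).im = 0 := H.rr (h.uR i hi) x hx hr
      rw [Complex.add_im, e1, Complex.im_ofReal_mul,
        c.bb_rr hR ht x (D_suffix (lv_suffix' T h1) hx) hr]
      simp
  refine ⟨h.R1.trans hR, fun k' hk' => ?_, by rw [unt_top]; exact h.nd,
    by rw [unt_top]; exact h.dj, fun k' hk' => ?_, fun _ _ => rfl, fun i hi x hx => ?_,
    fun i hi => by rw [unt_lv]; exact (hu i hi).1, fun i hi => by rw [unt_lv]; exact (hu i hi).2,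
    fun i hi k' h1 h2 => ?_, h.ρ0, h.c0, by rw [unt_lv]; exact h.ρs, by rw [unt_lv]; exact h.ρp,
    by rw [unt_lv]; exact h.ρm⟩
  · have := h.r0 k' hk'
    by_cases e : k' = k
    · subst e; simpa [unt] using this
    · simpa [unt, update_of_ne e] using this
  · by_cases e : k' = k
    · subst e; simpa [unt] using c.hj
    · simpa [unt, update_of_ne e] using h.lab k' hk'
  · rw [unt_lv] at hx ⊢
    change _ = _ - (unt T k t β R).lin _ (T.c i) x
    rcases lt_trichotomy i (T.lab k) with h1 | rfl | h1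
    · rw [c.s_lo (inr_mem.2 h1), c.E_lo h1, c.lin_eq _ (lv_suffix T h1.le)]
      exact h.sL i hi x ((c.rel0 hR (lv_suffix T h1.le)).maps hx)
    · rw [c.s_j, c.E_j, c.lin_eq _ List.suffix_rfl,
        h.sL _ hi _ (c.upd0 (x := x) ((c.rel0 hR List.suffix_rfl).maps hx)), c.lin_lo]
    · have e := h.sL i hi _ ((c.rel y hR ht hB (lv_suffix' T h1) (lv_top T hi.le)).maps hx)
      rw [c.s_Ph (R := R) (inr_mem.2 hi), c.lin_Ph (R := R) (lv_top T hi.le), c.b3 i h1 hi,
        ← c.E_ne (R := R) h1.ne' hi.le] at e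
      push_cast at e ⊢
      linear_combination e
  · rw [unt_lv] at h1
    by_cases e : k' = k
    · subst e
      have h3 : i ≤ T.lab k' := by simpa [unt, c.hk, Nat.lt_succ_iff] using h2
      rcases h3.lt_or_eq with h3 | rfl
      · rw [c.s_lo (inr_mem.2 h3), show (unt T k' t β R).u i = T.u i from funext (c.u_lo h3)]
        exact h.ind i hi k' h1 (Or.inr h3)
      · exact ⟨fun x w => by rw [c.s_j, c.s_j, update_idem],
          fun x w => by rw [c.u_j, c.u_j, update_idem]⟩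
    have h2' : k' ∉ T.Fv ∨ i < T.lab k' := by simpa [unt, update_of_ne e] using h2
    obtain ⟨i1, i2⟩ := h.ind i hi k' h1 h2'
    rcases lt_trichotomy i (T.lab k) with h3 | rfl | h3
    · rw [c.s_lo (inr_mem.2 h3), show (unt T k t β R).u i = T.u i from funext (c.u_lo h3)]
      exact ⟨i1, i2⟩
    · exact ⟨fun x w => by rw [c.s_j, c.s_j, update_comm e, i1],
        fun x w => by rw [c.u_j, c.u_j, update_comm e, i2]⟩
    · obtain ⟨-, i3, i4⟩ := c.ind_mm' (t := t) e (fun h4 => h1 ((lv_suffix T h3.le).subset h4))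
        (h2'.imp id h3.trans)
      exact ⟨fun x w => by simp only [unt, Sum.elim_inr, i3, i4 x w, i1 _ w],
        fun x w => by simp only [unt, if_neg h3.ne', i3, i4 x w, i2 _ w]⟩

end Unt

end Crest.Agent.N207.O
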